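import Vale.Agent.P002.SeedTwo

/-!
Polynomial certificates of injectivity of linear systems depending on parameters, and a generic
special linear matrix satisfying a polynomial condition.
-/

namespace Vale.Agent.P002

open Matrix MvPolynomial Filter Topology

variable {ι q : Type*} [Fintype q]

/-- An injective system of linear equations has an invertible square subsystem. -/
lemma exists_cert_minor [DecidableEq q] (e : ι → q → ℂ)
    (h : ∀ v : q → ℂ, (∀ i, ∑ p, e i p * v p = 0) → v = 0) :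
    ∃ g : q → ι, (Matrix.of fun a p => e (g a) p).det ≠ 0 := by
  classical
  have hsp : Submodule.span ℂ (Set.range e) = ⊤ := by
    by_contra hne
    obtain ⟨x, -, hx⟩ := SetLike.exists_of_lt (lt_top_iff_ne_top.2 hne)
    obtain ⟨φ, hφx, hφ⟩ := Submodule.exists_dual_map_eq_bot_of_notMem hx inferInstance
    have hrep : ∀ w : q → ℂ, φ w = ∑ p, w p * φ (Pi.single p 1) := fun w => by
      conv_lhs => rw [← Finset.univ_sum_single w, map_sum]
      refine Finset.sum_congr rfl fun p _ => ?_
      rw [← smul_eq_mul, ← map_smul, ← Pi.single_smul]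
      simp
    have h0 := h (fun p => φ (Pi.single p 1)) fun i => by
      rw [← hrep]
      have hm : φ (e i) ∈ (Submodule.span ℂ (Set.range e)).map φ :=
        Submodule.mem_map_of_mem (Submodule.subset_span (Set.mem_range_self i))
      rwa [hφ, Submodule.mem_bot] at hm
    refine hφx ?_
    rw [hrep]
    exact Finset.sum_eq_zero fun p _ => by rw [congrFun h0 p, Pi.zero_apply, mul_zero]
  obtain ⟨f, hfmem, -, hli⟩ := Submodule.exists_fun_fin_finrank_span_eq ℂ (Set.range e)
  choose g hg using hfmem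
  have hN : Module.finrank ℂ (Submodule.span ℂ (Set.range e)) = Fintype.card q := by
    rw [hsp, finrank_top, Module.finrank_fintype_fun_eq_card]
  let s : q ≃ Fin (Module.finrank ℂ (Submodule.span ℂ (Set.range e))) :=
    (Fintype.equivFin q).trans (finCongr hN.symm)
  refine ⟨fun a => g (s a), ?_⟩
  rw [← isUnit_iff_ne_zero, ← Matrix.isUnit_iff_isUnit_det, ← Matrix.linearIndependent_rows_iff_isUnit]
  have : (Matrix.of fun a p => e (g (s a)) p).row = f ∘ s := funext fun a => hg (s a)
  rw [this]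
  exact hli.comp s s.injective

/-- An invertible square subsystem forces injectivity. -/
lemma eq_zero_of_cert_minor [DecidableEq q] (e : ι → q → ℂ) (g : q → ι)
    (hg : (Matrix.of fun a p => e (g a) p).det ≠ 0) (v : q → ℂ)
    (hv : ∀ i, ∑ p, e i p * v p = 0) : v = 0 :=
  Matrix.eq_zero_of_mulVec_eq_zero hg (funext fun a => hv (g a))

/-- A polynomial certifying injectivity of a system with polynomial coefficients. -/
theorem exists_cert {σ ι q : Type*} [Fintype q] (E : ι → q → MvPolynomial σ ℂ) (x₁ : σ → ℂ)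
    (h : ∀ v : q → ℂ, (∀ i, ∑ p, eval x₁ (E i p) * v p = 0) → v = 0) :
    ∃ P, eval x₁ P ≠ 0 ∧ ∀ x, eval x P ≠ 0 →
      ∀ v : q → ℂ, (∀ i, ∑ p, eval x (E i p) * v p = 0) → v = 0 := by
  classical
  obtain ⟨g, hg⟩ := exists_cert_minor (fun i p => eval x₁ (E i p)) h
  have hev : ∀ x, eval x (Matrix.of fun a p => E (g a) p).det =
      (Matrix.of fun a p => eval x (E (g a) p)).det := fun x => by
    rw [RingHom.map_det]
    rfl
  exact ⟨(Matrix.of fun a p => E (g a) p).det, by rwa [hev], fun x hx v hv =>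
    eq_zero_of_cert_minor (fun i p => eval x (E i p)) g (by rwa [hev] at hx) v hv⟩

/-- Injectivity of a continuous system persists nearby. -/
theorem inj_near {ι q : Type*} [Fintype q] (f : ι → q → ℂ → ℂ)
    (hc : ∀ i p, ContinuousAt (f i p) 0)
    (h : ∀ v : q → ℂ, (∀ i, ∑ p, f i p 0 * v p = 0) → v = 0) :
    ∀ᶠ ε in 𝓝 (0 : ℂ), ∀ v : q → ℂ, (∀ i, ∑ p, f i p ε * v p = 0) → v = 0 := by
  classical
  obtain ⟨g, hg⟩ := exists_cert_minor (fun i p => f i p 0) h
  have hM : ContinuousAt (fun ε => Matrix.of fun a p => f (g a) p ε) 0 :=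
    continuousAt_pi.2 fun a => continuousAt_pi.2 fun p => hc (g a) p
  have hd : ContinuousAt (fun ε => (Matrix.of fun a p => f (g a) p ε).det) 0 :=
    (continuous_id.matrix_det).continuousAt.comp' hM
  exact (hd.eventually_ne hg).mono fun ε hε v hv => eq_zero_of_cert_minor (fun i p => f i p ε) g hε v hv

/-- A system vanishing at `0` whose derivative is injective is injective at some other parameter. -/
theorem exists_inj_of_deriv {ι q : Type*} [Fintype q] (f : ι → q → ℂ → ℂ)
    (hd : ∀ i p, DifferentiableAt ℂ (f i p) 0) (h0 : ∀ i p, f i p 0 = 0)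
    (h : ∀ v : q → ℂ, (∀ i, ∑ p, deriv (f i p) 0 * v p = 0) → v = 0) :
    ∃ ε : ℂ, ε ≠ 0 ∧ ∀ v : q → ℂ, (∀ i, ∑ p, f i p ε * v p = 0) → v = 0 := by
  have hev := inj_near (fun i p => dslope (f i p) 0)
    (fun i p => continuousAt_dslope_same.2 (hd i p)) (by simpa [dslope_same] using h)
  obtain ⟨ε, hε, hne⟩ := ((hev.filter_mono nhdsWithin_le_nhds).and
    (self_mem_nhdsWithin : {(0 : ℂ)}ᶜ ∈ 𝓝[≠] (0 : ℂ))).exists
  refine ⟨ε, hne, fun v hv => hε v fun i => ?_⟩
  have e : ∀ p, ε * dslope (f i p) 0 ε = f i p ε := fun p => by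
    have := sub_smul_dslope (f i p) 0 ε
    simpa [h0 i p] using this
  refine (mul_eq_zero.1 ?_).resolve_left (by simpa using hne : ε ≠ 0)
  rw [Finset.mul_sum]
  simpa [← mul_assoc, e] using hv i

/-- A special linear matrix making countably many translates good, at which a nonzero polynomial
does not vanish up to scaling. -/
theorem exists_good_cond {r : ℕ} [NeZero r] (hr : 2 ≤ r) {κ : Type*} [Countable κ] (V : κ → SLC r)
    (P : MvPolynomial (Fin r × Fin r) ℂ) (hP : P ≠ 0) :
    ∃ G : SLC r, (∀ k, Avoids (G * V k).val) ∧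
      ∃ c : ℂ, c ≠ 0 ∧ eval (fun p => c * G.val p.1 p.2) P ≠ 0 := by
  classical
  obtain ⟨x, hx⟩ : ∃ x : Fin r × Fin r → ℂ,
      eval x (P * (Matrix.mvPolynomialX (Fin r) (Fin r) ℂ).det) ≠ 0 := by
    by_contra hne
    push Not at hne
    exact mul_ne_zero hP (Matrix.det_mvPolynomialX_ne_zero (Fin r) ℂ)
      (MvPolynomial.funext fun y => by rw [hne y, map_zero])
  rw [map_mul, mul_ne_zero_iff] at hx
  set M : Mat r := Matrix.of x.curry with hM
  have hdet : M.det ≠ 0 := by
    have := hx.2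
    rw [RingHom.map_det] at this
    convert this using 2
    ext a b
    simp [hM, Matrix.mvPolynomialX_apply]
  obtain ⟨c, hc⟩ := IsAlgClosed.exists_pow_nat_eq M.det (n := r) (by omega)
  have hc0 : c ≠ 0 := fun e => hdet (by rw [← hc, e, zero_pow (NeZero.ne r)])
  have hdN : (c⁻¹ • M).det = 1 := by
    rw [Matrix.det_smul, Fintype.card_fin, ← hc, ← mul_pow, inv_mul_cancel₀ hc0, one_pow]
  obtain ⟨G, hG⟩ := exists_good (r := r) (by omega) V
  obtain ⟨f, hf, hf0, hf1⟩ := exists_path hr G ⟨c⁻¹ • M, hdN⟩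
  let F₁ : κ × {p : (Fin r → ℕ) × (Fin r → ℕ) // ¬ ConstDiff p.1 p.2} → ℂ → ℂ := fun a s =>
    eval (fun v => ((f s).val * (V a.1).val) v.1 v.2) (entryPoly a.2.1.1 a.2.1.2)
  let F₂ : Unit → ℂ → ℂ := fun _ s => eval (fun v => c * (f s).val v.1 v.2) P
  have h₁ : ∀ a, Differentiable ℂ (F₁ a) := fun a =>
    (contDiff_eval (f := fun s (v : Fin r × Fin r) => ((f s).val * (V a.1).val) v.1 v.2)
      (fun v => (hf.mul (Smooth.const (V a.1).val)) v.1 v.2) _).differentiable (by simp)
  have h₂ : ∀ a, Differentiable ℂ (F₂ a) := fun _ =>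
    (contDiff_eval (f := fun s (v : Fin r × Fin r) => c * (f s).val v.1 v.2)
      (fun v => contDiff_const.mul (hf v.1 v.2)) _).differentiable (by simp)
  obtain ⟨s, hs⟩ := (dense_avoid' (Sum.elim F₁ F₂)
    (by rintro (a | a); exacts [h₁ a, h₂ a]) (by
      rintro (a | a)
      · refine ⟨0, ?_⟩
        show eval _ _ ≠ 0
        rw [hf0]
        exact hG a.1 a.2.1.1 a.2.1.2 a.2.2
      · refine ⟨1, ?_⟩
        show eval _ _ ≠ 0
        rw [hf1, show (fun v : Fin r × Fin r => c * (c⁻¹ • M) v.1 v.2) = x from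
          funext fun v => by simp [hM, hc0]]
        exact hx.1)).nonempty
  exact ⟨f s, fun k d d' h => hs (Sum.inl (k, ⟨(d, d'), h⟩)), c, hc0, hs (Sum.inr ())⟩

end Vale.Agent.P002
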