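import Vale.Agent.P002.PunctTwo.Defs

/-!
Block Krylov spans of matrices congruent to a monomial matrix with a cycle on each block.
The congruence is read in the quotient of the algebraic integers by the modulus.
-/

namespace Vale.Agent.P002

open Matrix

variable {r : ℕ} {K : ℕ} {m : ℕ}

/-- An algebraic integer which is a unit modulo `m` is non-zero. -/
private lemma ne_zero_of_isUnit_mod (hm : 2 ≤ m) {x : (integralClosure ℤ ℂ)}
    (h : IsUnit (Ideal.Quotient.mk (Ideal.span {(m : (integralClosure ℤ ℂ))}) x)) : (x : ℂ) ≠ 0 := by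
  intro hx
  obtain rfl : x = 0 := Subtype.ext hx
  rw [map_zero, isUnit_zero_iff] at h
  have h1 : (1 : (integralClosure ℤ ℂ)) ∈ Ideal.span {(m : (integralClosure ℤ ℂ))} :=
    Ideal.Quotient.eq_zero_iff_mem.1 (by rw [map_one]; exact h.symm)
  obtain ⟨e, he⟩ := Ideal.mem_span_singleton'.1 h1
  have he' : (e : ℂ) * (m : ℂ) = 1 := by simpa using congrArg Subtype.val he
  have hq : IsIntegral ℤ (algebraMap ℚ ℂ (1 / (m : ℚ))) := by
    have : algebraMap ℚ ℂ (1 / (m : ℚ)) = (e : ℂ) := by
      have hm0 : (m : ℂ) ≠ 0 := by exact_mod_cast (show m ≠ 0 by omega)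
      rw [eq_div_iff hm0 |>.2 he']
      simp
    rw [this]
    exact e.2
  rw [isIntegral_algebraMap_iff (algebraMap ℚ ℂ).injective] at hq
  obtain ⟨z, hz⟩ := IsIntegrallyClosed.isIntegral_iff.1 hq
  have hz' : (z : ℚ) * (m : ℚ) = 1 := by
    rw [show (z : ℚ) = 1 / (m : ℚ) by simpa using hz]
    have : (m : ℚ) ≠ 0 := by exact_mod_cast (show m ≠ 0 by omega)
    field_simp
  have hz'' : z * (m : ℤ) = 1 := by exact_mod_cast hz'
  rcases Int.eq_one_or_neg_one_of_mul_eq_one hz'' with h | h <;>
    (rw [h] at hz''; omega)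

/-- The congruence, lifted to the algebraic integers. -/
private lemma exists_lift {π : Equiv.Perm (Fin r)} {B : Mat r} {u : Fin r → ℂ}
    (hu : ∀ a, IsIntegral ℤ (u a) ∧ IsIntegral ℤ (u a)⁻¹ ∧ u a ≠ 0)
    (hB : ∀ a b, ∃ e, IsIntegral ℤ e ∧ B a b = (if b = π a then u a else 0) + (m : ℂ) * e) :
    ∃ (B₀ : Matrix (Fin r) (Fin r) (integralClosure ℤ ℂ)) (u₀ : Fin r → (integralClosure ℤ ℂ) ⧸ Ideal.span {(m : (integralClosure ℤ ℂ))}),
      (∀ a, IsUnit (u₀ a)) ∧ (∀ a b, (B₀ a b : ℂ) = B a b) ∧
      ∀ a b, Ideal.Quotient.mk _ (B₀ a b) = if b = π a then u₀ a else 0 := by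
  choose e he hBe using hB
  let uu : Fin r → (integralClosure ℤ ℂ) := fun a => ⟨u a, (hu a).1⟩
  have hmint : IsIntegral ℤ (m : ℂ) := ((m : (integralClosure ℤ ℂ))).2
  refine ⟨fun a b => (if b = π a then uu a else 0) + (m : (integralClosure ℤ ℂ)) * ⟨e a b, he a b⟩,
    fun a => Ideal.Quotient.mk _ (uu a), fun a => ?_, fun a b => ?_, fun a b => ?_⟩
  · refine IsUnit.map _ (IsUnit.of_mul_eq_one ⟨(u a)⁻¹, (hu a).2.1⟩ (Subtype.ext ?_))
    simp [uu, (hu a).2.2]
  · rw [hBe a b]
    by_cases h : b = π a <;> simp [uu, h]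
  · rw [map_add, map_mul, Ideal.Quotient.eq_zero_iff_mem.2
      (Ideal.mem_span_singleton_self (m : (integralClosure ℤ ℂ))), zero_mul, add_zero]
    split_ifs <;> simp

variable (π : Equiv.Perm (Fin r)) (blk : Fin r → Fin K) (hblk : ∀ a, blk (π a) = blk a)
  (hcyc : ∀ a b, blk a = blk b → ∃ i : ℕ, (π ^ i) a = b) (B : Mat r) (hm : 2 ≤ m)
  (u : Fin r → ℂ) (hu : ∀ a, IsIntegral ℤ (u a) ∧ IsIntegral ℤ (u a)⁻¹ ∧ u a ≠ 0)
  (hB : ∀ a b, ∃ e, IsIntegral ℤ e ∧ B a b = (if b = π a then u a else 0) + (m : ℂ) * e)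
  (hBd : ∀ a b, blk a ≠ blk b → B a b = 0)

include hblk hcyc hm hu hB hBd

/-- The first powers of `B` (one for each point of the block) applied to a standard vector span
its block. -/
private lemma span_block (a₀ : Fin r) (x : Fin r → ℂ) (hx : ∀ a, blk a ≠ blk a₀ → x a = 0) :
    x ∈ Submodule.span ℂ ((fun i : ℕ => (B ^ (i + 1)) *ᵥ Pi.single a₀ (1 : ℂ)) ''
      Set.Iio (Finset.univ.filter fun b => blk b = blk a₀).card) := by
  classical
  obtain ⟨B₀, u₀, hu₀, hB₀, hφ⟩ := exists_lift hu hB
  set φ := Ideal.Quotient.mk (Ideal.span {(m : (integralClosure ℤ ℂ))})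
  set v : ℕ → Fin r → ℂ := fun i => (B ^ (i + 1)) *ᵥ Pi.single a₀ (1 : ℂ) with hv
  have hsymm : ∀ a b, b = π a ↔ a = π.symm b := fun a b => by
    rw [Equiv.eq_symm_apply, eq_comm]
  have hblk' : ∀ a, blk (π.symm a) = blk a := fun a => by
    conv_rhs => rw [← π.apply_symm_apply a, hblk]
  have key : ∀ i, ∃ (w : Fin r → (integralClosure ℤ ℂ)) (p : Fin r) (t : (integralClosure ℤ ℂ) ⧸ Ideal.span {(m : (integralClosure ℤ ℂ))}),
      p = (π.symm ^ (i + 1)) a₀ ∧ blk p = blk a₀ ∧ IsUnit t ∧ (∀ a, (w a : ℂ) = v i a) ∧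
      (∀ a, φ (w a) = if a = p then t else 0) ∧ (∀ a, blk a ≠ blk a₀ → v i a = 0) := by
    intro i
    induction i with
    | zero =>
      have h0 : ∀ a, v 0 a = B a a₀ := fun a => by simp [hv]
      refine ⟨fun a => B₀ a a₀, π.symm a₀, u₀ (π.symm a₀), by simp, hblk' a₀, hu₀ _,
        fun a => by rw [h0, hB₀], fun a => ?_, fun a ha => by rw [h0, hBd a a₀ ha]⟩
      simp only [hφ, hsymm a a₀]
      split_ifs with h <;> simp [h]
    | succ i ih =>
      obtain ⟨w, p, t, hp, hpb, ht, hw, hwφ, hsupp⟩ := ih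
      have hstep : ∀ a, v (i + 1) a = ∑ b, B a b * v i b := by
        intro a
        have : v (i + 1) = B *ᵥ v i := by
          simp only [hv, mulVec_mulVec, ← pow_succ']
        rw [this]
        rfl
      refine ⟨fun a => ∑ b, B₀ a b * w b, π.symm p, u₀ (π.symm p) * t, ?_,
        (hblk' p).trans hpb, (hu₀ _).mul ht, fun a => ?_, fun a => ?_, fun a ha => ?_⟩
      · rw [pow_succ', Equiv.Perm.mul_apply, hp]
      · rw [hstep]
        simp [hB₀, hw]
      · simp only [map_sum, map_mul, hφ, hwφ]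
        rw [Finset.sum_eq_single p (fun b _ hb => by simp [hb]) (by simp)]
        simp only [if_true, hsymm a p]
        split_ifs with h <;> simp [h]
      · rw [hstep]
        refine Finset.sum_eq_zero fun b _ => ?_
        by_cases hb : blk b = blk a₀
        · rw [hBd a b (by rw [hb]; exact ha), zero_mul]
        · rw [hsupp b hb, mul_zero]
  choose w p t hp hpb ht hw hwφ hsupp using key
  have hhit : ∀ a : {a // blk a = blk a₀}, ∃ i,
      i < (Finset.univ.filter fun b => blk b = blk a₀).card ∧ p i = a := by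
    intro a
    obtain ⟨j, hj⟩ := hcyc a a₀ a.2
    have hex : ∃ i, p i = a := by
      have hpos : 0 < orderOf π.symm := orderOf_pos _
      refine ⟨j + orderOf π.symm - 1, ?_⟩
      rw [hp, show j + orderOf π.symm - 1 + 1 = j + orderOf π.symm by omega, pow_add,
        pow_orderOf_eq_one, mul_one, show π.symm = π⁻¹ from rfl, inv_pow, Equiv.Perm.inv_eq_iff_eq]
      exact hj.symm
    refine ⟨Nat.find hex, ?_, Nat.find_spec hex⟩
    have hinj : ∀ j k, j < k → k ≤ Nat.find hex → p j ≠ p k := by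
      intro j k hjk hk h
      refine Nat.find_min hex (m := j + (Nat.find hex - k)) (by omega) ?_
      have h' := Nat.find_spec hex
      refine Eq.trans ?_ h'
      have hshift : ∀ d i, p (d + i) = (π.symm ^ d) (p i) := fun d i => by
        rw [hp, hp, ← Equiv.Perm.mul_apply, ← pow_add, Nat.add_assoc]
      generalize Nat.find hex = N at hk
      rw [Nat.add_comm j, hshift, h, ← hshift, Nat.sub_add_cancel hk]
    have hcard : (Finset.range (Nat.find hex + 1)).card
        ≤ (Finset.univ.filter fun b => blk b = blk a₀).card := by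
      refine Finset.card_le_card_of_injOn p (fun i _ => by simp [hpb i]) ?_
      intro j hj k hk h
      simp only [Finset.coe_range, Set.mem_Iio] at hj hk
      rcases lt_trichotomy j k with hlt | heq | hlt
      · exact absurd h (hinj j k hlt (by omega))
      · exact heq
      · exact absurd h.symm (hinj k j hlt (by omega))
    simpa using hcard
  choose idx hlt hidx using hhit
  let M₀ : Matrix {a // blk a = blk a₀} {a // blk a = blk a₀} (integralClosure ℤ ℂ) := fun a b => w (idx b) a
  have hdiag : φ.mapMatrix M₀ = diagonal fun b => t (idx b) := by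
    ext a b
    show φ (w (idx b) a) = _
    rw [hwφ, hidx, diagonal_apply]
    simp only [← Subtype.ext_iff]
    split_ifs with h <;> simp [h]
  have hdet : IsUnit (φ M₀.det) := by
    rw [RingHom.map_det, hdiag, det_diagonal, IsUnit.prod_iff]
    exact fun b _ => ht _
  set M : Matrix {a // blk a = blk a₀} {a // blk a = blk a₀} ℂ :=
    fun a b => v (idx b) a with hMdef
  have hM : IsUnit M.det := by
    have hmap : M = (integralClosure ℤ ℂ).val.toRingHom.mapMatrix M₀ := by
      ext a b
      show v (idx b) a = (integralClosure ℤ ℂ).val.toRingHom (w (idx b) a)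
      exact (hw _ _).symm
    rw [hmap, ← RingHom.map_det, isUnit_iff_ne_zero]
    exact ne_zero_of_isUnit_mod hm hdet
  set coef := M⁻¹ *ᵥ (fun a : {a // blk a = blk a₀} => x a)
  have hMx : M *ᵥ coef = fun a : {a // blk a = blk a₀} => x a := by
    rw [mulVec_mulVec, mul_nonsing_inv _ hM, one_mulVec]
  have hxeq : x = ∑ b, coef b • v (idx b) := by
    funext a
    by_cases ha : blk a = blk a₀
    · have := congrFun hMx ⟨a, ha⟩
      simp only [mulVec, dotProduct, hMdef] at this
      simp [Finset.sum_apply, ← this, mul_comm]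
    · simp [Finset.sum_apply, hsupp _ a ha, hx a ha]
  rw [hxeq]
  exact Submodule.sum_mem _ fun b _ =>
    Submodule.smul_mem _ _ (Submodule.subset_span ⟨idx b, hlt b, rfl⟩)

/-- The first powers of `B` separate the vectors supported on a block, from the left. -/
theorem col_krylov (q : Fin r) (w : Fin r → ℂ) (hw : ∀ a, blk a ≠ blk q → w a = 0)
    (h : ∀ j : ℕ, j < (Finset.univ.filter fun b => blk b = blk q).card →
      ∑ a, w a * (B ^ (j + 1)) a q = 0) : w = 0 := by
  classical
  funext a
  by_cases ha : blk a = blk q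
  swap
  · exact hw a ha
  have hspan := span_block π blk hblk hcyc B hm u hu hB hBd q (Pi.single a 1)
    fun b hb => Pi.single_eq_of_ne (fun h' => hb (by rw [h', ha])) _
  have hzero : ∀ x ∈ Submodule.span ℂ ((fun i : ℕ => (B ^ (i + 1)) *ᵥ Pi.single q (1 : ℂ)) ''
      Set.Iio (Finset.univ.filter fun b => blk b = blk q).card), w ⬝ᵥ x = 0 := by
    intro x hx
    induction hx using Submodule.span_induction with
    | mem x hx =>
      obtain ⟨j, hj, rfl⟩ := hx
      simpa [dotProduct] using h j hj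
    | zero => simp
    | add x y _ _ hx hy => rw [dotProduct_add, hx, hy, add_zero]
    | smul c x _ hx => rw [dotProduct_smul, hx, smul_zero]
  simpa using hzero _ hspan

/-- The first powers of `B` separate the vectors supported on a block, from the right. -/
theorem row_krylov (p : Fin r) (w : Fin r → ℂ) (hw : ∀ b, blk b ≠ blk p → w b = 0)
    (h : ∀ i : ℕ, i < (Finset.univ.filter fun b => blk b = blk p).card →
      ∑ b, (B ^ (i + 1)) p b * w b = 0) : w = 0 := by
  have hblk' : ∀ a, blk (π.symm a) = blk a := fun a => by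
    conv_rhs => rw [← π.apply_symm_apply a, hblk]
  have hcyc' : ∀ a b, blk a = blk b → ∃ i : ℕ, (π.symm ^ i) a = b := fun a b hab => by
    obtain ⟨i, hi⟩ := hcyc b a hab.symm
    refine ⟨i, ?_⟩
    rw [show π.symm = π⁻¹ from rfl, inv_pow, ← hi]
    simp
  have hB' : ∀ a b, ∃ e, IsIntegral ℤ e ∧
      Bᵀ a b = (if b = π.symm a then u (π.symm a) else 0) + (m : ℂ) * e := fun a b => by
    obtain ⟨e, he, hBe⟩ := hB b a
    refine ⟨e, he, ?_⟩
    rw [transpose_apply, hBe]
    congr 1
    by_cases hab : a = π b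
    · subst hab; simp
    · rw [if_neg hab, if_neg fun h' => hab (by rw [h', Equiv.apply_symm_apply])]
  refine col_krylov π.symm blk hblk' hcyc' Bᵀ hm (fun a => u (π.symm a)) (fun a => hu _) hB'
    (fun a b hab => hBd b a fun h' => hab h'.symm) p w hw fun i hi => ?_
  simpa [← transpose_pow, mul_comm] using h i hi

end Vale.Agent.P002
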