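import Vale.Agent.P002.Punct.Nbhd

/-!
Block triangular tails used as base points in genus two.
-/

namespace Vale.Agent.P002

open Matrix

variable {r N : ℕ}

/-- The tail letters have block triangular inverses, one of them being diagonal with separated
block torus and one of them congruent to a block cycle. -/
structure BlockTail (A : Fin (N + 1) → SLC r) where
  /-- Number of blocks. -/
  K : ℕ
  /-- The block of an index. -/
  blk : Fin r → Fin K
  surj : Function.Surjective blk
  /-- Entries of the diagonal letter. -/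
  ν : Fin r → ℂ
  /-- The diagonal letter. -/
  k₁ : Fin N
  diag : (A k₁.succ)⁻¹.val = Matrix.diagonal ν
  inj : Function.Injective ν
  /-- Orders separating the blocks. -/
  p : Fin K → ℕ
  prime : ∀ c, (p c).Prime
  inj_p : Function.Injective p
  large : ∀ c, 2 * r + 2 < p c
  /-- Block roots of unity. -/
  ξ : Fin K → ℂ
  prim : ∀ c, IsPrimitiveRoot (ξ c) (p c)
  /-- An exponent killing the part within the blocks. -/
  M₀ : ℕ
  M₀_pos : 0 < M₀
  /-- The common factor. -/
  lam : ℂ
  lam_ne : lam ≠ 0
  torus : ∀ a, ν a ^ M₀ = lam * ξ (blk a)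
  upper : ∀ (k : Fin N) a b, blk b < blk a → (A k.succ)⁻¹.val a b = 0
  /-- The cyclic letter. -/
  k₂ : Fin N
  /-- The cycles. -/
  π : Equiv.Perm (Fin r)
  blk_π : ∀ a, blk (π a) = blk a
  cycle : ∀ a b, blk a = blk b → ∃ i : ℕ, (π ^ i) a = b
  /-- The modulus of the congruence. -/
  m : ℕ
  hm : 2 ≤ m
  /-- Entries of the monomial matrix. -/
  u : Fin r → ℂ
  unit : ∀ a, IsIntegral ℤ (u a) ∧ IsIntegral ℤ (u a)⁻¹ ∧ u a ≠ 0
  cong : ∀ a b, ∃ e : ℂ, IsIntegral ℤ e ∧
    (A k₂.succ)⁻¹.val a b = (if b = π a then u a else 0) + (m : ℂ) * e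

/-- The condition on a tail does not involve the first entry. -/
def BlockTail.congrTail {A B : Fin (N + 1) → SLC r} (h : BlockTail A)
    (e : ∀ k : Fin N, B k.succ = A k.succ) : BlockTail B :=
  { h with
    diag := by rw [e]; exact h.diag
    upper := fun k a b hab => by rw [e]; exact h.upper k a b hab
    cong := fun a b => by rw [e]; exact h.cong a b }

end Vale.Agent.P002
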