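import Mathlib.Combinatorics.Nullstellensatz
import Vale.Agent.P002.PunctTwo.Defs
import Vale.Agent.P002.SeedTwo

/-!
At a block triangular tail the twist directions along powers span the compatible variations,
provided the first generator is in general position with respect to the blocks.
-/

namespace Vale.Agent.P002

open Matrix MvPolynomial Filter Topology

variable {r N : ℕ}

/-- The twist direction along a power. -/
noncomputable def twDir (A : Fin (N + 1) → SLC r) (q : List (Fin N) × ℕ) :
    Fin (N + 1) → Mat r :=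
  steps A q.1 (Pi.single 0 (tl ((A 0 * vw A q.1) ^ (q.2 + 1)).val))

/-- The first covector attached to weights on the pairs of indices. -/
def dlt (M : Mat r) (φ : Fin r → Fin r → ℂ) : Mat r := Matrix.of fun b a => -(M b a * φ a b)

/-- Weights acting entrywise. -/
def had (φ : Fin r → Fin r → ℂ) (U : Mat r) : Mat r := Matrix.of fun a b => φ a b * U a b

/-- Block scalars. -/
def bt {K : ℕ} (blk : Fin r → Fin K) (x : Fin K → ℂ) : Mat r :=
  Matrix.diagonal fun a => x (blk a)

/-- The identity obtained from the twist along a power of a word. -/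
def evW (M : Mat r) (φ : Fin r → Fin r → ℂ) (U : Mat r) (m : ℕ) : ℂ :=
  ((M * U) ^ m * (dlt M φ * U + M * had φ U)).trace

lemma evW_sub_cob (M : Mat r) (φ : Fin r → Fin r → ℂ) (y : Fin r → ℂ) (U : Mat r) (m : ℕ) :
    evW M (fun a b => φ a b - (y a - y b)) U m = evW M φ U m := by
  set T : Mat r := Matrix.diagonal y with hT
  have e1 : dlt M (fun a b => φ a b - (y a - y b)) = dlt M φ - (T * M - M * T) := by
    ext b a
    simp [dlt, hT, Matrix.diagonal_mul, Matrix.mul_diagonal]
    ring
  have e2 : had (fun a b => φ a b - (y a - y b)) U = had φ U - (T * U - U * T) := by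
    ext a b
    simp [had, hT, Matrix.diagonal_mul, Matrix.mul_diagonal]
    ring
  have e3 : ((M * U) ^ m * (T * (M * U) - M * U * T)).trace = 0 := by
    rw [mul_sub, Matrix.trace_sub, sub_eq_zero, ← Matrix.mul_assoc, Matrix.trace_mul_comm,
      ← Matrix.mul_assoc, ← Matrix.mul_assoc, ← pow_succ', pow_succ]
  rw [evW, evW, e1, e2]
  rw [show (dlt M φ - (T * M - M * T)) * U + M * (had φ U - (T * U - U * T)) =
    (dlt M φ * U + M * had φ U) - (T * (M * U) - M * U * T) by
      simp only [sub_mul, mul_sub, Matrix.mul_assoc]; abel]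
  rw [mul_sub, Matrix.trace_sub, e3, sub_zero]

/-- Roots of unity of distinct prime orders separate polynomials of small degree. -/
lemma torus_zero {K : ℕ} {p : Fin K → ℕ} (hp : ∀ c, (p c).Prime) (hinj : Function.Injective p)
    {ξ : Fin K → ℂ} (hξ : ∀ c, IsPrimitiveRoot (ξ c) (p c)) (P : MvPolynomial (Fin K) ℂ)
    (hd : ∀ c, P.totalDegree < p c) (h : ∀ k : ℕ, eval (fun c => ξ c ^ k) P = 0)
    (x : Fin K → ℂ) : eval x P = 0 := by
  classical
  have hP : P = 0 := by
    refine eq_zero_of_eval_zero_at_prod_finset P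
      (fun c => (Finset.range (p c)).image fun i => ξ c ^ i) (fun c => ?_) fun y hy => ?_
    · rw [Finset.card_image_of_injOn fun i hi j hj e => (hξ c).pow_inj
        (Finset.mem_range.1 hi) (Finset.mem_range.1 hj) e, Finset.card_range]
      exact (P.degreeOf_le_totalDegree c).trans_lt (hd c)
    · choose e he hy using fun c => Finset.mem_image.1 (hy c)
      obtain ⟨k, hk⟩ := Nat.chineseRemainderOfFinset e p Finset.univ
        (fun c _ => (hp c).ne_zero) fun a _ b _ hab =>
          (Nat.coprime_primes (hp a) (hp b)).2 fun h => hab (hinj h)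
      rw [show y = fun c => ξ c ^ k from funext fun c => ?_]
      · exact h k
      · rw [← hy c, ← pow_mod_natAbs_orderOf_eq (ξ c) k (hξ c) (hk c (Finset.mem_univ c))]
  rw [hP, map_zero]
where
  pow_mod_natAbs_orderOf_eq (z : ℂ) (k : ℕ) {n i : ℕ} (hz : IsPrimitiveRoot z n)
      (hk : k ≡ i [MOD n]) : z ^ k = z ^ i := by
    rw [← Nat.mod_add_div k n, ← Nat.mod_add_div i n, pow_add, pow_add, pow_mul, pow_mul,
      hz.pow_eq_one, one_pow, one_pow, hk]

/-- Entrywise degree bound. -/
def DegM {K : ℕ} (Q : Matrix (Fin r) (Fin r) (MvPolynomial (Fin K) ℂ)) (d : ℕ) : Prop :=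
  ∀ a b, (Q a b).totalDegree ≤ d

lemma DegM.mul {K : ℕ} {Q Q' : Matrix (Fin r) (Fin r) (MvPolynomial (Fin K) ℂ)} {d d' : ℕ}
    (h : DegM Q d) (h' : DegM Q' d') : DegM (Q * Q') (d + d') := fun a b => by
  rw [Matrix.mul_apply]
  exact (totalDegree_finsetSum _ _).trans (Finset.sup_le fun i _ =>
    (totalDegree_mul _ _).trans (add_le_add (h a i) (h' i b)))

lemma degM_C {K : ℕ} (P : Mat r) : DegM (P.map (C (σ := Fin K))) 0 := fun a b => by simp

lemma DegM.pow {K : ℕ} {Q : Matrix (Fin r) (Fin r) (MvPolynomial (Fin K) ℂ)} {d : ℕ}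
    (h : DegM Q d) : ∀ m : ℕ, DegM (Q ^ m) (m * d)
  | 0 => fun a b => by
    by_cases hab : a = b
    · subst hab; simp
    · simp [hab]
  | m + 1 => by rw [pow_succ, Nat.succ_mul]; exact (h.pow m).mul h

/-- A trace identity along the torus points holds on the whole torus. -/
lemma bt_identity {K : ℕ} {p : Fin K → ℕ} (hp : ∀ c, (p c).Prime) (hinj : Function.Injective p)
    {ξ : Fin K → ℂ} (hξ : ∀ c, IsPrimitiveRoot (ξ c) (p c)) (blk : Fin r → Fin K) {m : ℕ}
    (hm : ∀ c, m + 1 < p c) (P₁ Q₁ P₂ Q₂ P₃ Q₃ : Mat r)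
    (h : ∀ k : ℕ, ((P₁ * bt blk (fun c => ξ c ^ k) * Q₁) ^ m *
      (P₂ * bt blk (fun c => ξ c ^ k) * Q₂ + P₃ * bt blk (fun c => ξ c ^ k) * Q₃)).trace = 0)
    (x : Fin K → ℂ) :
    ((P₁ * bt blk x * Q₁) ^ m * (P₂ * bt blk x * Q₂ + P₃ * bt blk x * Q₃)).trace = 0 := by
  classical
  let Xd : Matrix (Fin r) (Fin r) (MvPolynomial (Fin K) ℂ) := Matrix.diagonal fun a => X (blk a)
  let T : Mat r → Mat r → Matrix (Fin r) (Fin r) (MvPolynomial (Fin K) ℂ) :=
    fun P Q => P.map C * Xd * Q.map C
  let H : MvPolynomial (Fin K) ℂ := (T P₁ Q₁ ^ m * (T P₂ Q₂ + T P₃ Q₃)).trace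
  have hev : ∀ y : Fin K → ℂ, eval y H =
      ((P₁ * bt blk y * Q₁) ^ m * (P₂ * bt blk y * Q₂ + P₃ * bt blk y * Q₃)).trace := fun y => by
    have e : ∀ P Q : Mat r, (eval y).mapMatrix (T P Q) = P * bt blk y * Q := fun P Q => by
      have eC : ∀ P : Mat r, (eval y).mapMatrix (P.map C) = P := fun P => by ext a b; simp
      have eX : (eval y).mapMatrix Xd = bt blk y := by
        ext a b
        by_cases hab : a = b
        · subst hab; simp [Xd, bt]
        · simp [Xd, bt, hab]
      simp only [T, map_mul, eC, eX]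
    calc eval y H = ((eval y).mapMatrix (T P₁ Q₁ ^ m * (T P₂ Q₂ + T P₃ Q₃))).trace :=
          AddMonoidHom.map_trace (eval y).toAddMonoidHom _
      _ = _ := by simp only [map_mul, map_pow, map_add, e]
  have hX : DegM Xd 1 := fun a b => by
    by_cases hab : a = b
    · subst hab; simp [Xd]
    · simp [Xd, hab]
  have hT : ∀ P Q : Mat r, DegM (T P Q) 1 := fun P Q => by
    simpa using ((degM_C P).mul hX).mul (degM_C Q)
  have hdeg : H.totalDegree ≤ m + 1 := by
    have h2 : DegM (T P₂ Q₂ + T P₃ Q₃) 1 := fun a b =>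
      (totalDegree_add _ _).trans (max_le (hT P₂ Q₂ a b) (hT P₃ Q₃ a b))
    have h3 := ((hT P₁ Q₁).pow m).mul h2
    refine (totalDegree_finsetSum _ _).trans (Finset.sup_le fun a _ => ?_)
    simpa using h3 a a
  rw [← hev]
  exact torus_zero hp hinj hξ H (fun c => hdeg.trans_lt (hm c))
    (fun k => by rw [hev]; exact h k) x

namespace BlockTail

variable {A : Fin (N + 1) → SLC r} (H : BlockTail A)

/-- The diagonal blocks of the cyclic letter. -/
def cyc : Mat r :=
  Matrix.of fun a b => if H.blk a = H.blk b then (A H.k₂.succ)⁻¹.val a b else 0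

/-- The torus supported on two blocks. -/
def ind2 (c e : Fin H.K) (t s : ℂ) : Fin H.K → ℂ :=
  fun i => if i = c then t else if i = e then s else 0

/-- The identity on two blocks. -/
def ev2 (M : Mat r) (φ : Fin r → Fin r → ℂ) (u : Mat r) (m : ℕ) (c e : Fin H.K) (t s : ℂ) : ℂ :=
  ((M * (bt H.blk (H.ind2 c e t s) * u)) ^ m *
    (dlt M φ * (bt H.blk (H.ind2 c e t s) * u))).trace

/-- Weights supported between two blocks. -/
def Cross (c e : Fin H.K) (φ : Fin r → Fin r → ℂ) : Prop :=
  ∀ a b, φ a b ≠ 0 → (H.blk a = c ∧ H.blk b = e) ∨ (H.blk a = e ∧ H.blk b = c)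

/-- On two blocks only constant weights satisfy the identities. -/
def PairOK (M : Mat r) (c e : Fin H.K) : Prop :=
  ∀ φ, H.Cross c e φ →
    (∀ m t s, 1 ≤ m → m ≤ 2 * r → H.ev2 M φ 1 m c e t s = 0) →
    (∀ m t s, 1 ≤ m → m ≤ 2 * r → H.ev2 M φ H.cyc m c e t s = 0) →
    ∃ κ : ℂ, ∀ a b, H.blk a = c → H.blk b = e → φ a b = κ ∧ φ b a = -κ

/-- The oriented cycles through three blocks. -/
def triQ (M : Mat r) (c e h : Fin H.K) : ℂ :=
  ∑ a, ∑ b, ∑ f, if H.blk a = c ∧ H.blk b = e ∧ H.blk f = h then
    M a b * M b f * M f a - M a f * M f b * M b a else 0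

/-- General position of the first generator. -/
structure Gen (M : Mat r) : Prop where
  nz : ∀ a b, M a b ≠ 0
  pair : ∀ c e : Fin H.K, c < e → H.PairOK M c e
  tri : ∀ c e h : Fin H.K, c ≠ e → e ≠ h → h ≠ c → H.triQ M c e h ≠ 0

lemma upper_vw : ∀ (l : List (Fin N)) (a b : Fin r), H.blk b < H.blk a → (vw A l).val a b = 0
  | [], a, b, h => by
    have : a ≠ b := fun e => by subst e; exact lt_irrefl _ h
    simp [vw, this]
  | k :: l, a, b, h => by
    rw [vw, Matrix.SpecialLinearGroup.coe_mul, Matrix.mul_apply]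
    refine Finset.sum_eq_zero fun i _ => ?_
    rcases lt_or_ge (H.blk i) (H.blk a) with h1 | h1
    · rw [upper_vw l a i h1, zero_mul]
    · rw [H.upper k i b (h.trans_le h1), mul_zero]

lemma vw_replicate (k : ℕ) :
    (vw A (List.replicate k H.k₁)).val = Matrix.diagonal fun a => H.ν a ^ k := by
  induction k with
  | zero => simp [vw]
  | succ k ih =>
    rw [List.replicate_succ, vw, Matrix.SpecialLinearGroup.coe_mul, ih, H.diag,
      Matrix.diagonal_mul_diagonal]
    simp [pow_succ]

lemma edge_π (a : Fin r) : (A H.k₂.succ)⁻¹.val a (H.π a) ≠ 0 := by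
  intro h0
  obtain ⟨e, he, heq⟩ := H.cong a (H.π a)
  rw [if_pos rfl, h0] at heq
  have hu := H.unit a
  -- then `m` would be a unit among the algebraic integers
  have hm : IsIntegral ℤ ((H.m : ℂ)⁻¹) := by
    have e1 : ((H.m : ℂ))⁻¹ = -e * (H.u a)⁻¹ := by
      have hm0 : (H.m : ℂ) ≠ 0 := Nat.cast_ne_zero.2 (by have := H.hm; omega)
      field_simp [hm0, hu.2.2]
      linear_combination -heq
    rw [e1]
    exact he.neg.mul hu.2.1
  have hq : IsIntegral ℤ ((H.m : ℚ)⁻¹) := by
    refine (isIntegral_algHom_iff (Algebra.ofId ℚ ℂ |>.restrictScalars ℤ)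
      (algebraMap ℚ ℂ).injective).1 ?_
    simpa using hm
  obtain ⟨z, hz⟩ := IsIntegrallyClosed.isIntegral_iff.1 hq
  have hz' : ((z : ℚ)) * H.m = 1 := by
    rw [show (z : ℚ) = (H.m : ℚ)⁻¹ by simpa using hz]
    exact inv_mul_cancel₀ (Nat.cast_ne_zero.2 (by have := H.hm; omega))
  have hz'' : z * (H.m : ℤ) = 1 := by exact_mod_cast hz'
  have := Int.eq_one_or_neg_one_of_mul_eq_one' hz''
  have := H.hm
  omega

/-- Block triangular tails with a general first generator give all compatible variations. -/
theorem inK_mem_span [NeZero r] (hG : H.Gen (A 0).val) {β : Fin (N + 1) → Mat r}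
    (hβ : InK A β) : β ∈ Submodule.span ℂ (Set.range (twDir A)) := by
  classical
  refine mem_span_of_pairing ?_ hβ.1 fun lam hlam hdir => ?_
  · rintro _ ⟨⟨l, m⟩, rfl⟩ i
    refine trace_steps A _ _ (fun j => ?_) i
    by_cases hj : j = 0
    · subst hj; simp [trace_tl (NeZero.ne r)]
    · simp [hj]
  have htl : ∀ (W X : Mat r), X.trace = 0 → (tl W * X).trace = (W * X).trace := fun W X h => by
    simp [tl, sub_mul, Matrix.trace_sub, Matrix.trace_smul, h]
  have hsome : ∀ l m, (((A 0 * vw A l) ^ (m + 1)).val * transp A lam l).trace = 0 := fun l m => by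
    have h := hdir _ ⟨(l, m), rfl⟩
    simp only [twDir] at h
    rwa [pair_single, htl _ _ (trace_transp hlam _)] at h
  set ν := H.ν with hνdef
  have hν0 : ∀ i, ν i ≠ 0 := fun i e => by
    have h := (A H.k₁.succ)⁻¹.2
    rw [H.diag, Matrix.det_diagonal, Finset.prod_eq_zero (Finset.mem_univ i) e] at h
    exact zero_ne_one h
  have hA1 : (A H.k₁.succ).val = Matrix.diagonal fun i => (ν i)⁻¹ := by
    have h := val_mul_inv (A H.k₁.succ)
    rw [H.diag] at h
    refine left_inv_eq_right_inv h ?_
    rw [Matrix.diagonal_mul_diagonal, ← Matrix.diagonal_one]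
    congr 1; funext i; exact mul_inv_cancel₀ (hν0 i)
  -- remove the part outside the diagonal on the diagonal letter
  let Y : Mat r := Matrix.of fun a b =>
    if a = b then 0 else lam H.k₁.succ a b / (ν a * (ν b)⁻¹ - 1)
  set lam' := lam - cob A Y with hlam'
  set lv : Fin r → ℂ := fun a => lam H.k₁.succ a a with hlv
  have hl1 : lam' H.k₁.succ = Matrix.diagonal lv := by
    ext a b
    simp only [hlam', Pi.sub_apply, cob, H.diag, hA1, Matrix.sub_apply, Matrix.mul_diagonal,
      Matrix.diagonal_mul]
    by_cases hab : a = b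
    · subst hab; simp [Y, hlv]
    · have : ν a * (ν b)⁻¹ - 1 ≠ 0 := by
        rw [sub_ne_zero]
        intro e
        exact hab (H.inj (show ν a = ν b by field_simp [hν0 b] at e; exact e))
      rw [Matrix.diagonal_apply_ne _ hab]
      simp only [Y, Matrix.of_apply, if_neg hab]
      linear_combination -(div_mul_cancel₀ (lam H.k₁.succ a b) this)
  set M := (A 0).val with hM
  set δ := M * lam' 0 with hδ
  let W : List (Fin N) → Mat r := fun l => (vw A l).val
  let Dv : List (Fin N) → Mat r := fun l => dvw A lam' l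
  have hc : ∀ l m, ((M * W l) ^ m * (δ * W l + M * Dv l)).trace = 0 := by
    intro l m
    have h1 := hsome l m
    have h2 := trace_pow_cob A Y (A 0 * vw A l) (m + 1)
    rw [← transp_cob] at h2
    have h3 : (((A 0 * vw A l) ^ (m + 1)).val * transp A lam' l).trace = 0 := by
      rw [hlam', transp_sub, mul_sub, Matrix.trace_sub, h1, h2, sub_zero]
    rw [transp_eq] at h3
    simp only [pow_succ, Matrix.SpecialLinearGroup.coe_mul, Matrix.SpecialLinearGroup.coe_pow,
      Matrix.mul_assoc] at h3 ⊢
    simp only [W, Dv, hδ, hM, mul_add, add_mul, Matrix.mul_assoc] at h3 ⊢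
    simp only [← Matrix.mul_assoc ((vw A l).val) ((vw A l)⁻¹.val), val_mul_inv,
      Matrix.one_mul] at h3
    exact h3
  -- the diagonal letter is not varied
  have hrep : ∀ k, Dv (List.replicate k H.k₁) =
      Matrix.diagonal fun a => -((k : ℂ) * lv a) * ν a ^ k := by
    intro k
    induction k with
    | zero => simp [Dv, dvw]
    | succ k ih =>
      show dvw A lam' (H.k₁ :: List.replicate k H.k₁) = _
      rw [dvw, show dvw A lam' (List.replicate k H.k₁) = _ from ih, H.vw_replicate, H.diag, hl1]
      simp only [Matrix.diagonal_mul_diagonal, Matrix.diagonal_sub, hνdef]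
      congr 1
      funext a
      push_cast
      ring
  have hlv0 : ∀ a, lv a = 0 := by
    set q := H.M₀ * ∏ c, H.p c with hq
    have hqpos : 0 < q := Nat.mul_pos H.M₀_pos (Finset.prod_pos fun c _ => (H.prime c).pos)
    have hνq : ∀ a, ν a ^ q = H.lam ^ ∏ c, H.p c := fun a => by
      rw [hq, pow_mul, H.torus a, mul_pow]
      obtain ⟨d, hd⟩ := Finset.dvd_prod_of_mem H.p (Finset.mem_univ (H.blk a))
      rw [hd, pow_mul (H.ξ (H.blk a)), (H.prim (H.blk a)).pow_eq_one, one_pow, mul_one]
    have hf : ∀ k : ℕ, ∑ a, (δ a a - (k : ℂ) * (M a a * lv a)) * ν a ^ k = 0 := fun k => by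
      have h := hc (List.replicate k H.k₁) 0
      simp only [pow_zero, Matrix.one_mul, W, H.vw_replicate, hrep] at h
      simp only [Matrix.trace, Matrix.diag, Matrix.add_apply, Matrix.mul_diagonal] at h
      rw [← h]
      exact Finset.sum_congr rfl fun a _ => by rw [hνdef]; ring
    have hg : (fun a => M a a * lv a) = 0 := by
      refine Matrix.eq_zero_of_forall_pow_sum_mul_pow_eq_zero (f := ν) H.inj fun k => ?_
      have h1 := hf (k + q)
      simp only [pow_add, hνq] at h1
      have h2 := congrArg (· * H.lam ^ ∏ c, H.p c) (hf k)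
      simp only [zero_mul, Finset.sum_mul] at h2
      have hne : (q : ℂ) * H.lam ^ ∏ c, H.p c ≠ 0 :=
        mul_ne_zero (Nat.cast_ne_zero.2 hqpos.ne') (pow_ne_zero _ H.lam_ne)
      refine mul_left_cancel₀ hne ?_
      rw [mul_zero, Finset.mul_sum]
      calc _ = ∑ a, ((δ a a - (k : ℂ) * (M a a * lv a)) * ν a ^ (k : ℕ) *
            H.lam ^ ∏ c, H.p c) -
          ∑ a, ((δ a a - ((k + q : ℕ) : ℂ) * (M a a * lv a)) *
            (ν a ^ (k : ℕ) * H.lam ^ ∏ c, H.p c)) := by
            rw [← Finset.sum_sub_distrib]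
            exact Finset.sum_congr rfl fun a _ => by push_cast; ring
        _ = 0 := by rw [h1, h2, sub_zero]
    intro a
    exact (mul_eq_zero.1 (congrFun hg a)).resolve_left (hG.nz a a)
  have hrep0 : ∀ k, Dv (List.replicate k H.k₁) = 0 := fun k => by
    rw [hrep]; simp [hlv0]
  -- words with diagonal factors on both sides
  have hins : ∀ (l : List (Fin N)) (i j : ℕ),
      W (List.replicate j H.k₁ ++ (l ++ List.replicate i H.k₁)) =
        Matrix.diagonal (fun a => ν a ^ i) * W l * Matrix.diagonal (fun a => ν a ^ j) ∧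
      Dv (List.replicate j H.k₁ ++ (l ++ List.replicate i H.k₁)) =
        Matrix.diagonal (fun a => ν a ^ i) * Dv l * Matrix.diagonal (fun a => ν a ^ j) := by
    intro l i j
    refine ⟨?_, ?_⟩
    · simp only [W, vw_append, Matrix.SpecialLinearGroup.coe_mul, H.vw_replicate, hνdef]
    · simp only [Dv] at hrep0 ⊢
      simp only [dvw_append, hrep0, mul_zero, zero_mul, add_zero, zero_add, H.vw_replicate, hνdef]
  set φ : Fin r → Fin r → ℂ := fun a b => -(δ b a / M b a) with hφ
  have hδφ : δ = dlt M φ := by
    ext b a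
    simp [dlt, hφ, mul_div_cancel₀ _ (hG.nz b a)]
  have hhad : ∀ l, Dv l = had φ (W l) := by
    intro l
    have h : ∀ i j : ℕ, ∑ a, (∑ b, (δ b a * W l a b + M b a * Dv l a b) * ν b ^ j) * ν a ^ i = 0 := by
      intro i j
      have h := hc (List.replicate j H.k₁ ++ (l ++ List.replicate i H.k₁)) 0
      have e : ∀ P : Mat r, Matrix.diagonal (fun a => ν a ^ i) * P *
          Matrix.diagonal (fun a => ν a ^ j) = Matrix.of fun a b => ν a ^ i * P a b * ν b ^ j :=
        fun P => by ext a b; simp [Matrix.mul_diagonal, Matrix.diagonal_mul]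
      rw [(hins l i j).1, (hins l i j).2, pow_zero, Matrix.one_mul, Matrix.trace_add, e, e] at h
      simp only [Matrix.trace, Matrix.diag, Matrix.mul_apply, Matrix.of_apply] at h
      rw [← h, ← Finset.sum_add_distrib]
      simp only [Finset.sum_mul, ← Finset.sum_add_distrib]
      rw [Finset.sum_comm]
      exact Finset.sum_congr rfl fun b _ => Finset.sum_congr rfl fun a _ => by ring
    ext a b
    have h2 : (fun b => δ b a * W l a b + M b a * Dv l a b) = 0 :=
      Matrix.eq_zero_of_forall_pow_sum_mul_pow_eq_zero (f := ν) H.inj fun j =>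
        congrFun (Matrix.eq_zero_of_forall_pow_sum_mul_pow_eq_zero (f := ν)
          (v := fun a => ∑ b, (δ b a * W l a b + M b a * Dv l a b) * ν b ^ (j : ℕ)) H.inj
          fun i => h i j) a
    have h3 := congrFun h2 b
    simp only [Pi.zero_apply] at h3
    show Dv l a b = φ a b * W l a b
    rw [hφ]
    field_simp [hG.nz b a]
    linear_combination h3
  have hE : ∀ l m, evW M φ (W l) m = 0 := fun l m => by
    rw [evW, ← hhad, ← hδφ]; exact hc l m
  -- additivity along edges
  have hadd : ∀ l l' a b c, W l a b ≠ 0 → W l' b c ≠ 0 →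
      φ a c = φ a b + φ b c ∧ ∃ l'', W l'' a c ≠ 0 := by
    intro l l' a b c hab hbc
    have hw : ∀ k : ℕ, W (l' ++ (List.replicate k H.k₁ ++ l)) a c =
        ∑ i, W l a i * W l' i c * ν i ^ k := fun k => by
      simp only [W, vw_append, Matrix.SpecialLinearGroup.coe_mul, H.vw_replicate, hνdef]
      rw [Matrix.mul_apply]
      simp only [Matrix.mul_diagonal]
      exact Finset.sum_congr rfl fun i _ => by ring
    refine ⟨?_, ?_⟩
    · have hz : ∀ k : ℕ, ∑ i, (φ a c - φ a i - φ i c) * (W l a i * W l' i c) * ν i ^ k = 0 := by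
        intro k
        have h1 := congrFun (congrFun (hhad (l' ++ (List.replicate k H.k₁ ++ l))) a) c
        have h2 : Dv (l' ++ (List.replicate k H.k₁ ++ l)) =
            had φ (W l) * Matrix.diagonal (fun i => ν i ^ k) * W l' +
              W l * Matrix.diagonal (fun i => ν i ^ k) * had φ (W l') := by
          rw [← hhad, ← hhad]
          simp only [Dv] at hrep0 ⊢
          simp only [dvw_append, hrep0, Matrix.mul_zero, Matrix.zero_mul, mul_zero, zero_mul, add_zero, zero_add, vw_append, H.vw_replicate, hνdef,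
            Matrix.SpecialLinearGroup.coe_mul, W, Matrix.mul_assoc, add_mul]
        rw [h2] at h1
        simp only [had, Matrix.of_apply, hw, Matrix.add_apply, Matrix.mul_apply (N := W l'),
          Matrix.mul_apply (N := Matrix.of _), Matrix.mul_diagonal, Finset.mul_sum] at h1
        rw [← sub_eq_zero, ← Finset.sum_add_distrib, ← Finset.sum_sub_distrib] at h1
        rw [← neg_eq_zero, ← Finset.sum_neg_distrib, ← h1]
        exact Finset.sum_congr rfl fun i _ => by ring
      have h := congrFun (Matrix.eq_zero_of_forall_pow_sum_mul_pow_eq_zero (f := ν) H.inj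
        fun k => hz k) b
      simp only [Pi.zero_apply, mul_eq_zero, hab, hbc, or_false] at h
      linear_combination h
    · by_contra hcon
      push Not at hcon
      have h := congrFun (Matrix.eq_zero_of_forall_pow_sum_mul_pow_eq_zero (f := ν)
        (v := fun i => W l a i * W l' i c) H.inj fun k => by rw [← hw]; exact hcon _) b
      exact mul_ne_zero hab hbc h
  have hedge : ∀ a b, H.blk a = H.blk b → ∃ l, W l a b ≠ 0 := by
    intro a b hab
    obtain ⟨i, rfl⟩ := H.cycle a b hab
    clear hab
    induction i with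
    | zero => exact ⟨[], by simp [W, vw]⟩
    | succ i ih =>
      obtain ⟨l, hl⟩ := ih
      rw [pow_succ', Equiv.Perm.mul_apply]
      refine (hadd l [H.k₂] a _ _ hl ?_).2
      simpa [W, vw] using H.edge_π ((H.π ^ i) a)
  choose rep hrep' using H.surj
  set y : Fin r → ℂ := fun a => φ a (rep (H.blk a)) with hy
  have hblock : ∀ a b, H.blk a = H.blk b → φ a b = y a - y b := fun a b hab => by
    obtain ⟨l, hl⟩ := hedge a b hab
    obtain ⟨l', hl'⟩ := hedge b (rep (H.blk a)) (by rw [hrep', hab])
    have := (hadd l l' a b _ hl hl').1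
    simp only [hy, ← hab]
    linear_combination -this
  -- normalised weights
  set ψ : Fin r → Fin r → ℂ := fun a b => φ a b - (y a - y b) with hψ
  have hψ0 : ∀ a b, H.blk a = H.blk b → ψ a b = 0 := fun a b hab => by
    simp [hψ, hblock a b hab]
  have hEψ : ∀ l m, evW M ψ (W l) m = 0 := fun l m => by
    rw [hψ, evW_sub_cob]; exact hE l m
  -- identities over the block torus
  have htor : ∀ (l : List (Fin N)) (m : ℕ), m ≤ 2 * r → ∀ x x' : Fin H.K → ℂ,
      evW M ψ (bt H.blk x * W l * bt H.blk x') m = 0 := by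
    intro l m hm
    have hlarge : ∀ c, m + 1 < H.p c := fun c => by have := H.large c; omega
    have hbt : ∀ k : ℕ, Matrix.diagonal (fun a => ν a ^ (H.M₀ * k)) =
        H.lam ^ k • bt H.blk (fun c => H.ξ c ^ k) := fun k => by
      ext a b
      by_cases hab : a = b
      · subst hab; simp [bt, pow_mul, hνdef, H.torus, mul_pow]
      · simp [bt, hab]
    have hsmul : ∀ (P : Mat r) (c : ℂ), evW M ψ (c • P) m = c ^ (m + 1) * evW M ψ P m := by
      intro P c
      have e : had ψ (c • P) = c • had ψ P := by ext a b; simp [had]; ring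
      simp only [evW, e, mul_smul_comm, smul_pow, ← smul_add, smul_mul_assoc, smul_smul,
        Matrix.trace_smul, smul_eq_mul, pow_succ]
      ring
    have hd : ∀ (u v : Fin r → ℂ) (P : Mat r), had ψ (Matrix.diagonal u * P * Matrix.diagonal v) =
        Matrix.diagonal u * had ψ P * Matrix.diagonal v := fun u v P => by
      ext a b; simp [had, Matrix.diagonal_mul, Matrix.mul_diagonal]; ring
    have h0 : ∀ i j : ℕ, evW M ψ
        (bt H.blk (fun c => H.ξ c ^ i) * W l * bt H.blk (fun c => H.ξ c ^ j)) m = 0 := by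
      intro i j
      have h := hEψ (List.replicate (H.M₀ * j) H.k₁ ++ (l ++ List.replicate (H.M₀ * i) H.k₁)) m
      rw [(hins l _ _).1, hbt, hbt, smul_mul_assoc, smul_mul_assoc, mul_smul_comm, smul_smul,
        hsmul, mul_eq_zero] at h
      exact h.resolve_left (by simp [H.lam_ne])
    intro x x'
    have h1 : ∀ j : ℕ, evW M ψ (bt H.blk x * W l * bt H.blk (fun c => H.ξ c ^ j)) m = 0 := by
      intro j
      set Q := bt H.blk (fun c => H.ξ c ^ j)
      have e : ∀ x, evW M ψ (bt H.blk x * W l * Q) m =
          ((M * bt H.blk x * (W l * Q)) ^ m * (dlt M ψ * bt H.blk x * (W l * Q) +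
            M * bt H.blk x * (had ψ (W l) * Q))).trace := fun x => by
        simp only [evW, bt, Q]
        rw [hd]
        simp only [Matrix.mul_assoc]
      rw [e]
      exact bt_identity H.prime H.inj_p H.prim H.blk hlarge _ _ _ _ _ _
        (fun i => by rw [← e]; exact h0 i j) x
    have e : ∀ x', evW M ψ (bt H.blk x * W l * bt H.blk x') m =
        ((M * (bt H.blk x * W l) * bt H.blk x' * 1) ^ m *
          (dlt M ψ * (bt H.blk x * W l) * bt H.blk x' * 1 +
            M * (bt H.blk x * had ψ (W l)) * bt H.blk x' * 1)).trace := fun x' => by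
      simp only [evW, bt]
      rw [hd]
      simp only [Matrix.mul_assoc, Matrix.mul_one]
    rw [e]
    exact bt_identity H.prime H.inj_p H.prim H.blk hlarge _ _ _ _ _ _
      (fun j => by rw [← e]; exact h1 j) x'
  -- two blocks
  have hpair : ∀ c e, c < e → ∀ (l : List (Fin N)) (u : Mat r),
      (∀ a b, u a b = if H.blk a = H.blk b then W l a b else 0) →
      ∀ m t s, 1 ≤ m → m ≤ 2 * r → H.ev2 M ψ u m c e t s = 0 := by
    intro c e hce l u hu m t s _ hm
    set T := bt H.blk (H.ind2 c e t s) with hT
    let off : Mat r := Matrix.of fun a b =>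
      if H.blk a = c ∧ H.blk b = e then t * W l a b else 0
    let F : ℂ → ℂ := fun ε => evW M ψ (T * u + ε • off) m
    have hF : ∀ ε : ℂ, ε ≠ 0 → F ε = 0 := by
      intro ε hε
      have e1 : T * u + ε • off = bt H.blk (H.ind2 c e t (s / ε)) * W l *
          bt H.blk (H.ind2 c e 1 ε) := by
        ext a b
        simp only [hT, bt, Matrix.add_apply, Matrix.smul_apply, Matrix.mul_diagonal,
          Matrix.diagonal_mul, off, Matrix.of_apply, hu, smul_eq_mul, ind2]
        by_cases hac : H.blk a = c
        · by_cases hbc : H.blk b = c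
          · simp [hac, hbc, hce.ne]
          · by_cases hbe : H.blk b = e
            · simp [hac, hbe, hce.ne, hce.ne']
              ring
            · simp [hac, hbc, hbe, Ne.symm hbc]
        · by_cases hae : H.blk a = e
          · by_cases hbc : H.blk b = c
            · have h0 : W l a b = 0 := H.upper_vw l a b (by rw [hae, hbc]; exact hce)
              simp [hac, hae, hbc, h0, hce.ne, hce.ne']
            · by_cases hbe : H.blk b = e
              · simp [hae, hbe, hce.ne']
                field_simp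
              · simp [hae, hbc, hbe, Ne.symm hbe, hce.ne']
          · simp [hac, hae]
      show evW M ψ _ m = 0
      rw [e1]
      exact htor l m hm _ _
    have hcont : Continuous F := by
      have h1 : Continuous fun ε : ℂ => T * u + ε • off :=
        continuous_const.add (continuous_id.smul continuous_const)
      have h2 : Continuous fun ε : ℂ => had ψ (T * u + ε • off) :=
        continuous_matrix fun a b => continuous_const.mul (h1.matrix_elem a b)
      exact (((continuous_const.matrix_mul h1).pow m).matrix_mul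
        ((continuous_const.matrix_mul h1).add (continuous_const.matrix_mul h2))).matrix_trace
    have hF0 : F 0 = 0 :=
      congrFun (hcont.ext_on (dense_compl_singleton (0 : ℂ)) continuous_const fun ε hε => hF ε hε) 0
    have hzero : had ψ (T * u) = 0 := by
      ext a b
      simp only [had, hT, bt, Matrix.of_apply, Matrix.diagonal_mul, hu, Matrix.zero_apply]
      by_cases hab : H.blk a = H.blk b
      · simp [hψ0 a b hab]
      · simp [hab]
    simp only [F, zero_smul, add_zero, evW, hzero, Matrix.mul_zero] at hF0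
    exact hF0
  have hκ : ∀ c e, c < e → ∃ κ : ℂ, ∀ a b, H.blk a = c → H.blk b = e →
      ψ a b = κ ∧ ψ b a = -κ := by
    intro c e hce
    let χ : Fin r → Fin r → ℂ := fun a b =>
      if (H.blk a = c ∨ H.blk a = e) ∧ (H.blk b = c ∨ H.blk b = e) then ψ a b else 0
    have hχ : H.Cross c e χ := by
      intro a b h
      simp only [χ] at h
      split_ifs at h with h'
      · have hne : H.blk a ≠ H.blk b := fun e => h (hψ0 a b e)
        obtain ⟨ha | ha, hb | hb⟩ := h'
        · exact absurd (ha.trans hb.symm) hne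
        · exact Or.inl ⟨ha, hb⟩
        · exact Or.inr ⟨ha, hb⟩
        · exact absurd (ha.trans hb.symm) hne
      · exact absurd rfl h
    have hswap : ∀ (u : Mat r), (∀ a b, H.blk a ≠ H.blk b → u a b = 0) → ∀ m t s, 1 ≤ m →
        H.ev2 M χ u m c e t s = H.ev2 M ψ u m c e t s := by
      intro u hu m t s hm
      obtain ⟨m, rfl⟩ : ∃ k, m = k + 1 := ⟨m - 1, by omega⟩
      set T := bt H.blk (H.ind2 c e t s) * u with hT
      have hTz : ∀ a b, T a b ≠ 0 → H.blk a = H.blk b ∧ (H.blk a = c ∨ H.blk a = e) := by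
        intro a b h
        simp only [hT, bt, Matrix.diagonal_mul, ind2] at h
        refine ⟨by_contra fun hab => h (by rw [hu a b hab, mul_zero]), by_contra fun hc' => h ?_⟩
        push Not at hc'
        simp [hc'.1, hc'.2]
      unfold BlockTail.ev2
      rw [← hT, pow_succ, ← sub_eq_zero, ← Matrix.trace_sub, ← mul_sub, ← sub_mul,
        Matrix.mul_assoc _ (M * T), Matrix.trace]
      refine Finset.sum_eq_zero fun i _ => ?_
      have : T * ((dlt M χ - dlt M ψ) * T) = 0 := by
        ext a b
        rw [← Matrix.mul_assoc, Matrix.zero_apply, Matrix.mul_apply]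
        refine Finset.sum_eq_zero fun j _ => ?_
        by_cases hjb : T j b = 0
        · rw [hjb, mul_zero]
        rw [Matrix.mul_apply, Finset.sum_mul]
        refine Finset.sum_eq_zero fun i _ => ?_
        by_cases hai : T a i = 0
        · rw [hai, zero_mul, zero_mul]
        obtain ⟨h1, h2⟩ := hTz a i hai
        obtain ⟨h3, h4⟩ := hTz j b hjb
        rw [h1] at h2
        simp [dlt, χ, h2, h4]
      simp [Matrix.mul_assoc, this]
    have hcycu : ∀ a b, H.blk a ≠ H.blk b → H.cyc a b = 0 := fun a b h => by simp [cyc, h]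
    have h1u : ∀ a b, H.blk a ≠ H.blk b → (1 : Mat r) a b = 0 := fun a b h =>
      Matrix.one_apply_ne fun e => h (by rw [e])
    obtain ⟨κ, hκ⟩ := hG.pair c e hce χ hχ
      (fun m t s hm hmr => by
        rw [hswap 1 h1u m t s hm]
        exact hpair c e hce [] 1 (fun a b => by
          by_cases hab : a = b
          · subst hab; simp [W, vw]
          · simp [W, vw, hab]) m t s hm hmr)
      (fun m t s hm hmr => by
        rw [hswap _ hcycu m t s hm]
        exact hpair c e hce [H.k₂] H.cyc (fun a b => by simp [W, vw, cyc]) m t s hm hmr)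
    refine ⟨κ, fun a b ha hb => ?_⟩
    simpa [χ, ha, hb] using hκ a b ha hb
  -- all pairs of blocks
  let κ : Fin H.K → Fin H.K → ℂ := fun c e => ψ (rep c) (rep e)
  have hconst : ∀ a b, ψ a b = κ (H.blk a) (H.blk b) := by
    intro a b
    rcases lt_trichotomy (H.blk a) (H.blk b) with h | h | h
    · obtain ⟨k, hk⟩ := hκ _ _ h
      rw [(hk a b rfl rfl).1]
      exact ((hk _ _ (hrep' _) (hrep' _)).1).symm
    · rw [hψ0 a b h]
      exact (hψ0 _ _ (by rw [hrep', hrep', h])).symm
    · obtain ⟨k, hk⟩ := hκ _ _ h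
      rw [(hk b a rfl rfl).2]
      exact ((hk _ _ (hrep' _) (hrep' _)).2).symm
  have hanti : ∀ c e, κ e c = -κ c e := by
    intro c e
    rcases lt_trichotomy c e with h | h | h
    · obtain ⟨k, hk⟩ := hκ _ _ h
      have := hk _ _ (hrep' c) (hrep' e)
      simp only [κ, this.1, this.2]
    · subst h
      simp [κ, hψ0 _ _ rfl]
    · obtain ⟨k, hk⟩ := hκ _ _ h
      have := hk _ _ (hrep' e) (hrep' c)
      simp [κ, this.1, this.2]
  have hcoc : ∀ c e h, κ c e + κ e h + κ h c = 0 := by
    intro c e h
    by_cases hce : c = e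
    · subst hce
      rw [hanti c h, show κ c c = 0 from hψ0 _ _ rfl]
      ring
    by_cases heh : e = h
    · subst heh
      rw [hanti c e, show κ e e = 0 from hψ0 _ _ rfl]
      ring
    by_cases hhc : h = c
    · subst hhc
      rw [hanti h e, show κ h h = 0 from hψ0 _ _ rfl]
      ring
    let S : Finset (Fin r) := Finset.univ.filter fun a =>
      H.blk a = c ∨ H.blk a = e ∨ H.blk a = h
    let x : Fin H.K → ℂ := fun i => if i = c ∨ i = e ∨ i = h then 1 else 0
    have hr2 : 2 ≤ r := by
      by_contra hr2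
      have : Subsingleton (Fin r) := ⟨fun a b => Fin.ext (by omega)⟩
      exact hce (by rw [← hrep' c, ← hrep' e, Subsingleton.elim (rep c) (rep e)])
    have h0 := htor [] 2 (by omega) x x
    have hD : bt H.blk x * W [] * bt H.blk x =
        Matrix.diagonal fun a => if a ∈ S then (1 : ℂ) else 0 := by
      simp only [bt, W, vw, Matrix.SpecialLinearGroup.coe_one, Matrix.mul_one,
        Matrix.diagonal_mul_diagonal]
      congr 1
      funext a
      by_cases ha : H.blk a = c ∨ H.blk a = e ∨ H.blk a = h <;> simp [x, S, ha]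
    rw [hD] at h0
    set D := Matrix.diagonal fun a => if a ∈ S then (1 : ℂ) else 0 with hDdef
    have hhz : had ψ D = 0 := by
      ext a b
      by_cases hab : a = b
      · subst hab; simp [had, hψ0 a a rfl]
      · simp [had, D, hab]
    rw [evW, hhz, mul_zero, add_zero] at h0
    have h1 : ((D * M) ^ 2 * (D * dlt M ψ)).trace = 0 := by
      rw [← h0]
      have e : D * (M * D) ^ 2 = (D * M) ^ 2 * D := by simp [pow_two, Matrix.mul_assoc]
      rw [← Matrix.mul_assoc, ← e, Matrix.mul_assoc, Matrix.trace_mul_comm D, Matrix.mul_assoc]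
    rw [hDdef, ind_trace_two] at h1
    -- split by the blocks
    set g : Fin r → Fin r → Fin r → ℂ := fun a d b => M a b * M b d * M d a with hg
    let fib : Fin H.K → Finset (Fin r) := fun i => Finset.univ.filter fun a => H.blk a = i
    have hS : ∀ f : Fin r → ℂ,
        ∑ a ∈ S, f a = ∑ a ∈ fib c, f a + ∑ a ∈ fib e, f a + ∑ a ∈ fib h, f a := fun f => by
      simp only [fib, S, Finset.sum_filter, ← Finset.sum_add_distrib]
      refine Finset.sum_congr rfl fun a _ => ?_
      by_cases hc1 : H.blk a = c
      · simp [hc1, hce, Ne.symm hhc]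
      by_cases he1 : H.blk a = e
      · simp [he1, Ne.symm hce, heh]
      by_cases hh1 : H.blk a = h
      · simp [hh1, hhc, Ne.symm heh]
      simp [hc1, he1, hh1]
    let P : Fin H.K → Fin H.K → Fin H.K → ℂ := fun i j k =>
      ∑ a ∈ fib i, ∑ d ∈ fib j, ∑ b ∈ fib k, g a d b
    have hP : ∀ i j k, ∑ a ∈ fib i, ∑ d ∈ fib j, ∑ b ∈ fib k, M a b * M b d * dlt M ψ d a =
        -(κ i j) * P i j k := fun i j k => by
      simp only [P, Finset.mul_sum]
      refine Finset.sum_congr rfl fun a ha => Finset.sum_congr rfl fun d hd =>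
        Finset.sum_congr rfl fun b _ => ?_
      simp only [fib, Finset.mem_filter, Finset.mem_univ, true_and] at ha hd
      simp only [dlt, Matrix.of_apply, hconst, ha, hd, hg]
      ring
    have r1 : ∀ i j k, P j k i = P i j k := fun i j k => by
      simp only [P]
      rw [Finset.sum_comm (s := fib i)]
      refine Finset.sum_congr rfl fun d _ => ?_
      rw [Finset.sum_comm (s := fib i)]
      exact Finset.sum_congr rfl fun b _ => Finset.sum_congr rfl fun a _ => by
        simp only [hg]; ring
    have hQ : H.triQ M c e h = P e c h - P c e h := by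
      have e1 : H.triQ M c e h = ∑ a ∈ fib c, ∑ b ∈ fib e, ∑ f ∈ fib h,
          (M a b * M b f * M f a - M a f * M f b * M b a) := by
        simp only [triQ, fib, Finset.sum_filter, ite_and, Finset.sum_ite_irrel,
          Finset.sum_const_zero]
      simp only [e1, P, hg, Finset.sum_sub_distrib]
      congr 1
      rw [Finset.sum_comm (s := fib e)]
      exact Finset.sum_congr rfl fun a _ => Finset.sum_congr rfl fun b _ =>
        Finset.sum_congr rfl fun f _ => by ring
    have hz : ∀ i, κ i i = 0 := fun i => hψ0 _ _ rfl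
    simp only [hS, Finset.sum_add_distrib, hP, hz, hanti c e, hanti e h, hanti h c] at h1
    refine (mul_eq_zero.1 (?_ : (κ c e + κ e h + κ h c) * H.triQ M c e h = 0)).resolve_right
      (hG.tri c e h hce heh hhc)
    rw [hQ]
    linear_combination h1 + κ c e * (r1 e c e - r1 c e c) +
      κ e h * (r1 h e h - r1 e h e + r1 c e h - r1 c h e - r1 e c h) +
      κ h c * (r1 c h c - r1 h c h + r1 e h c + r1 c e h - r1 e c h)
  -- the weights are a coboundary
  set w : Fin r → ℂ := fun a => y a + κ (H.blk a) (H.blk (rep (H.blk 0))) with hw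
  have hφw : ∀ a b, φ a b = w a - w b := fun a b => by
    have h := hcoc (H.blk a) (H.blk b) (H.blk (rep (H.blk 0)))
    rw [hanti (H.blk a) (H.blk (rep (H.blk 0)))] at h
    have h2 : φ a b = ψ a b + (y a - y b) := by simp [hψ]
    rw [h2, hconst]
    simp only [hw]
    linear_combination h
  let T : Mat r := Matrix.diagonal w
  have hcob : lam' = cob A T := by
    funext i
    induction i using Fin.cases with
    | zero =>
      have hδT : δ = T * M - M * T := by
        rw [hδφ]
        ext b a
        simp [dlt, T, hφw, Matrix.diagonal_mul, Matrix.mul_diagonal]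
        ring
      have h := congrArg ((A 0)⁻¹.val * ·) hδT
      simp only [hδ, hM, mul_sub, ← Matrix.mul_assoc] at h
      rw [val_inv_mul, Matrix.one_mul, Matrix.one_mul] at h
      exact h
    | succ k =>
      have h := hhad [k]
      have hh : had φ (W [k]) = T * W [k] - W [k] * T := by
        ext a b
        simp [had, T, hφw, Matrix.diagonal_mul, Matrix.mul_diagonal]
        ring
      rw [hh] at h
      simp [W, Dv, vw, dvw, -Matrix.SpecialLinearGroup.coe_inv] at h
      have e' := congrArg (· * (A k.succ).val) h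
      simp only [neg_mul, sub_mul, Matrix.mul_assoc, val_inv_mul, Matrix.mul_one] at e'
      rw [cob, ← neg_neg (lam' k.succ), e', neg_sub, Matrix.mul_assoc]
  have hpair0 : ∀ Z : Mat r, ∑ i, (cob A Z i * β i).trace = 0 := fun Z => by
    calc ∑ i, (cob A Z i * β i).trace
        = ∑ i, (Z * ((A i).val * β i * (A i)⁻¹.val - β i)).trace :=
          Finset.sum_congr rfl fun i _ => by
            rw [cob, sub_mul, mul_sub, Matrix.trace_sub, Matrix.trace_sub]
            congr 1
            simp only [← Matrix.mul_assoc]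
            rw [Matrix.trace_mul_comm (Z * (A i).val * β i), ← Matrix.mul_assoc, ← Matrix.mul_assoc]
      _ = 0 := by rw [← Matrix.trace_sum, ← Finset.mul_sum, hβ.2, mul_zero, Matrix.trace_zero]
  have e : lam = cob A T + cob A Y := by rw [← hcob, hlam', sub_add_cancel]
  simp only [e, Pi.add_apply, add_mul, Matrix.trace_add, Finset.sum_add_distrib, hpair0, add_zero]

end BlockTail

end Vale.Agent.P002
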