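import Mathlib.Analysis.Calculus.Deriv.Mul
import Vale.Agent.P002.PunctTwo.Span
import Vale.Agent.P002.PunctTwo.Cert
import Vale.Agent.P002.PunctTwo.Cyclic

/-!
At every block triangular tail some first generator is in general position.
-/

namespace Vale.Agent.P002

open Matrix MvPolynomial Filter Topology

variable {r N K : ℕ}

/-- Block diagonal matrices. -/
def Bd (blk : Fin r → Fin K) (P : Mat r) : Prop := ∀ a b, blk a ≠ blk b → P a b = 0

lemma bd_diagonal (blk : Fin r → Fin K) (d : Fin r → ℂ) : Bd blk (Matrix.diagonal d) :=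
  fun _ _ h => Matrix.diagonal_apply_ne _ fun e => h (by rw [e])

lemma Bd.mul {blk : Fin r → Fin K} {P Q : Mat r} (hP : Bd blk P) (hQ : Bd blk Q) :
    Bd blk (P * Q) := fun a b h => by
  rw [Matrix.mul_apply]
  refine Finset.sum_eq_zero fun i _ => ?_
  by_cases h1 : blk a = blk i
  · rw [hQ i b fun h2 => h (h1.trans h2), mul_zero]
  · rw [hP a i h1, zero_mul]

lemma Bd.pow {blk : Fin r → Fin K} {P : Mat r} (hP : Bd blk P) : ∀ k, Bd blk (P ^ k)
  | 0 => by rw [pow_zero, ← Matrix.diagonal_one]; exact bd_diagonal blk _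
  | k + 1 => by rw [pow_succ]; exact (hP.pow k).mul hP

lemma Bd.comm {blk : Fin r → Fin K} {P : Mat r} (hP : Bd blk P) (x : Fin K → ℂ) :
    Commute (bt blk x) P := by
  ext a b
  simp only [bt, Matrix.mul_diagonal, Matrix.diagonal_mul]
  by_cases h : blk a = blk b
  · rw [h]; ring
  · simp [hP a b h]

lemma bt_pow (blk : Fin r → Fin K) (x : Fin K → ℂ) (k : ℕ) : bt blk x ^ k = bt blk (x ^ k) := by
  rw [bt, bt, Matrix.diagonal_pow]
  rfl

/-- The derivative of a power. -/
def dpow (m : ℕ) (P R : Mat r) : Mat r :=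
  ∑ k ∈ Finset.range m, P ^ k * R * P ^ (m - 1 - k)

lemma hasDerivAt_pow_add (P R : Mat r) : ∀ (m : ℕ) (a b : Fin r),
    HasDerivAt (fun ε : ℂ => ((P + ε • R) ^ m) a b) (dpow m P R a b) 0
  | 0, a, b => by simpa [dpow] using hasDerivAt_const (0 : ℂ) ((1 : Mat r) a b)
  | m + 1, a, b => by
    have hlin : ∀ i, HasDerivAt (fun ε : ℂ => (P + ε • R) a i) (R a i) 0 := fun i => by
      simpa using ((hasDerivAt_id (0 : ℂ)).mul_const (R a i)).const_add (P a i)
    have e : dpow (m + 1) P R = R * P ^ m + P * dpow m P R := by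
      rw [dpow, Finset.sum_range_succ']
      simp only [dpow, Finset.mul_sum, pow_zero, Matrix.one_mul, Nat.add_sub_cancel, Nat.sub_zero]
      rw [add_comm]
      congr 1
      refine Finset.sum_congr rfl fun k hk => ?_
      rw [pow_succ', show m - (k + 1) = m - 1 - k by omega]
      simp only [Matrix.mul_assoc]
    simp only [pow_succ', e, Matrix.mul_apply, Matrix.add_apply, ← Finset.sum_add_distrib]
    refine (HasDerivAt.fun_sum fun i _ =>
      (hlin i).mul (hasDerivAt_pow_add P R m i b)).congr_deriv ?_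
    simp

/-- A system which fixes the entries between the blocks and one value. -/
def rows {R : Type*} [Zero R] {ι : Type*} (Cr : Fin r → Fin r → Prop)
    [∀ a b, Decidable (Cr a b)] (p₀ : Fin r × Fin r) (f : ι → Fin r × Fin r → R) (one : R) :
    (Fin r × Fin r) ⊕ (Unit ⊕ ι) → Fin r × Fin r → R
  | .inl p, p' => if ¬ Cr p.1 p.2 ∧ p' = p then one else 0
  | .inr (.inl _), p' => if p' = p₀ then one else 0
  | .inr (.inr q), p' => if Cr p'.1 p'.2 then f q p' else 0

lemma map_rows {R S F : Type*} [Zero R] [Zero S] [FunLike F R S] [ZeroHomClass F R S] (g : F)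
    {ι : Type*} (Cr : Fin r → Fin r → Prop) [∀ a b, Decidable (Cr a b)] (p₀ : Fin r × Fin r)
    (f : ι → Fin r × Fin r → R) (one : R) (i : (Fin r × Fin r) ⊕ (Unit ⊕ ι))
    (p : Fin r × Fin r) :
    g (rows Cr p₀ f one i p) = rows Cr p₀ (fun q p => g (f q p)) (g one) i p := by
  rcases i with i | i | i <;> simp only [rows] <;> split_ifs <;> simp [map_zero]

lemma rows_iff {ι : Type*} (Cr : Fin r → Fin r → Prop) [∀ a b, Decidable (Cr a b)]
    (p₀ : Fin r × Fin r) (f : ι → Fin r × Fin r → ℂ) (one : ℂ) (v : Fin r × Fin r → ℂ) :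
    (∀ i, ∑ p, rows Cr p₀ f one i p * v p = 0) ↔
      (∀ p : Fin r × Fin r, ¬ Cr p.1 p.2 → one * v p = 0) ∧ one * v p₀ = 0 ∧
        ∀ q, ∑ p : Fin r × Fin r, (if Cr p.1 p.2 then f q p else 0) * v p = 0 := by
  refine ⟨fun h => ⟨fun p hp => ?_, ?_, fun q => h (.inr (.inr q))⟩, fun h => ?_⟩
  · simpa [rows, hp, ite_mul] using h (.inl p)
  · simpa [rows, ite_mul] using h (.inr (.inl ()))
  · rintro (p | _ | q)
    · by_cases hp : Cr p.1 p.2
      · simp [rows, hp]
      · simpa [rows, hp, ite_mul] using h.1 p hp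
    · simpa [rows, ite_mul] using h.2.1
    · exact h.2.2 q

/-- Power sums determine weights on distinct nodes. -/
lemma eq_zero_of_pow_sums {g w : Fin r → ℂ} (hg : Function.Injective g)
    (h : ∀ i : ℕ, i < r → ∑ a, g a ^ i * w a = 0) : w = 0 :=
  Matrix.eq_zero_of_forall_pow_sum_mul_pow_eq_zero hg fun i =>
    (Finset.sum_congr rfl fun a _ => mul_comm _ _).trans (h i i.2)

namespace BlockTail

variable {A : Fin (N + 1) → SLC r} (H : BlockTail A)

/-- Pairs between the two blocks. -/
def Cr (c e : Fin H.K) (a b : Fin r) : Prop :=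
  (H.blk a = c ∧ H.blk b = e) ∨ (H.blk a = e ∧ H.blk b = c)

instance (c e : Fin H.K) : ∀ a b, Decidable (H.Cr c e a b) := fun a b => by
  unfold Cr; infer_instance

/-- The indices of the identities. -/
abbrev Idn (r : ℕ) : Type := {q : Bool × ℕ × ℂ × ℂ // 1 ≤ q.2.1 ∧ q.2.1 ≤ 2 * r}

/-- The two letters used on two blocks. -/
def pick : Bool → Mat r
  | false => 1
  | true => H.cyc

lemma bd_cyc : Bd H.blk H.cyc := fun a b h => by simp [cyc, h]

lemma bd_pick : ∀ b, Bd H.blk (H.pick b)
  | false => by rw [pick, ← Matrix.diagonal_one]; exact bd_diagonal _ _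
  | true => H.bd_cyc

/-- The torus element times the letter. -/
def tor (c e : Fin H.K) (q : Idn r) : Mat r :=
  bt H.blk (H.ind2 c e q.1.2.2.1 q.1.2.2.2) * H.pick q.1.1

/-- The coefficients of an identity. -/
def coef (M : Mat r) (c e : Fin H.K) (q : Idn r) (p : Fin r × Fin r) : ℂ :=
  -((H.tor c e q * (M * H.tor c e q) ^ q.1.2.1) p.1 p.2 * M p.2 p.1)

lemma ev2_eq (M : Mat r) (c e : Fin H.K) (φ : Fin r → Fin r → ℂ) (q : Idn r) :
    H.ev2 M φ (H.pick q.1.1) q.1.2.1 c e q.1.2.2.1 q.1.2.2.2 =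
      ∑ p : Fin r × Fin r, H.coef M c e q p * φ p.1 p.2 := by
  rw [ev2, ← Matrix.mul_assoc, Matrix.trace_mul_comm, ← Matrix.mul_assoc,
    Fintype.sum_prod_type]
  refine Finset.sum_congr rfl fun a _ => ?_
  rw [Matrix.diag, Matrix.mul_apply]
  refine Finset.sum_congr rfl fun b _ => ?_
  simp only [coef, tor, dlt, Matrix.of_apply]
  ring

lemma coef_zero (M : Mat r) (c e : Fin H.K) (q : Idn r) {a b : Fin r}
    (h : (H.blk a ≠ c ∧ H.blk a ≠ e) ∨ (H.blk b ≠ c ∧ H.blk b ≠ e)) :
    H.coef M c e q (a, b) = 0 := by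
  set T := H.tor c e q with hT
  have h0 : ∀ i j, (H.blk i ≠ c ∧ H.blk i ≠ e) → T i j = 0 := fun i j hi => by
    simp [hT, tor, bt, Matrix.diagonal_mul, ind2, hi.1, hi.2]
  have h1 : ∀ i j, (H.blk j ≠ c ∧ H.blk j ≠ e) → T i j = 0 := fun i j hj => by
    by_cases hb : H.blk i = H.blk j
    · exact h0 i j (by rwa [hb])
    · simp [hT, tor, bt, Matrix.diagonal_mul, H.bd_pick _ i j hb]
  rw [coef, neg_eq_zero, mul_eq_zero]
  refine Or.inl ?_
  show (T * (M * T) ^ q.1.2.1) a b = 0
  rcases h with h | h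
  · rw [Matrix.mul_apply]
    exact Finset.sum_eq_zero fun i _ => by rw [h0 a i h, zero_mul]
  · rw [← mul_pow_mul, Matrix.mul_apply]
    exact Finset.sum_eq_zero fun i _ => by rw [h1 i b h, mul_zero]

/-- A trivial kernel gives the condition on two blocks. -/
lemma pairOK_of_rows (M : Mat r) {c e : Fin H.K} (hce : c ≠ e) {p₀ : Fin r × Fin r}
    (hp1 : H.blk p₀.1 = c) (hp2 : H.blk p₀.2 = e)
    (h : ∀ v : Fin r × Fin r → ℂ,
      (∀ i, ∑ p, rows (H.Cr c e) p₀ (H.coef M c e) 1 i p * v p = 0) → v = 0) :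
    H.PairOK M c e := by
  intro φ hφ h1 h2
  set κ := φ p₀.1 p₀.2 with hκ
  set y : Fin r → ℂ := fun a => if H.blk a = c then 1 else 0 with hy
  let v : Fin r × Fin r → ℂ := fun p =>
    if H.Cr c e p.1 p.2 then φ p.1 p.2 - κ * (y p.1 - y p.2) else 0
  have hv : v = 0 := by
    refine h v ((rows_iff _ _ _ _ _).2 ⟨fun p hp => by simp [v, hp], ?_, fun q => ?_⟩)
    · simp [v, Cr, hp1, hp2, hy, Ne.symm hce, hκ]
    set T := H.tor c e q with hT
    have hTb : Bd H.blk T := (bd_diagonal _ _).mul (H.bd_pick _)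
    have hy0 : H.ev2 M (fun a b => y a - y b) (H.pick q.1.1) q.1.2.1 c e q.1.2.2.1 q.1.2.2.2
        = 0 := by
      have e1 := evW_sub_cob M (fun a b => y a - y b) y T q.1.2.1
      have hh : had (fun a b => y a - y b) T = 0 := by
        ext a b
        by_cases hb : H.blk a = H.blk b
        · simp [had, hy, hb]
        · simp [had, hTb a b hb]
      have hd : dlt M (fun a b : Fin r => y a - y b - (y a - y b)) = 0 := by
        ext a b; simp [dlt]
      have hh2 : had (fun a b : Fin r => y a - y b - (y a - y b)) T = 0 := by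
        ext a b; simp [had]
      simp only [evW, hd, hh, hh2, Matrix.zero_mul, Matrix.mul_zero, add_zero,
        Matrix.trace_zero] at e1
      exact e1.symm
    rw [H.ev2_eq] at hy0
    have hφ0 : ∑ p : Fin r × Fin r, H.coef M c e q p * φ p.1 p.2 = 0 := by
      rw [← H.ev2_eq]
      rcases q with ⟨⟨bb, m, t, s⟩, hm1, hm2⟩
      cases bb
      exacts [h1 m t s hm1 hm2, h2 m t s hm1 hm2]
    calc _ = ∑ p : Fin r × Fin r,
          (H.coef M c e q p * φ p.1 p.2 - κ * (H.coef M c e q p * (y p.1 - y p.2))) := by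
          refine Finset.sum_congr rfl fun p _ => ?_
          by_cases hp : H.Cr c e p.1 p.2
          · simp only [v, if_pos hp]; ring
          · have hφp : φ p.1 p.2 = 0 := by_contra fun hne => hp (hφ _ _ hne)
            simp only [v, if_neg hp, hφp, zero_mul, mul_zero, zero_sub]
            by_cases ha : H.blk p.1 ≠ c ∧ H.blk p.1 ≠ e
            · rw [H.coef_zero M c e q (Or.inl ha)]; ring
            by_cases hb : H.blk p.2 ≠ c ∧ H.blk p.2 ≠ e
            · rw [H.coef_zero M c e q (Or.inr hb)]; ring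
            have : H.blk p.1 = H.blk p.2 := by
              simp only [Cr] at hp
              grind
            simp [hy, this]
      _ = 0 := by rw [Finset.sum_sub_distrib, hφ0, ← Finset.mul_sum, hy0]; ring
  refine ⟨κ, fun a b ha hb => ⟨?_, ?_⟩⟩
  · have := congrFun hv (a, b)
    simp [v, Cr, ha, hb, hy, Ne.symm hce] at this
    linear_combination this
  · have := congrFun hv (b, a)
    simp [v, Cr, ha, hb, hy, Ne.symm hce] at this
    linear_combination this

/-- The diagonal part of the witness. -/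
def wD (r : ℕ) (η : ℂ) : Fin r → ℂ := fun a => 1 + η * ((a : ℕ) : ℂ)

/-- The part of the witness between the blocks. -/
def wO (c e : Fin H.K) (p₀ : Fin r × Fin r) (η : ℂ) : Mat r := Matrix.of fun a b =>
  if H.blk a = c ∧ H.blk b = e then 1
  else if H.blk a = e ∧ H.blk b = c then η + (if a = p₀.2 ∧ b = p₀.1 then 1 else 0) else 0

/-- The second coefficients at the witness. -/
def dcoef (c e : Fin H.K) (p₀ : Fin r × Fin r) (η : ℂ) (q : Idn r) (p : Fin r × Fin r) : ℂ :=
  -(H.wO c e p₀ η p.2 p.1) * (H.tor c e q * dpow q.1.2.1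
    (Matrix.diagonal (wD r η) * H.tor c e q) (H.wO c e p₀ η * H.tor c e q)) p.1 p.2

lemma sum_Cr {c e : Fin H.K} (hce : c ≠ e) (F : Fin r → Fin r → ℂ) :
    ∑ p : Fin r × Fin r, (if H.Cr c e p.1 p.2 then F p.1 p.2 else 0) =
      ∑ a, ∑ b, if H.blk a = c ∧ H.blk b = e then F a b + F b a else 0 := by
  have e1 : ∀ a b, (if H.Cr c e a b then F a b else 0) =
      (if H.blk a = c ∧ H.blk b = e then F a b else 0) +
        (if H.blk b = c ∧ H.blk a = e then F a b else 0) := by
    intro a b
    simp only [Cr]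
    split_ifs <;> grind
  rw [Fintype.sum_prod_type]
  simp only [e1, Finset.sum_add_distrib]
  rw [Finset.sum_comm (f := fun a b => if H.blk b = c ∧ H.blk a = e then F a b else 0),
    ← Finset.sum_add_distrib]
  refine Finset.sum_congr rfl fun a _ => ?_
  rw [← Finset.sum_add_distrib]
  refine Finset.sum_congr rfl fun b _ => ?_
  split_ifs <;> simp

/-- The bidegree components of the second coefficients. -/
lemma dcoef_components {c e : Fin H.K} (hce : c ≠ e) (p₀ : Fin r × Fin r) (η : ℂ)
    (v : Fin r × Fin r → ℂ) (bb : Bool) (k l : ℕ) (hkl : k + l + 1 ≤ 2 * r)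
    (h : ∀ q : Idn r, ∑ p : Fin r × Fin r,
      (if H.Cr c e p.1 p.2 then H.dcoef c e p₀ η q p else 0) * v p = 0) :
    ∑ a, ∑ b, (if H.blk a = c ∧ H.blk b = e then
      H.wO c e p₀ η b a * v (a, b) *
        (H.pick bb * (Matrix.diagonal (wD r η) * H.pick bb) ^ k * H.wO c e p₀ η *
          (H.pick bb * (Matrix.diagonal (wD r η) * H.pick bb) ^ l)) a b +
      H.wO c e p₀ η a b * v (b, a) *
        (H.pick bb * (Matrix.diagonal (wD r η) * H.pick bb) ^ l * H.wO c e p₀ η *
          (H.pick bb * (Matrix.diagonal (wD r η) * H.pick bb) ^ k)) b a else 0) = 0 := by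
  set O := H.wO c e p₀ η with hO
  set u := H.pick bb with hu
  set D := Matrix.diagonal (wD r η) with hD
  let W : ℕ → Mat r := fun j => u * (D * u) ^ j
  let E : ℕ → ℕ → ℂ := fun i j => ∑ a, ∑ b, if H.blk a = c ∧ H.blk b = e then
      O b a * v (a, b) * (W i * O * W j) a b + O a b * v (b, a) * (W j * O * W i) b a else 0
  change E k l = 0
  set m := k + l + 1 with hm
  have hWb : ∀ j, Bd H.blk (W j) := fun j =>
    (H.bd_pick bb).mul (((bd_diagonal _ _).mul (H.bd_pick bb)).pow j)
  have hsum : ∀ t : ℂ, ∑ i ∈ Finset.range m, t ^ (i + 1) * E i (m - 1 - i) = 0 := by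
    intro t
    set x := H.ind2 c e t 1 with hx
    set T := bt H.blk x * u with hT
    have h0 := h ⟨(bb, m, t, 1), by simp only [hm]; omega, by simpa [hm] using hkl⟩
    have hTP : ∀ j, T * (D * T) ^ j = bt H.blk (x ^ (j + 1)) * W j := by
      intro j
      have hc : D * T = bt H.blk x * (D * u) := by
        rw [hT, ← Matrix.mul_assoc, ← Matrix.mul_assoc,
          ((bd_diagonal H.blk (wD r η)).comm x).eq]
      rw [hc, (((bd_diagonal _ _).mul (H.bd_pick bb)).comm x).mul_pow, hT, bt_pow,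
        Matrix.mul_assoc, ← Matrix.mul_assoc u, ((H.bd_pick bb).comm (x ^ j)).eq.symm,
        Matrix.mul_assoc, ← Matrix.mul_assoc]
      simp only [bt, Matrix.diagonal_mul_diagonal, pow_succ', Pi.mul_apply]
      rfl
    have hent : ∀ i j a b, (T * ((D * T) ^ i * (O * T) * (D * T) ^ j)) a b =
        x (H.blk a) ^ (i + 1) * (W i * O * W j) a b * x (H.blk b) ^ (j + 1) := by
      intro i j a b
      rw [show T * ((D * T) ^ i * (O * T) * (D * T) ^ j) =
          T * (D * T) ^ i * O * (T * (D * T) ^ j) by simp only [Matrix.mul_assoc], hTP, hTP,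
        ((hWb j).comm _).eq]
      rw [show bt H.blk (x ^ (i + 1)) * W i * O * (W j * bt H.blk (x ^ (j + 1))) =
          bt H.blk (x ^ (i + 1)) * (W i * O * W j) * bt H.blk (x ^ (j + 1)) by
        simp only [Matrix.mul_assoc]]
      simp [bt, Matrix.mul_diagonal, Matrix.diagonal_mul]
    have e1 : ∑ p : Fin r × Fin r,
        (if H.Cr c e p.1 p.2 then H.dcoef c e p₀ η ⟨(bb, m, t, 1), by simp only [hm]; omega,
          by simpa [hm] using hkl⟩ p else 0) * v p =
        -∑ i ∈ Finset.range m, ∑ p : Fin r × Fin r, (if H.Cr c e p.1 p.2 then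
          x (H.blk p.1) ^ (i + 1) * x (H.blk p.2) ^ (m - 1 - i + 1) *
            (O p.2 p.1 * v p * (W i * O * W (m - 1 - i)) p.1 p.2) else 0) := by
      rw [Finset.sum_comm, ← Finset.sum_neg_distrib]
      refine Finset.sum_congr rfl fun p _ => ?_
      split_ifs with hp
      · simp only [dcoef, tor, dpow, ← hu, ← hx, ← hT, ← hD, ← hO, Finset.mul_sum,
          Matrix.sum_apply, hent, Finset.sum_mul, ← Finset.sum_neg_distrib]
        exact Finset.sum_congr rfl fun i _ => by ring
      · simp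
    rw [e1, neg_eq_zero] at h0
    have e3 : ∀ i, ∑ p : Fin r × Fin r, (if H.Cr c e p.1 p.2 then
          x (H.blk p.1) ^ (i + 1) * x (H.blk p.2) ^ (m - 1 - i + 1) *
            (O p.2 p.1 * v p * (W i * O * W (m - 1 - i)) p.1 p.2) else 0) =
        ∑ a, ∑ b, if H.blk a = c ∧ H.blk b = e then
        x (H.blk a) ^ (i + 1) * x (H.blk b) ^ (m - 1 - i + 1) *
          (O b a * v (a, b) * (W i * O * W (m - 1 - i)) a b) +
        x (H.blk b) ^ (i + 1) * x (H.blk a) ^ (m - 1 - i + 1) *
          (O a b * v (b, a) * (W i * O * W (m - 1 - i)) b a) else 0 := fun i =>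
      H.sum_Cr hce fun a b => x (H.blk a) ^ (i + 1) * x (H.blk b) ^ (m - 1 - i + 1) *
        (O b a * v (a, b) * (W i * O * W (m - 1 - i)) a b)
    simp only [e3] at h0
    have hxc : x c = t := by simp [hx, ind2]
    have hxe : x e = 1 := by simp [hx, ind2, Ne.symm hce]
    have e2 : ∀ i, (∑ a, ∑ b, if H.blk a = c ∧ H.blk b = e then
        x (H.blk a) ^ (i + 1) * x (H.blk b) ^ (m - 1 - i + 1) *
          (O b a * v (a, b) * (W i * O * W (m - 1 - i)) a b) +
        x (H.blk b) ^ (i + 1) * x (H.blk a) ^ (m - 1 - i + 1) *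
          (O a b * v (b, a) * (W i * O * W (m - 1 - i)) b a) else 0) =
        t ^ (i + 1) * (∑ a, ∑ b, if H.blk a = c ∧ H.blk b = e then
          O b a * v (a, b) * (W i * O * W (m - 1 - i)) a b else 0) +
        t ^ (m - 1 - i + 1) * (∑ a, ∑ b, if H.blk a = c ∧ H.blk b = e then
          O a b * v (b, a) * (W i * O * W (m - 1 - i)) b a else 0) := by
      intro i
      simp only [Finset.mul_sum, ← Finset.sum_add_distrib]
      refine Finset.sum_congr rfl fun a _ => Finset.sum_congr rfl fun b _ => ?_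
      split_ifs with hab
      · rw [hab.1, hab.2, hxc, hxe]; ring
      · simp
    simp only [e2, Finset.sum_add_distrib] at h0
    rw [← Finset.sum_range_reflect (fun i => t ^ (m - 1 - i + 1) * (_ : ℂ)),
      ← Finset.sum_add_distrib] at h0
    rw [← h0]
    refine Finset.sum_congr rfl fun i hi => ?_
    have hi' := Finset.mem_range.1 hi
    rw [show m - 1 - (m - 1 - i) = i by omega, ← mul_add]
    congr 1
    simp only [E, ← Finset.sum_add_distrib]
    refine Finset.sum_congr rfl fun a _ => Finset.sum_congr rfl fun b _ => ?_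
    split_ifs <;> simp
  have hP : (∑ i ∈ Finset.range m,
      Polynomial.C (E i (m - 1 - i)) * Polynomial.X ^ (i + 1) : Polynomial ℂ) = 0 :=
    Polynomial.funext fun t => by
      simp only [Polynomial.eval_finsetSum, Polynomial.eval_mul, Polynomial.eval_C,
        Polynomial.eval_pow, Polynomial.eval_X, Polynomial.eval_zero]
      rw [← hsum t]
      exact Finset.sum_congr rfl fun i _ => mul_comm _ _
  have hk := congrArg (fun P : Polynomial ℂ => P.coeff (k + 1)) hP
  simp only [Polynomial.finsetSum_coeff, Polynomial.coeff_C_mul, Polynomial.coeff_X_pow,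
    Polynomial.coeff_zero, mul_ite, mul_one, mul_zero, add_left_inj, Finset.sum_ite_eq,
    Finset.mem_range] at hk
  rw [if_pos (by omega), show m - 1 - k = l by omega] at hk
  exact hk

/-- At a generic parameter the second coefficients have trivial kernel. -/
lemma dcoef_inj [NeZero r] {c e : Fin H.K} (hce : c ≠ e) {p₀ : Fin r × Fin r}
    (hp1 : H.blk p₀.1 = c) (hp2 : H.blk p₀.2 = e) :
    ∃ η : ℂ, ∀ v : Fin r × Fin r → ℂ,
      (∀ i, ∑ p, rows (H.Cr c e) p₀ (H.dcoef c e p₀ η) 1 i p * v p = 0) → v = 0 := by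
  classical
  let F : ((Fin r × Fin r) ⊕ (Unit ⊕ Idn r)) ⊕ (Fin r × Fin r) → Fin r × Fin r → ℂ → ℂ :=
    fun i p η => Sum.elim (fun i => rows (H.Cr c e) p₀ (H.dcoef c e p₀ η) 1 i p)
      (fun w => (if p = w then (1 : ℂ) else 0) + (if p = (w.2, w.1) then 1 else 0)) i
  have hc : ∀ i p, ContinuousAt (F i p) 0 := by
    intro i p
    refine Continuous.continuousAt ?_
    rcases i with (i | i | q) | w
    · exact continuous_const
    · exact continuous_const
    · simp only [F, Sum.elim_inl, rows]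
      split_ifs
      · have hO : Continuous fun η => H.wO c e p₀ η := continuous_matrix fun a b => by
          simp only [wO, Matrix.of_apply]
          split_ifs <;> fun_prop
        have hD : Continuous fun η => Matrix.diagonal (wD r η) :=
          (continuous_pi fun a => by simp only [wD]; fun_prop).matrix_diagonal
        refine ((hO.matrix_elem _ _).neg).mul ((continuous_const.matrix_mul ?_).matrix_elem _ _)
        refine continuous_finsetSum _ fun k _ => ?_
        exact (((hD.matrix_mul continuous_const).pow _).matrix_mul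
          (hO.matrix_mul continuous_const)).matrix_mul ((hD.matrix_mul continuous_const).pow _)
      · exact continuous_const
    · exact continuous_const
  have hinj : ∀ v : Fin r × Fin r → ℂ, (∀ i, ∑ p, F i p 0 * v p = 0) → v = 0 := by
    intro v hv
    obtain ⟨hout, hnorm, heq⟩ := (rows_iff _ _ _ _ v).1 fun i => hv (.inl i)
    simp only [one_mul] at hout hnorm
    have hanti : ∀ a b, v (a, b) + v (b, a) = 0 := fun a b => by
      simpa [F, add_mul, Finset.sum_add_distrib, ite_mul] using hv (.inr (a, b))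
    set W : ℕ → Mat r := fun k => H.cyc ^ (k + 1) with hW
    have hWb : ∀ k, Bd H.blk (W k) := fun k => H.bd_cyc.pow _
    have hE : ∀ k l, k < r → l < r → ∑ a, ∑ b,
        (if H.blk a = c ∧ H.blk b = e then v (a, b) * W k p₀.1 a * W l b p₀.2 else 0) = 0 := by
      intro k l hk hl
      have h0 := H.dcoef_components hce p₀ 0 v true k l (by omega) heq
      have hD0 : Matrix.diagonal (wD r 0) = (1 : Mat r) := by
        rw [show wD r 0 = fun _ => (1 : ℂ) by funext a; simp [wD], Matrix.diagonal_one]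
      simp only [hD0, Matrix.one_mul, pick, ← pow_succ'] at h0
      refine neg_eq_zero.1 (Eq.trans ?_ h0)
      simp only [← Finset.sum_neg_distrib]
      refine Finset.sum_congr rfl fun a _ => Finset.sum_congr rfl fun b _ => ?_
      split_ifs with hab
      · obtain ⟨ha, hb⟩ := hab
        have e1 : H.wO c e p₀ 0 a b = 1 := by simp [wO, ha, hb]
        have e2 : H.wO c e p₀ 0 b a * v (a, b) = 0 := by
          by_cases hq : b = p₀.2 ∧ a = p₀.1
          · rw [show (a, b) = p₀ from Prod.ext hq.2 hq.1, hnorm, mul_zero]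
          · simp [wO, ha, hb, hce, Ne.symm hce, hq]
        have e3 : (W l * H.wO c e p₀ 0 * W k) b a = W l b p₀.2 * W k p₀.1 a := by
          rw [Matrix.mul_apply, Finset.sum_eq_single p₀.1, Matrix.mul_apply,
            Finset.sum_eq_single p₀.2]
          · simp [wO, hp1, hp2, hce, Ne.symm hce]
          · intro i _ hi
            by_cases hbi : H.blk b = H.blk i
            · simp [wO, hp1, ← hbi, hb, hce, Ne.symm hce, hi]
            · rw [hWb l b i hbi, zero_mul]
          · simp
          · intro j _ hj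
            by_cases hja : H.blk j = H.blk a
            · rw [Matrix.mul_apply, Finset.sum_eq_zero fun i _ => ?_, zero_mul]
              by_cases hbi : H.blk b = H.blk i
              · simp [wO, hja, ha, ← hbi, hb, hce, Ne.symm hce, hj]
              · rw [hWb l b i hbi, zero_mul]
            · rw [hWb k j a hja, mul_zero]
          · simp
        rw [e2, e1, e3, show v (b, a) = -v (a, b) by linear_combination hanti a b]
        ring
      · simp
    have hB : ∀ a b, ∃ ee : ℂ, IsIntegral ℤ ee ∧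
        H.cyc a b = (if b = H.π a then H.u a else 0) + (H.m : ℂ) * ee := by
      intro a b
      by_cases hab : H.blk a = H.blk b
      · simpa [cyc, hab] using H.cong a b
      · refine ⟨0, isIntegral_zero, ?_⟩
        have : b ≠ H.π a := fun he => hab (by rw [he, H.blk_π])
        simp [cyc, hab, this]
    have hrow := fun w hw h => row_krylov H.π H.blk H.blk_π H.cycle H.cyc H.hm H.u H.unit hB
      H.bd_cyc p₀.1 w hw h
    have hcol := fun w hw h => col_krylov H.π H.blk H.blk_π H.cycle H.cyc H.hm H.u H.unit hB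
      H.bd_cyc p₀.2 w hw h
    have hzero : ∀ a b, H.blk a = c → H.blk b = e → v (a, b) = 0 := by
      intro a b ha hb
      have hw : ∀ l, l < r →
          (fun a => if H.blk a = c then
            ∑ b, (if H.blk b = e then v (a, b) * W l b p₀.2 else 0) else 0) = 0 := by
        intro l hl
        refine hrow _ (fun i hi => by simp [hp1 ▸ hi]) fun k hk => ?_
        have hkr : k < r := hk.trans_le (card_le_r _)
        refine Eq.trans ?_ (hE k l hkr hl)
        refine Finset.sum_congr rfl fun i _ => ?_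
        by_cases hi : H.blk i = c
        · simp only [hi, if_pos, true_and, Finset.mul_sum]
          refine Finset.sum_congr rfl fun j _ => ?_
          split_ifs <;> simp [hW] <;> ring
        · simp [hi]
      have := hcol (fun b => if H.blk b = e then v (a, b) else 0) (fun i hi => by simp [hp2 ▸ hi])
        fun l hl => by
          have := congrFun (hw l (hl.trans_le (card_le_r _))) a
          simpa [ha, hW, ite_mul] using this
      simpa [hb] using congrFun this b
    funext p
    by_cases hp : H.Cr c e p.1 p.2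
    · rcases hp with ⟨h1, h2⟩ | ⟨h1, h2⟩
      · exact hzero _ _ h1 h2
      · have := hanti p.1 p.2
        rw [hzero _ _ h2 h1, add_zero] at this
        exact this
    · exact hout p hp
  have hne1 : ∀ᶠ η in 𝓝 (0 : ℂ), η ≠ -1 :=
    continuous_id.continuousAt.eventually_ne (by norm_num)
  have hall : ∀ᶠ η in 𝓝[≠] (0 : ℂ),
      (∀ v : Fin r × Fin r → ℂ, (∀ i, ∑ p, F i p η * v p = 0) → v = 0) ∧ η ≠ 0 ∧ η ≠ -1 := by
    filter_upwards [(inj_near F hc hinj).filter_mono nhdsWithin_le_nhds,
      hne1.filter_mono nhdsWithin_le_nhds, self_mem_nhdsWithin] with η h1 h2 h3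
    exact ⟨h1, h3, h2⟩
  obtain ⟨η, hη, hη0, hη1⟩ := hall.exists
  refine ⟨η, fun v hv => hη v ?_⟩
  rintro (i | ⟨a, b⟩)
  · exact hv i
  obtain ⟨hout, -, heq⟩ := (rows_iff _ _ _ _ v).1 hv
  simp only [one_mul] at hout
  have hne : ∀ a b, H.Cr c e a b → H.wO c e p₀ η a b ≠ 0 := by
    rintro a b (⟨ha, hb⟩ | ⟨ha, hb⟩)
    · simp [wO, ha, hb]
    · simp only [wO, Matrix.of_apply, ha, hb, hce, Ne.symm hce, and_self, if_false, if_true]
      split_ifs
      · intro h; exact hη1 (eq_neg_of_add_eq_zero_left h)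
      · simpa using hη0
  have hg : Function.Injective (wD r η) := fun x y hxy => by
    simp only [wD, add_right_inj, mul_eq_mul_left_iff, Nat.cast_inj] at hxy
    exact Fin.ext (hxy.resolve_right hη0)
  set O := H.wO c e p₀ η
  have hE : ∀ k l, k < r → l < r → ∑ a, ∑ b, (if H.blk a = c ∧ H.blk b = e then
      wD r η a ^ k * wD r η b ^ l * (O a b * O b a * (v (a, b) + v (b, a))) else 0) = 0 := by
    intro k l hk hl
    have h0 := H.dcoef_components hce p₀ η v false k l (by omega) heq
    simp only [pick, Matrix.one_mul, Matrix.mul_one, Matrix.diagonal_pow] at h0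
    refine Eq.trans ?_ h0
    refine Finset.sum_congr rfl fun a _ => Finset.sum_congr rfl fun b _ => ?_
    split_ifs
    · simp only [Matrix.mul_diagonal, Matrix.diagonal_mul, Pi.pow_apply, O]
      ring
    · rfl
  have hs : ∀ a b, H.blk a = c → H.blk b = e → v (a, b) + v (b, a) = 0 := by
    intro a b ha hb
    let w : ℕ → Fin r → ℂ := fun l a => if H.blk a = c then ∑ b, (if H.blk b = e then
      wD r η b ^ l * (O a b * O b a * (v (a, b) + v (b, a))) else 0) else 0
    have h1 : ∀ l, l < r → w l = 0 := fun l hl => eq_zero_of_pow_sums hg fun k hk => by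
      refine Eq.trans ?_ (hE k l hk hl)
      refine Finset.sum_congr rfl fun i _ => ?_
      by_cases hi : H.blk i = c
      · simp only [w, hi, if_pos, true_and, Finset.mul_sum]
        refine Finset.sum_congr rfl fun j _ => ?_
        split_ifs <;> ring
      · simp [w, hi]
    have h2 := eq_zero_of_pow_sums (w := fun b => if H.blk b = e then
      O a b * O b a * (v (a, b) + v (b, a)) else 0) hg fun l hl => by
        have := congrFun (h1 l hl) a
        simpa [w, ha, mul_ite] using this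
    simpa [hb, hne a b (Or.inl ⟨ha, hb⟩), hne b a (Or.inr ⟨hb, ha⟩)] using congrFun h2 b
  have : v (a, b) + v (b, a) = 0 := by
    by_cases hp : H.Cr c e a b
    · rcases hp with ⟨ha, hb⟩ | ⟨ha, hb⟩
      · exact hs a b ha hb
      · rw [add_comm]; exact hs b a hb ha
    · rw [hout (a, b) hp, hout (b, a) fun h => hp (by simp only [Cr] at h ⊢; tauto), add_zero]
  simpa [F, add_mul, Finset.sum_add_distrib, ite_mul] using this
where
  card_le_r (s : Finset (Fin r)) : s.card ≤ r := by simpa using s.card_le_univ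

/-- A certificate for the condition on two blocks. -/
lemma exists_pairPoly [NeZero r] {c e : Fin H.K} (hce : c ≠ e) :
    ∃ P : MvPolynomial (Fin r × Fin r) ℂ, P ≠ 0 ∧
      ∀ M : Mat r, eval (fun p => M p.1 p.2) P ≠ 0 → H.PairOK M c e := by
  classical
  obtain ⟨a₀, ha₀⟩ := H.surj c
  obtain ⟨b₀, hb₀⟩ := H.surj e
  obtain ⟨η, hη⟩ := H.dcoef_inj hce (p₀ := (a₀, b₀)) ha₀ hb₀
  set O := H.wO c e (a₀, b₀) η
  set D : Mat r := Matrix.diagonal (wD r η)
  let f : (Fin r × Fin r) ⊕ (Unit ⊕ Idn r) → Fin r × Fin r → ℂ → ℂ := fun i p ε =>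
    rows (H.Cr c e) (a₀, b₀) (fun q p => -(O p.2 p.1) *
      (H.tor c e q * (D * H.tor c e q + ε • (O * H.tor c e q)) ^ q.1.2.1) p.1 p.2) ε i p
  have hder : ∀ i p, HasDerivAt (f i p)
      (rows (H.Cr c e) (a₀, b₀) (H.dcoef c e (a₀, b₀) η) 1 i p) 0 := by
    rintro (i | i | q) p <;> simp only [f, rows]
    · split_ifs
      exacts [hasDerivAt_id 0, hasDerivAt_const _ _]
    · split_ifs
      exacts [hasDerivAt_id 0, hasDerivAt_const _ _]
    · split_ifs
      · refine HasDerivAt.const_mul _ ?_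
        simp only [Matrix.mul_apply (M := H.tor c e q)]
        exact HasDerivAt.fun_sum fun j _ => (hasDerivAt_pow_add _ _ _ _ _).const_mul _
      · exact hasDerivAt_const _ _
  have h0 : ∀ i p, f i p 0 = 0 := by
    rintro (i | i | q) p <;> simp only [f, rows, ite_self]
    split_ifs with hp
    · have hT : Bd H.blk (H.tor c e q) := (bd_diagonal _ _).mul (H.bd_pick _)
      rw [zero_smul, add_zero, (hT.mul (((bd_diagonal _ _).mul hT).pow _)) p.1 p.2 ?_, mul_zero]
      rcases hp with ⟨h1, h2⟩ | ⟨h1, h2⟩ <;> rw [h1, h2]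
      exacts [hce, hce.symm]
    · rfl
  obtain ⟨ε, hε, hinj⟩ := exists_inj_of_deriv f (fun i p => (hder i p).differentiableAt) h0
    fun v hv => hη v fun i => by
      rw [← hv i]; exact Finset.sum_congr rfl fun p _ => by rw [(hder i p).deriv]
  set M₁ : Mat r := D + ε • O with hM₁
  let Xm : Matrix (Fin r) (Fin r) (MvPolynomial (Fin r × Fin r) ℂ) :=
    Matrix.mvPolynomialX (Fin r) (Fin r) ℂ
  let Tm : Idn r → Matrix (Fin r) (Fin r) (MvPolynomial (Fin r × Fin r) ℂ) := fun q =>
    (H.tor c e q).map MvPolynomial.C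
  let cP : Idn r → Fin r × Fin r → MvPolynomial (Fin r × Fin r) ℂ := fun q p =>
    -((Tm q * (Xm * Tm q) ^ q.1.2.1) p.1 p.2 * Xm p.2 p.1)
  have hcP : ∀ (M : Mat r) q p, eval (fun w => M w.1 w.2) (cP q p) = H.coef M c e q p := by
    intro M q p
    set φ : Matrix (Fin r) (Fin r) (MvPolynomial (Fin r × Fin r) ℂ) →+* Mat r :=
      (eval fun w : Fin r × Fin r => M w.1 w.2).mapMatrix with hφ
    have eC : ∀ P : Mat r, φ (P.map MvPolynomial.C) = P := fun P => by ext a b; simp [hφ]
    have eX : φ Xm = M := by ext a b; simp [hφ, Xm, Matrix.mvPolynomialX]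
    have e1 : φ (Tm q * (Xm * Tm q) ^ q.1.2.1) =
        H.tor c e q * (M * H.tor c e q) ^ q.1.2.1 := by
      simp only [Tm, map_mul, map_pow, eC, eX]
    simp only [cP, map_neg, map_mul, coef]
    congr 2
    · exact congrFun (congrFun e1 p.1) p.2
    · simp [Xm, Matrix.mvPolynomialX]
  let EP : (Fin r × Fin r) ⊕ (Unit ⊕ Idn r) → Fin r × Fin r → MvPolynomial (Fin r × Fin r) ℂ :=
    fun i p => rows (H.Cr c e) (a₀, b₀) cP 1 i p
  have hEP : ∀ (M : Mat r) i p, eval (fun w => M w.1 w.2) (EP i p) =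
      rows (H.Cr c e) (a₀, b₀) (H.coef M c e) 1 i p := fun M i p => by
    simp only [EP, map_rows, map_one, hcP]
  suffices hker : ∀ v : Fin r × Fin r → ℂ,
      (∀ i, ∑ p, rows (H.Cr c e) (a₀, b₀) (H.coef M₁ c e) 1 i p * v p = 0) → v = 0 by
    obtain ⟨P, hP1, hP⟩ := exists_cert EP (fun w => M₁ w.1 w.2) fun v hv => hker v fun i => by
      simpa only [hEP] using hv i
    refine ⟨P, fun h => hP1 (by rw [h, map_zero]), fun M hM =>
      H.pairOK_of_rows M hce (p₀ := (a₀, b₀)) ha₀ hb₀ fun v hv => hP _ hM v fun i => ?_⟩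
    simp only [hEP]; exact hv i
  intro v hv
  refine hinj v ?_
  obtain ⟨hout, hnorm, heq⟩ := (rows_iff _ _ _ _ v).1 hv
  simp only [one_mul] at hout hnorm
  refine (rows_iff _ _ _ _ v).2 ⟨fun p hp => by rw [hout p hp, mul_zero],
    by rw [hnorm, mul_zero], fun q => ?_⟩
  refine mul_left_cancel₀ hε (Eq.trans ?_ ((heq q).trans (mul_zero ε).symm))
  rw [Finset.mul_sum]
  refine Finset.sum_congr rfl fun p _ => ?_
  split_ifs with hp
  · have hD : D p.2 p.1 = 0 := Matrix.diagonal_apply_ne _ fun h => by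
      rcases hp with ⟨h1, h2⟩ | ⟨h1, h2⟩ <;> rw [h] at h2 <;>
        exact hce (by rw [← h1, ← h2])
    simp only [coef, hM₁, add_mul, Matrix.add_apply, Matrix.smul_apply, smul_mul_assoc, hD,
      zero_add, smul_eq_mul]
    ring
  · simp

/-- A certificate for the cycles through three blocks. -/
lemma exists_triPoly {c e h : Fin H.K} (hce : c ≠ e) (heh : e ≠ h) (hhc : h ≠ c) :
    ∃ P : MvPolynomial (Fin r × Fin r) ℂ, P ≠ 0 ∧
      ∀ M : Mat r, eval (fun p => M p.1 p.2) P = H.triQ M c e h := by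
  classical
  obtain ⟨a₀, ha⟩ := H.surj c
  obtain ⟨b₀, hb⟩ := H.surj e
  obtain ⟨f₀, hf⟩ := H.surj h
  let P : MvPolynomial (Fin r × Fin r) ℂ := ∑ a, ∑ b, ∑ f,
    if H.blk a = c ∧ H.blk b = e ∧ H.blk f = h then
      X (a, b) * X (b, f) * X (f, a) - X (a, f) * X (f, b) * X (b, a) else 0
  have hev : ∀ M : Mat r, eval (fun p => M p.1 p.2) P = H.triQ M c e h := fun M => by
    simp only [P, triQ, map_sum, apply_ite (eval (fun p : Fin r × Fin r => M p.1 p.2)), map_sub,
      map_mul, eval_X, map_zero]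
  refine ⟨P, fun h0 => ?_, hev⟩
  let M : Mat r := Matrix.of fun a b =>
    if (a = a₀ ∧ b = b₀) ∨ (a = b₀ ∧ b = f₀) ∨ (a = f₀ ∧ b = a₀) then 1 else 0
  have hab : a₀ ≠ b₀ := fun e' => hce (by rw [← ha, ← hb, e'])
  have hbf : b₀ ≠ f₀ := fun e' => heh (by rw [← hb, ← hf, e'])
  have hfa : f₀ ≠ a₀ := fun e' => hhc (by rw [← hf, ← ha, e'])
  have h1 := hev M
  rw [h0, map_zero, triQ, Finset.sum_eq_single a₀, Finset.sum_eq_single b₀,
    Finset.sum_eq_single f₀] at h1
  · simp [M, ha, hb, hf, hab, hbf, hfa, hab.symm, hbf.symm, hfa.symm] at h1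
  · intro f _ hf'
    simp [M, hab, hbf, hfa, hab.symm, hbf.symm, hfa.symm, hf']
  · simp
  · intro b _ hb'
    refine Finset.sum_eq_zero fun f _ => ?_
    simp [M, hab, hbf, hfa, hab.symm, hbf.symm, hfa.symm, hb']
    grind
  · simp
  · intro a _ ha'
    refine Finset.sum_eq_zero fun b _ => Finset.sum_eq_zero fun f _ => ?_
    simp [M, ha']
    grind
  · simp

/-- Some first generator is in general position and makes all translates good. -/
theorem exists_gen [NeZero r] (hr : 2 ≤ r) :
    ∃ G : SLC r, (∀ l, Avoids (G * vw A l).val) ∧ H.Gen G.val := by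
  classical
  choose Pp hPp1 hPp2 using fun q : {q : Fin H.K × Fin H.K // q.1 ≠ q.2} =>
    H.exists_pairPoly q.2
  choose Pt hPt1 hPt2 using fun q : {q : Fin H.K × Fin H.K × Fin H.K //
      q.1 ≠ q.2.1 ∧ q.2.1 ≠ q.2.2 ∧ q.2.2 ≠ q.1} => H.exists_triPoly q.2.1 q.2.2.1 q.2.2.2
  let P : MvPolynomial (Fin r × Fin r) ℂ := (∏ p, X p) * (∏ q, Pp q) * ∏ q, Pt q
  have hP : P ≠ 0 := mul_ne_zero (mul_ne_zero (Finset.prod_ne_zero_iff.2 fun p _ => X_ne_zero p)
    (Finset.prod_ne_zero_iff.2 fun q _ => hPp1 q)) (Finset.prod_ne_zero_iff.2 fun q _ => hPt1 q)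
  obtain ⟨G, hG, lam, hlam, hGP⟩ := exists_good_cond hr (fun l => vw A l) P hP
  refine ⟨G, hG, ?_⟩
  set M : Mat r := lam • G.val
  have hM : eval (fun p => M p.1 p.2) P ≠ 0 := by simpa [M] using hGP
  simp only [P, map_mul, map_prod, mul_ne_zero_iff, Finset.prod_ne_zero_iff, Finset.mem_univ,
    true_implies, eval_X] at hM
  refine ⟨fun a b h => hM.1.1 (a, b) (by simp [M, h]), fun c e hce φ hφ h1 h2 => ?_, ?_⟩
  · refine hPp2 ⟨(c, e), hce.ne⟩ M (hM.1.2 _) φ hφ ?_ ?_
    all_goals
      intro m t s hm hmr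
      have e1 : dlt M φ = lam • dlt G.val φ := by ext a b; simp [dlt, M]; ring
      simp only [ev2, e1, M, smul_mul_assoc, smul_pow, mul_smul_comm, smul_smul,
        Matrix.trace_smul, smul_eq_zero]
    exacts [Or.inr (h1 m t s hm hmr), Or.inr (h2 m t s hm hmr)]
  · intro c e h h1 h2 h3 h0
    refine hM.2 ⟨(c, e, h), h1, h2, h3⟩ ?_
    rw [hPt2, show H.triQ M c e h = lam ^ 3 * H.triQ G.val c e h by
      simp only [triQ, Finset.mul_sum, mul_ite, mul_zero, M, Matrix.smul_apply, smul_eq_mul]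
      exact Finset.sum_congr rfl fun a _ => Finset.sum_congr rfl fun b _ =>
        Finset.sum_congr rfl fun f _ => by split_ifs <;> ring, h0, mul_zero]

end BlockTail

end Vale.Agent.P002
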