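import Vale.Agent.P002.PunctTwo.Flow

/-!
A neighbourhood of a point with `b₀ = 1` whose power twists span lies in the closure of the points
over a subring.
-/

namespace Vale.Agent.P002

open Matrix Filter Topology
open scoped ContDiff commutatorElement

variable {r n s : ℕ} {z : Fin s → SLC r} {R : Subring ℂ}

section Tangent

variable {σ : PRep n s (SLC r)} {A₀ : SLC r}
  {D : (PVar n s r → ℂ) →L[ℂ] (Sl n s → ℂ) × (Fin r × Fin r → ℂ)}

lemma dcons_a0 (hrel : relP z σ = 1) (hb : σ.1.2 0 = 1)
    (hDp : HasFDerivAt (consP z) D (coordP (setA σ A₀))) {Y : Mat r}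
    (hY : (A₀⁻¹.val * Y).trace = 0) : D (put (sa0 n s) Y) = 0 := by
  set G := A₀⁻¹.val * Y with hG
  have hd : HasD (fun t : ℂ => (relP z (setA σ (A₀ * expM (t • G)))).val) 0 := by
    simp only [relP_setA σ _ hb, hrel]
    exact hasD_const _
  have h := dcons_curve hDp (γ := fun t : ℂ => setA σ (A₀ * expM (t • G)))
    (w := put (sa0 n s) Y) (by simp [expM_zero]) (fun u => ?_) hd
  · rw [h]
    rfl
  · rw [slotM_put]
    by_cases hu : u = sa0 n s
    · subst hu
      simpa [slotG, setA] using ((hasD_const A₀.val).mul (hasD_expM G)).congr (w := Y)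
        (by rw [tl_of_trace hY, hG, ← Matrix.mul_assoc, val_mul_inv, Matrix.one_mul]; simp)
    · rw [if_neg hu]
      rcases u with ⟨i, c⟩ | j
      · cases c
        · have : i ≠ 0 := fun e => hu (by rw [e])
          simpa [slotG, setA, this] using hasD_const _
        · simpa [slotG, setA] using hasD_const _
      · simpa [slotG, setA] using hasD_const (σ.2 j).val

lemma dcons_b0 (hrel : relP z σ = 1) (hb : σ.1.2 0 = 1)
    (hDp : HasFDerivAt (consP z) D (coordP (setA σ A₀))) {Y : Mat r} (hY : Y.trace = 0) :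
    D (put (sb0 n s) Y) = (0, fun q => (adj A₀ Y - Y) q.1 q.2) := by
  set p := setA σ A₀ with hp
  have hpb : p.1.2 0 = 1 := by simp [p, setA, hb]
  refine dcons_curve hDp (γ := fun t => setB p (expM (t • Y))) (d := adj A₀ Y - Y) ?_ ?_ ?_
  · simp only [zero_smul, expM_zero, setB]
    rw [← hpb, Function.update_eq_self]
  · intro u
    rw [slotM_put]
    by_cases hu : u = sb0 n s
    · subst hu
      simpa [slotG, setB] using (hasD_expM Y).congr (tl_of_trace hY)
    · rw [if_neg hu]
      rcases u with ⟨i, c⟩ | j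
      · cases c
        · simpa [slotG, setB] using hasD_const _
        · have : i ≠ 0 := fun e => hu (by rw [e])
          simpa [slotG, setB, this] using hasD_const _
      · simpa [slotG, setB] using hasD_const (p.2 j).val
  · have hrest : (tailComm σ.1).prod * pprod z σ = 1 := by
      have := hrel
      rw [relP, relator, hb] at this
      simpa [commutatorElement_def, mul_assoc] using this
    have e : ∀ t : ℂ, relP z (setB p (expM (t • Y))) =
        A₀ * expM (t • Y) * A₀⁻¹ * (expM (t • Y))⁻¹ := fun t => by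
      have e1 : relP z (setB p (expM (t • Y))) =
          ⁅A₀, expM (t • Y)⁆ * ((tailComm σ.1).prod * pprod z σ) := by
        simp [relP, relator, tailComm, p, setA, setB, pprod, Fin.succ_ne_zero, mul_assoc]
        rfl
      rw [e1, hrest, mul_one, commutatorElement_def]
    simp only [e]
    have hh := hasD_conj (g := fun _ : ℂ => A₀) (Smooth.const _)
      ((hasD_expM Y).congr (tl_of_trace hY)) (by simp [expM_zero])
    refine (hh.mul (hasD_inv_of_one (smooth_expM_smul Y)
      ((hasD_expM Y).congr (tl_of_trace hY)) (by simp [expM_zero]))).congr ?_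
    simp [expM_zero, adj_apply, sub_eq_add_neg, -Matrix.SpecialLinearGroup.coe_inv]

lemma dcons_ell (hrel : relP z σ = 1) (hb : σ.1.2 0 = 1)
    (hDp : HasFDerivAt (consP z) D (coordP (setA σ A₀))) (m : Lt n s) {Y : Mat r}
    (hY : Y.trace = 0) :
    D (ell z σ m Y) = (0, fun q => (adj (xlet z σ m)⁻¹ Y - Y) q.1 q.2) := by
  set p := setA σ A₀ with hp
  set x := xlet z σ m with hx
  set v := A₀ * x⁻¹
  set σv := setA σ v with hσv
  have hvb : σv.1.2 0 = 1 := by simp [σv, setA, hb]
  have hf := (hasD_expM Y).congr (tl_of_trace hY)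
  have hw := hasDC_pfwd_b (z := z) σv (smooth_expM_smul Y) hf (by simp [expM_zero]) m
  rw [xlet_setA, ← hx, ell_setA] at hw
  have hpf : pfwd z m (setB σv (expM ((0 : ℂ) • Y))) = p := by
    rw [zero_smul, expM_zero, show setB σv 1 = σv by
      simp only [setB]; rw [← hvb, Function.update_eq_self], pfwd_base m σv hvb, xlet_setA]
    simp [σv, setA, v, p, hx]
  have hrest : (tailComm σ.1).prod * pprod z σ = 1 := by
    have := hrel
    rw [relP, relator, hb] at this
    simpa [commutatorElement_def, mul_assoc] using this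
  have hd : HasD (fun t => (relP z (pfwd z m (setB σv (expM (t • Y))))).val) (adj v Y - Y) := by
    have e : ∀ t : ℂ, relP z (pfwd z m (setB σv (expM (t • Y)))) =
        v * expM (t • Y) * v⁻¹ * (expM (t • Y))⁻¹ := fun t => by
      have e1 : relP z (setB σv (expM (t • Y))) =
          ⁅v, expM (t • Y)⁆ * ((tailComm σ.1).prod * pprod z σ) := by
        simp [relP, relator, tailComm, σv, setA, setB, pprod, Fin.succ_ne_zero, mul_assoc]
        rfl
      rw [relP_pfwd, e1, hrest, mul_one, commutatorElement_def]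
    simp only [e]
    refine ((hasD_conj (g := fun _ : ℂ => v) (Smooth.const _) hf (by simp [expM_zero])).mul
      (hasD_inv_of_one (smooth_expM_smul Y) hf (by simp [expM_zero]))).congr ?_
    simp [expM_zero, adj_apply, sub_eq_add_neg, -Matrix.SpecialLinearGroup.coe_inv]
  have h := dcons_curve hDp hpf hw hd
  rw [map_add, dcons_b0 hrel hb hDp (by rw [adj_apply, Matrix.trace_mul_comm, ← Matrix.mul_assoc, val_inv_mul,
    Matrix.one_mul, hY])] at h
  rw [eq_sub_of_add_eq' h, show adj v Y = adj A₀ (adj x⁻¹ Y) from adj_mul _ _ _]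
  refine Prod.ext (by simp) (funext fun q => ?_)
  simp [Matrix.sub_apply]

/-- A vector killed by the differential has determinant-preserving slots. -/
lemma trace_of_dcons {p : PRep n s (SLC r)} (hDp : HasFDerivAt (consP z) D (coordP p))
    {w : PVar n s r → ℂ} (hw' : D w = 0) (u : Sl n s) :
    ((slotG p u)⁻¹.val * slotM w u).trace = 0 := by
  have h1 : HasDerivAt (fun t : ℂ => consP z (coordP p + t • w)) (D w) 0 :=
    hDp.comp_hasDerivAt_of_eq 0
      (by simpa using ((hasDerivAt_id (0 : ℂ)).smul_const w).const_add (coordP p)) (by simp)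
  rw [hw'] at h1
  have hdet : HasDerivAt (fun t : ℂ => (slotM (coordP p + t • w) u).det) 0 0 := by
    have := ((ContinuousLinearMap.proj (R := ℂ) u).comp
      (ContinuousLinearMap.fst ℂ (Sl n s → ℂ) (Fin r × Fin r → ℂ))).hasFDerivAt
      (x := consP z (coordP p + (0 : ℂ) • w)) |>.comp_hasDerivAt 0 h1
    simpa [consP, Function.comp_def] using this
  have hM : HasD (fun t : ℂ => (slotG p u)⁻¹.val * slotM (coordP p + t • w) u)
      ((slotG p u)⁻¹.val * slotM w u) := by
    refine ((hasD_const (slotG p u)⁻¹.val).mul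
      (N := fun t : ℂ => slotM (coordP p + t • w) u) (w := slotM w u) fun a b => ?_).congr
      (by simp)
    simp only [slotM_add, slotM_smul, Matrix.add_apply, Matrix.smul_apply, smul_eq_mul]
    exact (hasDerivAt_mul_const (slotM w u a b)).const_add _
  have h0 := hasDerivAt_det_one hM (by rw [zero_smul, add_zero, slotM_coordP, val_inv_mul])
  simp only [Matrix.det_mul, Matrix.SpecialLinearGroup.det_coe, one_mul] at h0
  exact h0.unique hdet

/-- The kernel of the linearised constraints is a variation of `a₀` plus a lifted variation. -/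
lemma exists_inK_of_dcons (hrel : relP z σ = 1) (hb : σ.1.2 0 = 1)
    (hDp : HasFDerivAt (consP z) D (coordP (setA σ A₀))) {w : PVar n s r → ℂ} (hw : D w = 0) :
    ∃ β, InK (tailA z σ A₀) β ∧ w = put (sa0 n s) (slotM w (sa0 n s)) + liftT z σ β := by
  classical
  set p := setA σ A₀ with hp
  have htr := trace_of_dcons hDp hw
  set β₀ := slotM w (sb0 n s) with hβ₀
  have hβ0tr : β₀.trace = 0 := by
    have := htr (sb0 n s)
    simpa [slotG, p, setA, hb, ← hβ₀] using this
  -- arguments of the letters
  let argf : Fin n → Mat r := fun k =>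
    adj (xlet z σ (.inl (k, false)) * mid σ.1 k)
      (-((σ.1.2 k.succ)⁻¹.val * slotM w (.inl (k.succ, true))))
  let arg : Lt n s → Mat r := fun m => match m with
    | .inl (k, false) => argf k
    | .inl (k, true) => adj (xlet z σ (.inl (k, true)) * mid σ.1 k)
        (slotM w (.inl (k.succ, false)) * (σ.1.1 k.succ)⁻¹.val -
          (adj ((mid σ.1 k)⁻¹ * (xlet z σ (.inl (k, false)))⁻¹) (argf k) -
            adj (mid σ.1 k)⁻¹ (argf k)))
    | .inr j => adj (xlet z σ (.inr j) * pmid z σ j) (slotM w (.inr j) * (σ.2 j)⁻¹.val)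
  have hadjtr : ∀ (g : SLC r) (Y : Mat r), (adj g Y).trace = Y.trace := fun g Y => by
    rw [adj_apply, Matrix.trace_mul_comm, ← Matrix.mul_assoc, val_inv_mul, Matrix.one_mul]
  have hargf : ∀ k, (argf k).trace = 0 := fun k => by
    simp only [argf, hadjtr, Matrix.trace_neg, neg_eq_zero]
    simpa [slotG, p, setA] using htr (.inl (k.succ, true))
  have hargtr : ∀ m, (arg m).trace = 0 := by
    rintro (⟨k, _ | _⟩ | j) <;> simp only [arg]
    · exact hargf k
    · simp only [hadjtr, Matrix.trace_sub, hargf, sub_zero]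
      rw [Matrix.trace_mul_comm]
      simpa [slotG, p, setA, Fin.succ_ne_zero] using htr (.inl (k.succ, false))
    · rw [hadjtr, Matrix.trace_mul_comm]
      simpa [slotG, p, setA] using htr (.inr j)
  have hcancel : ∀ (g K : SLC r) (Y : Mat r), adj (K⁻¹ * g⁻¹) (adj (g * K) Y) = Y :=
    fun g K Y => by rw [← adj_mul, show K⁻¹ * g⁻¹ * (g * K) = 1 by group, adj_one]
  have hsumT : ∀ u, u ≠ sa0 n s → u ≠ sb0 n s →
      slotM (∑ m, ell z σ m (arg m)) u = slotM w u := by
    intro u hua hub
    rw [slotM_sum]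
    rcases u with ⟨i, c⟩ | j
    · obtain ⟨k, rfl⟩ : ∃ k : Fin n, k.succ = i := Fin.exists_succ_eq.2 fun e => by
        subst e; cases c <;> simp at hua hub
      rw [Fintype.sum_sum_type, Fintype.sum_prod_type]
      rw [Finset.sum_eq_single k (fun k' _ hk' => ?_) (by simp),
        Finset.sum_eq_zero (s := (Finset.univ : Finset (Fin s))) fun j _ => ?_, add_zero,
        Fintype.sum_bool]
      · simp only [ell, LinearMap.sub_apply, LinearMap.comp_apply, slotM_sub, slotM_put,
          LinearMap.mulRight_apply, LinearMap.mulLeft_apply, arg, argf, hcancel]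
        cases c
        · simp only [if_true, Sum.inl.injEq, Prod.mk.injEq, Bool.false_eq_true, and_false,
            if_false, sub_zero]
          rw [← add_mul, sub_add_cancel, Matrix.mul_assoc, val_inv_mul, Matrix.mul_one]
        · simp only [if_true, Sum.inl.injEq, Prod.mk.injEq, Bool.true_eq_false, and_false,
            if_false, zero_sub, zero_add, mul_neg, neg_neg]
          rw [← Matrix.mul_assoc, val_mul_inv, Matrix.one_mul]
      · simp [ell, slotM_put]
      · have : (k.succ : Fin (n + 1)) ≠ k'.succ := fun e => hk' (Fin.succ_injective _ e).symm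
        simp [ell, slotM_sub, slotM_put, this]
    · rw [Fintype.sum_sum_type, Finset.sum_eq_zero fun m _ => ?_, zero_add,
        Finset.sum_eq_single j (fun j' _ hj' => ?_) (by simp)]
      · simp only [ell, LinearMap.comp_apply, slotM_put, if_true, LinearMap.mulRight_apply, arg,
          hcancel]
        rw [Matrix.mul_assoc, val_inv_mul, Matrix.mul_one]
      · simp [ell, slotM_put, Ne.symm hj']
      · obtain ⟨k, _ | _⟩ := m <;> simp [ell, slotM_sub, slotM_put]
  let β : Fin (Fintype.card (Lt n s) + 1) → Mat r :=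
    Fin.cons β₀ fun i => -adj (xlet z σ (lE n s i))⁻¹ (arg (lE n s i))
  have hlift : liftT z σ β = put (sb0 n s) β₀ + ∑ m, ell z σ m (arg m) := by
    rw [liftT_apply, ← (lE n s).sum_comp, sub_eq_add_neg, ← Finset.sum_neg_distrib]
    refine congrArg₂ (· + ·) (by simp [β]) (Finset.sum_congr rfl fun i _ => ?_)
    simp only [β, Fin.cons_succ, map_neg, neg_neg, ← adj_mul, mul_inv_cancel, adj_one]
  have hwdec : w = put (sa0 n s) (slotM w (sa0 n s)) + liftT z σ β := by
    refine slotM_ext fun u => ?_
    rw [slotM_add, slotM_put]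
    by_cases hua : u = sa0 n s
    · subst hua; rw [if_pos rfl, slot_liftT_a, add_zero]
    · rw [if_neg hua, zero_add]
      by_cases hub : u = sb0 n s
      · subst hub; rw [slot_liftT_b]; simp [β, ← hβ₀]
      · rw [hlift, slotM_add, slotM_put, if_neg hub, zero_add, hsumT u hua hub]
  have hDa : D (put (sa0 n s) (slotM w (sa0 n s))) = 0 :=
    dcons_a0 hrel hb hDp (by simpa [slotG, p, setA] using htr (sa0 n s))
  refine ⟨β, ?_, hwdec⟩
  refine ⟨Fin.cases (by simpa [β] using hβ0tr) fun i => by
    simp [β, hadjtr, hargtr, -Matrix.SpecialLinearGroup.coe_inv], ?_⟩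
  have h0 := congrArg Prod.snd hw
  rw [hwdec, map_add, hDa, zero_add, hlift, map_add, map_sum, dcons_b0 hrel hb hDp hβ0tr] at h0
  simp only [dcons_ell hrel hb hDp _ (hargtr _), Prod.snd_add, Prod.snd_zero, Prod.snd_sum] at h0
  have h0' : adj A₀ β₀ - β₀ + ∑ m, (adj (xlet z σ m)⁻¹ (arg m) - arg m) = 0 :=
    Matrix.ext fun a b => by
      have hab := congrFun h0 (a, b)
      simp [Matrix.sum_apply, Finset.sum_apply, Finset.sum_sub_distrib,
        Fintype.sum_sum_type] at hab ⊢
      linear_combination hab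
  rw [← h0', ← (lE n s).sum_comp, Fin.sum_univ_succ]
  refine congrArg₂ (· + ·) (by simp [tailA, β, adj_apply])
    (Finset.sum_congr rfl fun i _ => ?_)
  rw [tailA_succ, show β i.succ = -adj (xlet z σ (lE n s i))⁻¹ (arg (lE n s i)) by simp [β],
    ← adj_apply, map_neg, ← adj_mul, mul_inv_cancel, adj_one]
  abel

end Tangent

/-- A neighbourhood of a point with `b₀ = 1` whose power twists span consists of limits of points
over the subring. -/
theorem exists_nbhdP_pow [NeZero r] (hr : 2 ≤ r) (hz : ∀ j, z j ∈ inR R r)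
    {σ : PRep n s (SLC r)} (hb : σ.1.2 0 = 1) (hrel : relP z σ = 1) (hint : IntP R σ) (A₀ : SLC r)
    (hav : ∀ l, Avoids (A₀ * vw (tailA z σ 1) l).val)
    (hsp : ∀ β, InK (tailA z σ A₀) β →
      β ∈ Submodule.span ℂ (Set.range (dirPow (tailA z σ A₀)))) :
    ∀ᶠ g in 𝓝 (coordP (setA σ A₀)), ∀ ρ, relP z ρ = 1 → coordP ρ = g → ρ ∈ ZdP R n z := by
  classical
  have hr0 : r ≠ 0 := NeZero.ne r
  set p := setA σ A₀ with hp
  have hprel : relP z p = 1 := by rw [hp, relP_setA σ A₀ hb, hrel]
  set A := tailA z σ A₀ with hA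
  obtain ⟨f, hfmem, hfspan, -⟩ :=
    Submodule.exists_fun_fin_finrank_span_eq ℂ (Set.range (dirPow A))
  generalize Module.finrank ℂ (Submodule.span ℂ (Set.range (dirPow A))) = N at f hfmem hfspan
  choose L hL using hfmem
  let L' : Fin N → List (Lt n s) × ℕ := fun k => ((L k).1.map (lE n s), (L k).2)
  let base : (Fin r × Fin r → ℂ) → PRep n s (SLC r) := fun γ =>
    setA σ (A₀ * expM (Matrix.of fun a b => γ (a, b)))
  let Φ : (Fin r × Fin r → ℂ) × (Fin N → ℂ) → PVar n s r → ℂ := fun x =>
    coordP (flowW z L' x.2 (base x.1))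
  have hsmA : ∀ {X : Type} [NormedAddCommGroup X] [NormedSpace ℂ X]
      (g : X → Fin r × Fin r → ℂ), (∀ q, ContDiff ℂ ω fun x => g x q) →
      SmoothP fun x => base (g x) := by
    intro X _ _ g hg
    refine ⟨fun i => ⟨?_, Smooth.const (σ.1.2 i).val⟩, fun j => Smooth.const (σ.2 j).val⟩
    by_cases hi : i = 0
    · subst hi
      have h : Smooth fun x : X => (A₀ * expM (Matrix.of fun a b => g x (a, b))).val :=
        (Smooth.const A₀.val).mul (Smooth.exp (Smooth.tl fun a b => hg (a, b)))
      simpa [base, setA] using h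
    · simpa [base, setA, hi] using Smooth.const (σ.1.1 i).val
  have hbase0 : base 0 = p := by
    rw [hp]
    simp only [base]
    rw [show (Matrix.of fun a b => (0 : Fin r × Fin r → ℂ) (a, b)) = (0 : Mat r) from rfl,
      expM_zero, mul_one]
  have hmem : ∀ x : (Fin r × Fin r → ℂ) × (Fin N → ℂ),
      flowW z L' x.2 (base x.1) ∈ ZdP R n z := by
    intro x
    have hav' : ∀ l, Avoids ((pbwds z l p).1.1 0).val := fun l => by
      have e : l = (l.map (lE n s).symm).map (lE n s) := by simp [List.map_map, Function.comp_def]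
      rw [e, hp, pbwds_setA σ hb]
      simpa [setA] using hav (l.map (lE n s).symm)
    have := flowW_mem hr0 hz (p := p) hav' L' x.2 (σ := fun t : ℂ => base (t • x.1))
      (hsmA _ fun q => contDiff_id.mul contDiff_const)
      (fun t => setA_memP hr hb hrel hint _) (by simp only [zero_smul, hbase0]) 1
    simpa using this
  have hΦ0 : Φ 0 = coordP p := by simp [Φ, flowW_zero, hbase0]
  have hsmooth : ContDiff ℂ ω Φ := SmoothP.coord <|
    smooth_flowW (σ := fun x : (Fin r × Fin r → ℂ) × (Fin N → ℂ) => base x.1)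
      (t := fun x => x.2) L'
      (hsmA _ fun q => (contDiff_apply ℂ ℂ q).comp contDiff_fst)
      fun k => (contDiff_apply ℂ ℂ k).comp contDiff_snd
  have hΦd := hsmooth.contDiffAt.hasStrictFDerivAt
    (x := (0 : (Fin r × Fin r → ℂ) × (Fin N → ℂ))) (by simp)
  have hFd := (contDiff_consP (n := n) (z := z)).contDiffAt.hasStrictFDerivAt (x := Φ 0) (by simp)
  set Ld := fderiv ℂ Φ 0
  set D := fderiv ℂ (consP (n := n) z) (Φ 0)
  have hDp : HasFDerivAt (consP z) D (coordP p) := hΦ0 ▸ hFd.hasFDerivAt
  have hconst : ∀ x, consP z (Φ x) = consP z (Φ 0) := fun x => by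
    simp only [Φ, consP_coordP, (hmem x).1, (hmem 0).1]
  have hDL : ∀ v, D (Ld v) = 0 := fun v => by
    have h1 : HasFDerivAt (consP z ∘ Φ) (D.comp Ld) 0 :=
      hFd.hasFDerivAt.comp 0 hΦd.hasFDerivAt
    have h2 : HasFDerivAt (consP z ∘ Φ) (0 : ((Fin r × Fin r → ℂ) × (Fin N → ℂ)) →L[ℂ]
        (Sl n s → ℂ) × (Fin r × Fin r → ℂ)) 0 := by
      rw [show consP z ∘ Φ = fun _ => consP z (Φ 0) from funext hconst]
      exact hasFDerivAt_const _ _
    exact congrArg (fun T => T v) (h1.unique h2)
  have hline : ∀ v (γ : ℂ → PRep n s (SLC r)), (∀ t, coordP (γ t) = Φ (t • v)) → HasDC γ (Ld v) :=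
    fun v γ hγ => hasDC_of_hasDerivAt (by
      simp only [hγ]
      exact hΦd.hasFDerivAt.comp_hasDerivAt_of_eq 0
        (by simpa using (hasDerivAt_id (0 : ℂ)).smul_const v) (zero_smul ℂ v).symm)
  have hstp : ∀ k, projA (Ld (0, Pi.single k 1)) = liftT z σ (f k) := fun k => by
    obtain ⟨w, hw, hwp⟩ := stpW_hasDC hz hb A₀ (L k)
    have h := hline (0, Pi.single k 1) (fun t => stpW z (L' k) t p) fun t => by
      simp [Φ, Prod.smul_mk, ← Pi.single_smul, flowW_single, hbase0]
    rw [h.unique hw, hwp, ← hA, hL k]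
  have hbaseD : ∀ γ : Fin r × Fin r → ℂ,
      Ld (γ, 0) = put (sa0 n s) (A₀.val * tl (Matrix.of fun a b => γ (a, b))) := fun γ => by
    set G : Mat r := Matrix.of fun a b => γ (a, b) with hG
    refine (hline (γ, 0) (fun t => setA σ (A₀ * expM (t • G))) fun t => by
      simp [Φ, base, Prod.smul_mk, flowW_zero, hG]
      rfl).unique fun u => ?_
    rw [slotM_put]
    by_cases hu : u = sa0 n s
    · subst hu
      simpa [slotG, setA] using ((hasD_const A₀.val).mul (hasD_expM G)).congr (w := A₀.val * tl G)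
        (by simp)
    · rw [if_neg hu]
      rcases u with ⟨i, c⟩ | j
      · cases c
        · have : i ≠ 0 := fun e => hu (by rw [e])
          simpa [slotG, setA, this] using hasD_const _
        · simpa [slotG, setA] using hasD_const _
      · simpa [slotG, setA] using hasD_const (σ.2 j).val
  have hker : ∀ w, D w = 0 → ∃ x, Ld x = w := fun w hw => by
    obtain ⟨β, hK, hwdec⟩ := exists_inK_of_dcons hrel hb hDp hw
    have hb' := hsp β hK
    rw [← hfspan, Submodule.mem_span_range_iff_exists_fun] at hb'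
    obtain ⟨c, hc⟩ := hb'
    set w₁ := Ld (0, c) with hw₁
    have hw₁p : projA w₁ = liftT z σ β := by
      have e : ((0 : Fin r × Fin r → ℂ), c) =
          ∑ k, c k • ((0 : Fin r × Fin r → ℂ), (Pi.single k 1 : Fin N → ℂ)) := by
        refine Prod.ext (by simp [Prod.fst_sum]) ?_
        simp [Prod.snd_sum, ← Pi.single_smul, Finset.univ_sum_single]
      rw [hw₁, e, map_sum, map_sum, ← hc, map_sum]
      exact Finset.sum_congr rfl fun k _ => by rw [map_smul, map_smul, hstp, map_smul]
    set δ := slotM (w - w₁) (sa0 n s) with hδ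
    have hδtr : (A₀⁻¹.val * δ).trace = 0 := by
      have := trace_of_dcons hDp (w := w - w₁) (by rw [map_sub, hw, hw₁, hDL, sub_zero]) (sa0 n s)
      simpa [slotG, p, setA, ← hδ] using this
    refine ⟨(fun q => (A₀⁻¹.val * δ) q.1 q.2, 0) + (0, c), ?_⟩
    rw [map_add, ← hw₁, hbaseD]
    have e : Matrix.of (fun a b => (A₀⁻¹.val * δ) a b) = A₀⁻¹.val * δ := rfl
    rw [e, tl_of_trace hδtr, ← Matrix.mul_assoc, val_mul_inv, Matrix.one_mul]
    refine slotM_ext fun u => ?_
    rw [slotM_add, slotM_put]
    by_cases hua : u = sa0 n s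
    · subst hua; rw [if_pos rfl, hδ, slotM_sub, sub_add_cancel]
    · rw [if_neg hua, zero_add]
      have h1 := congrArg (slotM · u) hw₁p
      simp only [slotM_projA, if_neg hua] at h1
      conv_rhs => rw [hwdec, slotM_add, slotM_put, if_neg hua, zero_add]
      exact h1
  have hloc := local_image hΦd hFd hconst hker
  rw [hΦ0] at hloc
  filter_upwards [hloc] with g hg ρ hρ hρg
  have hF : consP z g = consP z (coordP p) := by
    rw [← hρg, consP_coordP, consP_coordP, hρ, hprel]
  obtain ⟨x, hx⟩ := hg hF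
  refine ⟨hρ, ?_⟩
  rw [hρg, ← hx]
  exact (hmem x).2

end Vale.Agent.P002
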