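import Vale.Agent.P002.PunctTwo.Seed
import Vale.Agent.P002.Punct.Seed

/-!
Upper triangular representatives with off-diagonal entries `0`, `1` coupling only equal eigenvalues.
-/

namespace Vale.Agent.P002

open Matrix Module

variable {r s : ℕ}

/-- A generalised eigenspace has a basis sent to earlier vectors by `f - ν`. -/
lemma exists_nil_chain_basis (f : (Fin r → ℂ) →ₗ[ℂ] (Fin r → ℂ)) (ν : ℂ) :
    ∃ (B : Set (Fin r → ℂ)) (ρ : (Fin r → ℂ) → ℕ), LinearIndepOn ℂ id B ∧
      Submodule.span ℂ B = End.maxGenEigenspace f ν ∧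
      ∀ v ∈ B, f v - ν • v = 0 ∨ (f v - ν • v ∈ B ∧ ρ (f v - ν • v) < ρ v) := by
  classical
  let g : End ℂ (Fin r → ℂ) := f - ν • 1
  have hgap : ∀ v, g v = f v - ν • v := fun v => rfl
  have hnil : ∀ v ∈ End.maxGenEigenspace f ν, ∃ k : ℕ, (g ^ k) v = 0 := fun v hv =>
    (End.mem_maxGenEigenspace f ν v).1 hv
  have hinv : ∀ v ∈ End.maxGenEigenspace f ν, g v ∈ End.maxGenEigenspace f ν := fun v hv => by
    obtain ⟨k, hk⟩ := hnil v hv
    refine (End.mem_maxGenEigenspace f ν _).2 ⟨k, ?_⟩
    show (g ^ k) (g v) = 0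
    rw [← End.mul_apply, ← pow_succ, pow_succ', End.mul_apply, hk, map_zero]
  obtain ⟨B, ρ, hli, hsp, hprop⟩ := exists_chain_basis g _ _ rfl hinv
  refine ⟨B, ρ, hli, hsp, fun v hv => ?_⟩
  obtain ⟨μ, hμ⟩ := hprop v hv
  suffices hμ0 : μ = 0 by simpa [hμ0, hgap] using hμ
  set S : Set (Fin r → ℂ) := {b | b ∈ B ∧ ρ b < ρ v}
  have hw : g v - μ • v ∈ Submodule.span ℂ S := by
    rcases hμ with h | h
    · rw [h]; exact zero_mem _
    · exact Submodule.subset_span h
  have hS : Submodule.span ℂ S ≤ (Submodule.span ℂ S).comap g := by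
    refine Submodule.span_le.2 fun b hb => ?_
    obtain ⟨κ, h | ⟨h1, h2⟩⟩ := hprop b hb.1
    · rw [SetLike.mem_coe, Submodule.mem_comap, sub_eq_zero.1 h]
      exact Submodule.smul_mem _ _ (Submodule.subset_span hb)
    · rw [SetLike.mem_coe, Submodule.mem_comap, ← sub_add_cancel (g b) (κ • b)]
      exact add_mem (Submodule.subset_span ⟨h1, h2.trans hb.2⟩)
        (Submodule.smul_mem _ _ (Submodule.subset_span hb))
  have hpow : ∀ j : ℕ, (g ^ j) v - μ ^ j • v ∈ Submodule.span ℂ S := by
    intro j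
    induction j with
    | zero => simp
    | succ j ih =>
      have e : (g ^ (j + 1)) v - μ ^ (j + 1) • v =
          g ((g ^ j) v - μ ^ j • v) + μ ^ j • (g v - μ • v) := by
        rw [pow_succ', End.mul_apply, map_sub, map_smul, smul_sub, smul_smul, ← pow_succ]
        abel
      rw [e]
      exact add_mem (hS ih) (Submodule.smul_mem _ _ hw)
  obtain ⟨k, hk⟩ := hnil v (hsp ▸ Submodule.subset_span hv)
  by_contra hμ0
  have hmem : μ ^ k • v ∈ Submodule.span ℂ S := by
    have := hpow k
    rwa [hk, zero_sub, Submodule.neg_mem_iff] at this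
  have hvS : v ∈ Submodule.span ℂ (B \ {v}) :=
    Submodule.span_mono (show S ⊆ B \ {v} from fun b hb =>
      ⟨hb.1, fun e => absurd hb.2 (by rw [Set.mem_singleton_iff.1 e]; exact lt_irrefl _)⟩)
      ((Submodule.smul_mem_iff _ (pow_ne_zero k hμ0)).1 hmem)
  have := hli.notMem_span hv
  simp only [id_eq, Set.image_id'] at this
  exact this (by simpa using hvS)

/-- Triangular representatives coupling only equal eigenvalues. -/
theorem exists_tri_rep_split (g : Mat r) : ∃ (U : (Mat r)ˣ) (J : Mat r),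
    g = U.val * J * U⁻¹.val ∧ J.BlockTriangular id ∧
      (∀ a b, a ≠ b → J a b = 0 ∨ J a b = 1) ∧ ∀ a b, J a b ≠ 0 → J a a = J b b := by
  classical
  let f : End ℂ (Fin r → ℂ) := Matrix.toLin' g
  choose B ρ hli hsp hprop using exists_nil_chain_basis f
  have hint : DirectSum.IsInternal fun ν : ℂ => f.maxGenEigenspace ν :=
    DirectSum.isInternal_submodule_of_iSupIndep_of_iSup_eq_top
      (End.independent_maxGenEigenspace f) (End.iSup_maxGenEigenspace_eq_top f)
  let bW : ∀ ν, Module.Basis (B ν) ℂ (f.maxGenEigenspace ν) := fun ν =>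
    (Module.Basis.span (hli ν).linearIndependent).map
      (LinearEquiv.ofEq _ _ (by simpa using hsp ν))
  let b := hint.collectedBasis bW
  have hb : ∀ q : Σ ν, B ν, b q = q.2.1 := fun q => by
    simp [b, bW, DirectSum.IsInternal.collectedBasis_coe, Module.Basis.span_apply]
  have := Module.Finite.finite_basis b
  have := Fintype.ofFinite (Σ ν, B ν)
  have hc : Fintype.card (Σ ν, B ν) = r := by
    rw [← Module.finrank_eq_card_basis b, Module.finrank_fin_fun]
  let e0 : Fin r ≃ Σ ν, B ν := (Fintype.equivFinOfCardEq hc).symm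
  let key : (Σ ν, B ν) → ℕ := fun q => ρ q.1 q.2.1
  let e : Fin r ≃ Σ ν, B ν := (Tuple.sort fun i => key (e0 i)).trans e0
  have hmono : Monotone fun i => key (e i) := Tuple.monotone_sort fun i => key (e0 i)
  have hcol : ∀ i, ∃ t : Option (Fin r), (∀ a, t = some a → a < i ∧ (e a).1 = (e i).1) ∧
      g *ᵥ b (e i) = (e i).1 • b (e i) + t.elim 0 fun a => b (e a) := fun i => by
    rcases hprop _ _ (e i).2.2 with h | ⟨h1, h2⟩
    · refine ⟨none, by simp, ?_⟩
      rw [hb]
      simpa [f, sub_eq_zero] using h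
    · refine ⟨some (e.symm ⟨(e i).1, _, h1⟩), fun a ha => ?_, ?_⟩
      · cases ha
        refine ⟨?_, by simp⟩
        by_contra hlt
        have h3 : key (e i) ≤ key (e (e.symm ⟨(e i).1, _, h1⟩)) := hmono (not_lt.1 hlt)
        rw [Equiv.apply_symm_apply] at h3
        exact (lt_of_le_of_lt h3 h2).false
      · rw [hb, Option.elim_some, hb, Equiv.apply_symm_apply]
        simp [f]
  choose t ht hmul using hcol
  let U : Mat r := Matrix.of fun a i => b (e i) a
  have hU : IsUnit U := Matrix.linearIndependent_cols_iff_isUnit.1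
    (b.linearIndependent.comp e e.injective)
  let J : Mat r := Matrix.of fun a i =>
    (if a = i then (e i).1 else 0) + if t i = some a then 1 else 0
  have hJ : g * U = U * J := by
    ext x i
    rw [show (g * U) x i = (g *ᵥ b (e i)) x from rfl, hmul, Matrix.mul_apply]
    cases hti : t i with
    | none => simp [J, U, hti, mul_comm]
    | some a => simp [J, U, hti, add_mul, Finset.sum_add_distrib, mul_comm]
  refine ⟨hU.unit, J, ?_, fun a i hai => ?_, fun a i hai => ?_, fun a i hai => ?_⟩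
  · exact (Units.eq_mul_inv_iff_mul_eq _).2 (by simpa using hJ)
  · have h1 : a ≠ i := ne_of_gt hai
    have h2 : t i ≠ some a := fun h => lt_asymm (ht i a h).1 hai
    simp [J, h1, h2]
  · by_cases h : t i = some a <;> simp [J, hai, h]
  · have hd : ∀ c, J c c = (e c).1 := fun c => by
      have : t c ≠ some c := fun h => (ht c c h).1.false
      simp [J, this]
    rw [hd, hd]
    by_cases hai' : a = i
    · rw [hai']
    · by_cases h : t i = some a
      · exact (ht i a h).2
      · exact absurd (by simp [J, hai', h]) hai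

/-- The seed for genus two. -/
theorem exists_seed_two [NeZero r] (hr : 2 ≤ r) (z₀ : Fin s → SLC r)
    (hroot : ∀ j x, (z₀ j).val.charpoly.IsRoot x → ∃ k : ℕ, 0 < k ∧ x ^ k = 1) :
    ∃ M, 0 < M ∧ ∃ z : Fin s → SLC r, (∀ j, ∃ h : SLC r, z j = h * z₀ j * h⁻¹) ∧
      (∀ j, z j ∈ inR (cycInt M) r) ∧ ∃ σ : PRep 1 s (SLC r), σ.1.2 0 = 1 ∧ σ.1.1 0 = 1 ∧
        relP z σ = 1 ∧ IntP (cycInt M) σ ∧ Nonempty (BlockTail (tailA z σ 1)) :=
  exists_seed_two_of hr z₀ exists_tri_rep_split hroot

end Vale.Agent.P002
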