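import Vale.Agent.P002.Punct.Main
import Vale.Agent.P002.PunctTwo.Split
import Vale.Agent.P002.PunctTwo.Gen
import Vale.Agent.P002.PunctTwo.Nbhd

/-!
Genus two: points over a ring of cyclotomic integers, and continuation from a general position
point over a block triangular tail.
-/

namespace Vale.Agent.P002

open Matrix MvPolynomial Filter Topology

variable {r n s : ℕ} {z : Fin s → SLC r} {R : Subring ℂ}

/-- A family containing a diagonal matrix with distinct entries and a matrix without zero entries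
has no invariant subspace. -/
lemma invariant_of_diag_nz [NeZero r] {ν : Fin r → ℂ} (hν : Function.Injective ν) {G : Mat r}
    (hG : ∀ a b, G a b ≠ 0) {U : Submodule ℂ (Fin r → ℂ)}
    (hD : ∀ u ∈ U, Matrix.diagonal ν *ᵥ u ∈ U) (hGU : ∀ u ∈ U, G *ᵥ u ∈ U) :
    U = ⊥ ∨ U = ⊤ := by
  classical
  have key : ∀ N (u : Fin r → ℂ), u ∈ U → (Finset.univ.filter fun a => u a ≠ 0).card ≤ N →
      ∀ a, u a ≠ 0 → (Pi.single a 1 : Fin r → ℂ) ∈ U := by
    intro N
    induction N with
    | zero =>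
      intro u _ hc a ha
      have : a ∈ Finset.univ.filter fun a => u a ≠ 0 := by simp [ha]
      simp [Finset.card_eq_zero.1 (Nat.le_zero.1 hc)] at this
    | succ N ih =>
      intro u hu hc a ha
      by_cases hb : ∃ b, b ≠ a ∧ u b ≠ 0
      · obtain ⟨b, hba, hb⟩ := hb
        set w := Matrix.diagonal ν *ᵥ u - ν b • u with hw
        have hwv : ∀ i, w i = (ν i - ν b) * u i := fun i => by
          simp [hw, Matrix.mulVec_diagonal]; ring
        refine ih w (sub_mem (hD u hu) (U.smul_mem _ hu)) ?_ a ?_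
        · refine Nat.le_of_lt_succ (lt_of_lt_of_le (Finset.card_lt_card
            ((Finset.ssubset_iff_of_subset fun i hi => ?_).2 ⟨b, ?_, ?_⟩)) hc)
          · simp only [Finset.mem_filter, Finset.mem_univ, true_and, hwv] at hi ⊢
            exact right_ne_zero_of_mul hi
          · simp [hb]
          · simp [hwv]
        · rw [hwv]
          exact mul_ne_zero (sub_ne_zero.2 fun e => hba (hν e).symm) ha
      · push Not at hb
        have e : (Pi.single a 1 : Fin r → ℂ) = (u a)⁻¹ • u := by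
          funext i
          rcases eq_or_ne i a with rfl | hi
          · simp [ha]
          · simp [hi, hb i hi]
        rw [e]
        exact U.smul_mem _ hu
  by_cases h0 : U = ⊥
  · exact Or.inl h0
  obtain ⟨u, hu, hu0⟩ := Submodule.exists_mem_ne_zero_of_ne_bot h0
  obtain ⟨a, ha⟩ := Function.ne_iff.1 hu0
  have hcol := hGU _ (key _ u hu le_rfl a ha)
  refine Or.inr (top_unique fun x _ => ?_)
  rw [show x = ∑ b, x b • (Pi.single b 1 : Fin r → ℂ) from pi_eq_sum_univ' x]
  exact U.sum_mem fun b _ => U.smul_mem _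
    (key _ _ hcol le_rfl b (by rw [Matrix.mulVec_single_one]; exact hG b a))

/-- At a block triangular tail, some first generator gives an irreducible point with a
neighbourhood in the closure of the points over the subring. -/
lemma exists_fullZd [NeZero r] (hr : 2 ≤ r) (hz : ∀ j, z j ∈ inR R r) {σ : PRep n s (SLC r)}
    (hb : σ.1.2 0 = 1) (hrel : relP z σ = 1) (hint : IntP R σ)
    (H : BlockTail (tailA z σ 1)) :
    ∃ p : PRep n s (SLC r), relP z p = 1 ∧ Full (gensP z p) ∧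
      ∀ᶠ g in 𝓝 (coordP p), ∀ τ, relP z τ = 1 → coordP τ = g → τ ∈ ZdP R n z := by
  obtain ⟨G, hav, hG⟩ := H.exists_gen hr
  let H' : BlockTail (tailA z σ G) := H.congrTail fun k => by rw [tailA_succ, tailA_succ]
  have hcyc : H'.cyc = H.cyc := by
    ext a b
    simp only [BlockTail.cyc, H', BlockTail.congrTail, Matrix.of_apply, tailA_succ]
  have hG' : H'.Gen G.val := by
    refine ⟨hG.nz, fun c e hce φ hφ h1 h2 => hG.pair c e hce φ hφ h1 fun m t u hm1 hm2 => ?_,
      hG.tri⟩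
    have := h2 m t u hm1 hm2
    rwa [hcyc] at this
  refine ⟨setA σ G, by rw [relP_setA σ G hb, hrel], ?_,
    exists_nbhdP_pow hr hz hb hrel hint G hav fun β hβ => ?_⟩
  · refine Irred.full fun U hU => ?_
    refine invariant_of_diag_nz H.inj hG.nz (fun u hu => ?_) fun u hu => ?_
    · rw [← H.diag, tailA_succ, ← xlet_setA σ G]
      exact inv_mem (xlet_mem (stabU U)
        (fun k => ⟨fun u hu => by simpa [gensP, gens] using hU (.inl (k.succ, false)) u hu,
          fun u hu => by simpa [gensP, gens] using hU (.inl (k.succ, true)) u hu⟩)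
        (fun j u hu => hU (.inr j) u hu) (lE n s H.k₁)) u hu
    · simpa [gensP, gens, setA] using hU (.inl (0, false)) u hu
  · have h := H'.inK_mem_span (A := tailA z σ G) (by simpa [tailA] using hG') hβ
    exact h

/-- A good base point in genus two. -/
lemma exists_baseP_two [NeZero r] (hr : 2 ≤ r) {p : PRep n s (SLC r)} (hp : relP z p = 1)
    (hF : Full (gensP z p))
    (hnb : ∀ᶠ g in 𝓝 (coordP p), ∀ τ, relP z τ = 1 → coordP τ = g → τ ∈ ZdP R n z)
    (hnear : ∀ σ₀ : PRep n s (SLC r), relP z σ₀ = 1 → Full (gensP z σ₀) → ∀ ε : ℝ, 0 < ε →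
      ∃ σ, relP z σ = 1 ∧ dist (coordP σ) (coordP σ₀) < ε ∧ Triv (tgensP z σ))
    {Q : MvPolynomial (PVar n s r) ℂ}
    (hQ : ∀ τ, relP z τ = 1 → IntP R τ → Full (gensP z τ) → eval (coordP τ) Q = 0) :
    ∃ ρ : PRep n s (SLC r), relP z ρ = 1 ∧ GoodPair (ρ.1.1 0) (ρ.1.2 0) ∧
      ∀ᶠ g in 𝓝 (coordP ρ), ∀ τ, relP z τ = 1 → coordP τ = g → eval g Q = 0 := by
  obtain ⟨D, hD, hDfull⟩ := exists_fullPoly hF
  have hQD : ∀ y ∈ intPtsP R n z, eval y (Q * D) = 0 := by
    rintro y ⟨τ, hτ, hτi, rfl⟩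
    by_cases h : eval (coordP τ) D = 0
    · rw [map_mul, h, mul_zero]
    · rw [map_mul, hQ τ hτ hτi (hDfull τ h), zero_mul]
  have hDne : ∀ᶠ g in 𝓝 (coordP p), eval g D ≠ 0 :=
    (MvPolynomial.continuous_eval D).continuousAt.eventually_ne hD
  obtain ⟨ε, hε, hball⟩ := Metric.eventually_nhds_iff.1
    (eventually_eventually_nhds.2 (hnb.and hDne))
  obtain ⟨q₁, hq₁, hd₁, hT⟩ := hnear p hp hF (ε / 2) (half_pos hε)
  obtain ⟨q, hq, hd, hqg⟩ := exists_near_goodP hr hq₁ hT (half_pos hε)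
  have hdist : dist (coordP q) (coordP p) < ε :=
    (dist_triangle _ (coordP q₁) _).trans_lt (by linarith)
  refine ⟨q, hq, hqg, (hball hdist).mono fun g hg τ hτ he => ?_⟩
  have h0 : eval (coordP τ) (Q * D) = 0 := (hg.1 τ hτ he).2 _ hQD
  rw [he, map_mul] at h0
  exact (mul_eq_zero.1 h0).resolve_right hg.2

/-- An irreducible point over the subring. -/
lemma exists_intFull [NeZero r] {p : PRep n s (SLC r)} (hF : Full (gensP z p))
    (hp : p ∈ ZdP R n z) :
    ∃ τ : PRep n s (SLC r), relP z τ = 1 ∧ IntP R τ ∧ Full (gensP z τ) := by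
  obtain ⟨D, hD, hDfull⟩ := exists_fullPoly hF
  by_contra hne
  refine hD (hp.2 D ?_)
  rintro y ⟨τ, hτ, hτi, rfl⟩
  exact by_contra fun h => hne ⟨τ, hτ, hτi, hDfull τ h⟩

/-- Genus two: representatives of the classes, an irreducible point over the integers of a
cyclotomic field, and vanishing at the points with scalar centraliser of the tail. -/
theorem exists_core_two [NeZero r] (hr : 2 ≤ r) (z₀ : Fin s → SLC r)
    (hroot : ∀ j x, (z₀ j).val.charpoly.IsRoot x → ∃ k : ℕ, 0 < k ∧ x ^ k = 1)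
    (hnear : ∀ (z : Fin s → SLC r) (σ₀ : PRep 1 s (SLC r)), relP z σ₀ = 1 → Full (gensP z σ₀) →
      ∀ ε : ℝ, 0 < ε → ∃ σ, relP z σ = 1 ∧ dist (coordP σ) (coordP σ₀) < ε ∧
        Triv (tgensP z σ)) :
    ∃ M, 0 < M ∧ ∃ z : Fin s → SLC r, (∀ j, ∃ h : SLC r, z j = h * z₀ j * h⁻¹) ∧
      (∀ j, z j ∈ inR (cycInt M) r) ∧
      (∃ τ : PRep 1 s (SLC r), relP z τ = 1 ∧ IntP (cycInt M) τ ∧ Full (gensP z τ)) ∧
      ∀ Q : MvPolynomial (PVar 1 s r) ℂ,
        (∀ τ, relP z τ = 1 → IntP (cycInt M) τ → Full (gensP z τ) → eval (coordP τ) Q = 0) →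
        ∀ σ, relP z σ = 1 → Triv (tgensP z σ) → eval (coordP σ) Q = 0 := by
  obtain ⟨M, hM, z, hz₀, hzR, σ₀, hb, -, hrel, hint, ⟨H⟩⟩ := exists_seed_two hr z₀ hroot
  obtain ⟨p, hp, hF, hnb⟩ := exists_fullZd hr hzR hb hrel hint H
  exact ⟨M, hM, z, hz₀, hzR, exists_intFull hF (hnb.self_of_nhds p hp rfl), fun Q hQ σ hσ hT =>
    eval_zero_of_baseP hr (exists_baseP_two hr hp hF hnb (hnear z) hQ) hσ hT⟩

end Vale.Agent.P002
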