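import Vale.Agent.P002.Punct.Irred
import Vale.Agent.P002.GenusTwo

/-!
With two handles, irreducible representations of a punctured surface with prescribed boundary
classes are limits of representations whose last handle and punctures have scalar centraliser.
-/

namespace Vale.Agent.P002

open Matrix Filter Topology

variable {r s : ℕ}

/-- Curves through scalar matrices that commute have commuting velocities. -/
lemma commute_velocity {f g : ℂ → Mat r} {A B : Mat r} (hf : HasD f A) (hg : HasD g B)
    (hf0 : ∀ X, Commute (f 0) X) (hg0 : ∀ X, Commute (g 0) X)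
    (hfg : ∀ᶠ t in 𝓝 (0 : ℂ), Commute (f t) (g t)) : A * B = B * A := by
  ext i j
  have key : ∀ {f g : ℂ → Mat r} {A B : Mat r}, HasD f A → HasD g B →
      Tendsto (fun t : ℂ => ((t⁻¹ • (f t - f 0)) * (t⁻¹ • (g t - g 0))) i j) (𝓝[≠] 0)
        (𝓝 ((A * B) i j)) := by
    intro f g A B hf hg
    simp only [Matrix.mul_apply]
    refine tendsto_finsetSum _ fun k _ => Tendsto.mul ?_ ?_
    · refine Tendsto.congr (fun t => ?_) (hasDerivAt_iff_tendsto_slope.1 (hf i k))
      simp [slope, Matrix.smul_apply]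
    · refine Tendsto.congr (fun t => ?_) (hasDerivAt_iff_tendsto_slope.1 (hg k j))
      simp [slope, Matrix.smul_apply]
  refine tendsto_nhds_unique (key hf hg) ((key hg hf).congr' ?_)
  filter_upwards [hfg.filter_mono nhdsWithin_le_nhds] with t ht
  have h : (g t - g 0) * (f t - f 0) = (f t - f 0) * (g t - g 0) := by
    simp only [sub_mul, mul_sub]
    rw [ht.eq, (hf0 (g t)).eq, (hg0 (f t)).eq, (hf0 (g 0)).eq]
    abel
  simp only [smul_mul_assoc, mul_smul_comm, h]

lemma commute_scalar {A : Mat r} {c : ℂ} (h : A = c • 1) (X : Mat r) : Commute A X :=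
  h ▸ (Commute.one_left X).smul_left c

variable {z : Fin s → SLC r}

/-- A curve of handle pairs with scalar commutator, starting at commuting generators, commutes. -/
lemma eventually_commute [NeZero r] {f g : ℂ → SLC r}
    (hf : ContM (fun t => (f t * g t * (f t)⁻¹ * (g t)⁻¹).val) 0) (h0 : Commute (f 0).val (g 0).val)
    (hs : ∀ᶠ t in 𝓝 (0 : ℂ), ∃ d : ℂ, (f t * g t * (f t)⁻¹ * (g t)⁻¹).val = d • 1) :
    ∀ᶠ t in 𝓝 (0 : ℂ), Commute (f t).val (g t).val := by
  classical
  have h0' : f 0 * g 0 * (f 0)⁻¹ * (g 0)⁻¹ = 1 := by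
    have e : f 0 * g 0 = g 0 * f 0 := Subtype.ext (by
      simpa only [Matrix.SpecialLinearGroup.coe_mul] using h0.eq)
    rw [e]; group
  have hF : ∀ᶠ t in 𝓝 (0 : ℂ), (f t * g t * (f t)⁻¹ * (g t)⁻¹).val 0 0 ∉
      ((Polynomial.nthRoots r (1 : ℂ)).toFinset).erase 1 := by
    refine (hf 0 0).preimage_mem_nhds
      (t := ((((Polynomial.nthRoots r (1 : ℂ)).toFinset).erase 1 : Finset ℂ) : Set ℂ)ᶜ) ?_
    refine (Finset.finite_toSet _).isClosed.isOpen_compl.mem_nhds ?_
    simp [h0']
  filter_upwards [hs, hF] with t ⟨d, hd⟩ hdF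
  have hdr : d ^ r = 1 := by
    have := congrArg Matrix.det hd
    rw [Matrix.SpecialLinearGroup.det_coe, Matrix.det_smul, Matrix.det_one, mul_one,
      Fintype.card_fin] at this
    exact this.symm
  have hd1 : d = 1 := by
    by_contra hne
    refine hdF ?_
    rw [hd, Matrix.smul_apply, Matrix.one_apply_eq, smul_eq_mul, mul_one, Finset.mem_erase,
      Multiset.mem_toFinset]
    exact ⟨hne, (Polynomial.mem_nthRoots (Nat.pos_of_ne_zero (NeZero.ne r))).2 hdr⟩
  rw [hd1, one_smul] at hd
  have e : f t * g t = g t * f t := by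
    have h1 : f t * g t * (f t)⁻¹ * (g t)⁻¹ = 1 := Subtype.ext hd
    calc f t * g t = f t * g t * (f t)⁻¹ * (g t)⁻¹ * (g t * f t) := by group
      _ = g t * f t := by rw [h1, one_mul]
  show (f t).val * (g t).val = (g t).val * (f t).val
  rw [← Matrix.SpecialLinearGroup.coe_mul, e, Matrix.SpecialLinearGroup.coe_mul]

lemma trace_conj_sub (g h : Mat r) {Y : Mat r} (hY : Commute h Y ∨ Commute g Y) :
    (Y * (h * g - g * h)).trace = 0 := by
  rw [mul_sub, Matrix.trace_sub, sub_eq_zero]
  rcases hY with hY | hY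
  · rw [← Matrix.mul_assoc, ← hY.eq, Matrix.mul_assoc, Matrix.trace_mul_comm h, Matrix.mul_assoc]
  · rw [← Matrix.mul_assoc Y g, ← hY.eq, Matrix.mul_assoc g Y h, Matrix.trace_mul_comm g,
      Matrix.mul_assoc]

/-- With two handles, at a point with scalar centraliser some curve of representations makes the
commutator of the first handle non-scalar. -/
lemma exists_curve_nonScalar [NeZero r] (hr : 2 ≤ r) {σ : PRep 1 s (SLC r)}
    (hσ : relP z σ = 1) (hT : Triv (gensP z σ)) :
    ∃ γ : ℂ → PRep 1 s (SLC r), γ 0 = σ ∧ (∀ᶠ t in 𝓝 0, relP z (γ t) = 1) ∧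
      DifferentiableAt ℂ (fun t => coordP (γ t)) 0 ∧
      ∃ᶠ t in 𝓝 (0 : ℂ), NonScalar (γ t).1 := by
  classical
  by_contra hcon
  have hall : ∀ γ : ℂ → PRep 1 s (SLC r), γ 0 = σ → (∀ᶠ t in 𝓝 0, relP z (γ t) = 1) →
      DifferentiableAt ℂ (fun t => coordP (γ t)) 0 →
      ∀ᶠ t in 𝓝 (0 : ℂ), ∃ c : ℂ, (comm (γ t).1 0).val = c • 1 := by
    intro γ h1 h2 h3
    have h4 : ¬∃ᶠ t in 𝓝 (0 : ℂ), NonScalar (γ t).1 := fun h => hcon ⟨γ, h1, h2, h3, h⟩
    filter_upwards [not_frequently.1 h4] with t ht
    by_contra hc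
    exact ht fun c hc' => hc ⟨c, hc'⟩
  obtain ⟨lam, hlam⟩ := (hall (fun _ => σ) rfl (Eventually.of_forall fun _ => hσ)
    (differentiableAt_const _)).self_of_nhds
  set a := σ.1.1 0 with ha
  set b := σ.1.2 0 with hb
  -- first variations keep the first commutator constant
  have key : ∀ q, relDP z σ q = 0 →
      pairD a b (tl (matOf (matH q) (0, false))) (tl (matOf (matH q) (0, true))) = 0 := by
    intro q hq
    obtain ⟨γ, hγ0, hγ, hγc, hγd⟩ := exists_curvePd hσ hT hq
    have h1 := hγd (0, false)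
    have h2 := hγd (0, true)
    simp only [gens, Bool.false_eq_true, if_false, if_true] at h1 h2
    exact pairD_eq_zero_of_curve (f := fun t => (γ t).1.1 0) (g := fun t => (γ t).1.2 0)
      (by simp [hγ0, ha]) (by simp [hγ0, hb]) h1 h2 (hall γ hγ0 hγ hγc)
  -- the ranges of the variations of the two parts meet only in zero
  have hmeet : ∀ W : Mat r, (∃ α β : Mat r, α.trace = 0 ∧ β.trace = 0 ∧ pairD a b α β = W) →
      W.trace = 0 →
      (∀ Y : Mat r, (∀ v, Commute (tgensP z σ v) Y) → (Y * W).trace = 0) → W = 0 := by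
    rintro W ⟨α, β, hα, hβ, hW⟩ hWt hWY
    let G : (PVar 1 s r → ℂ) →ₗ[ℂ] (Idx r → ℂ) := fderiv ℂ (relMapP z σ) 0
    have hG : ∀ q, G q = fun p => relDP z σ q p.1.1 p.1.2 := fderiv_relMapP hσ
    let ι : (PVar 1 s r → ℂ) →ₗ[ℂ] (PVar 1 s r → ℂ) :=
      { toFun := fun q => Sum.elim (fun v => if v.1.1 = 0 then 0 else q (.inl v))
          fun v => q (.inr v)
        map_add' := fun q q' => by
          funext v; rcases v with v | v <;> simp only [Sum.elim_inl, Sum.elim_inr, Pi.add_apply]
          split_ifs <;> simp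
        map_smul' := fun c q => by
          funext v; rcases v with v | v <;> simp only [Sum.elim_inl, Sum.elim_inr, Pi.smul_apply,
            RingHom.id_apply]
          split_ifs <;> simp }
    let τ₀ : Var 1 r → ℂ := fun v =>
      if v.1.1 = 0 then (if v.1.2 then β v.2.1 v.2.2 else α v.2.1 v.2.2) else 0
    have e0 : matOf τ₀ (0, false) = α := by ext; simp [matOf, τ₀]
    have e1 : matOf τ₀ (0, true) = β := by ext; simp [matOf, τ₀]
    have e2 : ∀ c, matOf τ₀ (1, c) = 0 := fun c => by ext; simp [matOf, τ₀]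
    have hq0 : relDP z σ (Sum.elim τ₀ 0) = W := by
      rw [relDP_handle, relD_two, e0, e1, e2, e2, tl_of_trace hα, tl_of_trace hβ]
      simpa [pairD, tl] using hW
    have hmem : (fun p : Idx r => W p.1.1 p.1.2) ∈ LinearMap.range (G ∘ₗ ι) := by
      by_contra hc
      obtain ⟨φ, hφ, hφ0⟩ := Submodule.exists_dual_map_eq_bot_of_notMem hc inferInstance
      obtain ⟨Y, -, hY⟩ := exists_trace_rep φ
      refine hφ ?_
      rw [hY]
      refine hWY Y ?_
      have h := commute_of_relDP_tail (z := z) σ (Y := Y) fun q hq => by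
        have hιq : ι q = q := by
          funext v
          rcases v with ⟨⟨i, c⟩, p⟩ | v
          · by_cases hi : i = 0
            · subst hi; simp [ι, hq]
            · simp [ι, hi]
          · simp [ι]
        have h := Submodule.mem_map_of_mem (f := φ) (LinearMap.mem_range_self (G ∘ₗ ι) q)
        rw [hφ0] at h
        rw [← hY]
        have h' : φ (G q) = 0 := by simpa [hιq] using h
        rwa [hG] at h' 
      rwa [fix_of_commute (commute_scalar hlam Y)] at h
    obtain ⟨q', hq'⟩ := hmem
    let q : PVar 1 s r → ℂ := Sum.elim τ₀ 0 - ι q'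
    have hq : G q = 0 := by
      rw [LinearMap.comp_apply] at hq'
      rw [map_sub, hq', hG, hq0, sub_self]
    have hqD : relDP z σ q = 0 := by
      rw [hG] at hq
      refine Matrix.ext fun i j => ?_
      by_cases hij : (i, j) = (0, 0)
      · obtain ⟨rfl, rfl⟩ := Prod.mk.injEq .. ▸ hij
        have htr := trace_relDP (z := z) σ q
        rw [Matrix.trace, Finset.sum_eq_single 0 (fun k _ hk => by
          have := congrFun hq ⟨(k, k), fun e => hk (congrArg Prod.fst e)⟩
          simpa using this) (by simp)] at htr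
        simpa using htr
      · simpa using congrFun hq ⟨(i, j), hij⟩
    have hh : ∀ c, matOf (matH q) (0, c) = matOf τ₀ (0, c) := fun c => by
      ext; simp [matOf, matH, q, ι]
    have := key q hqD
    rwa [hh, hh, e0, e1, tl_of_trace hα, tl_of_trace hβ, hW] at this
  -- the first handle commutes with the tail
  have hcross : ∀ (i : Bool) v, Commute (gens σ.1 (0, i)) (tgensP z σ v) := by
    intro i v
    set g := tgensP z σ v with hg
    obtain ⟨h, hh, hP⟩ : ∃ h : SLC r, h.val = gens σ.1 (0, i) ∧ ∃ α β : Mat r, α.trace = 0 ∧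
        β.trace = 0 ∧ pairD a b α β = g * h.val - adj h (g * h.val) := by
      cases i
      · exact ⟨a, by simp [gens, ha], (exists_pairD_eq hlam _).1⟩
      · exact ⟨b, by simp [gens, hb], (exists_pairD_eq hlam _).2⟩
    have e : g * h.val - adj h (g * h.val) = g * h.val - h.val * g := by
      rw [adj_apply, ← Matrix.mul_assoc h.val, Matrix.mul_assoc (h.val * g), val_mul_inv,
        Matrix.mul_one]
    rw [e] at hP
    have h0 := hmeet _ hP (by rw [Matrix.trace_sub, Matrix.trace_mul_comm, sub_self])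
      fun Y hY => trace_conj_sub h.val g (Or.inl (hY v))
    rw [← hh]
    exact (sub_eq_zero.1 h0).symm
  -- a handle is a pair of scalars
  obtain ⟨k, hk, hpun⟩ : ∃ k : Fin 2, (∀ c, ∃ d : ℂ, gens σ.1 (k, c) = d • 1) ∧
      (k ≠ 0 → ∀ j, ∃ d : ℂ, (pc z σ j).val = d • 1) := by
    by_cases hl : lam = 1
    · refine ⟨0, fun c => hT _ ?_, fun h => absurd rfl h⟩
      have hab : Commute a.val b.val := by
        have e : a * b = comm σ.1 0 * (b * a) := by simp [comm, ha, hb, mul_assoc]
        show a.val * b.val = b.val * a.val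
        rw [← Matrix.SpecialLinearGroup.coe_mul, e, Matrix.SpecialLinearGroup.coe_mul, hlam, hl,
          one_smul, Matrix.one_mul, Matrix.SpecialLinearGroup.coe_mul]
      rintro (⟨i, c'⟩ | j)
      · fin_cases i
        · show Commute (gens σ.1 (0, c')) (gens σ.1 (0, c))
          cases c <;> cases c' <;>
            first
              | exact Commute.refl _
              | simpa [gens, ha, hb] using hab
              | simpa [gens, ha, hb] using hab.symm
        · exact (hcross c (.inl (0, c'))).symm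
      · exact (hcross c (.inr j)).symm
    · have hab : a.val * b.val = lam • (b.val * a.val) := by
        have e : a * b = comm σ.1 0 * (b * a) := by simp [comm, ha, hb, mul_assoc]
        rw [← Matrix.SpecialLinearGroup.coe_mul, e, Matrix.SpecialLinearGroup.coe_mul, hlam,
          smul_mul_assoc, Matrix.one_mul, Matrix.SpecialLinearGroup.coe_mul]
      have htail : ∀ v w, Commute (tgensP z σ v) (tgensP z σ w) := by
        intro v w
        set g := tgensP z σ v with hg
        set k := tgensP z σ w with hk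
        have hag : Commute a.val g := by simpa [gens, ha] using hcross false v
        have hak : Commute a.val k := by simpa [gens, ha] using hcross false w
        have hbg : Commute b.val g := by simpa [gens, hb] using hcross true v
        have hbk : Commute b.val k := by simpa [gens, hb] using hcross true w
        set M := g * k - k * g with hM
        have haM : Commute a.val M := (hag.mul_right hak).sub_right (hak.mul_right hag)
        have e : b.val * M - adj a (b.val * M) = (1 - lam) • (b.val * M) := by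
          rw [adj_apply, ← Matrix.mul_assoc, hab, smul_mul_assoc, Matrix.mul_assoc b.val a.val,
            haM.eq, smul_mul_assoc, Matrix.mul_assoc, Matrix.mul_assoc, val_mul_inv,
            Matrix.mul_one, sub_smul, one_smul]
        obtain ⟨α, β, hα, hβ, hP⟩ := (exists_pairD_eq hlam (b.val * M)).1
        have hYg : ∀ Y : Mat r, Commute g Y → (Y * (b.val * M)).trace = 0 := fun Y hY => by
          have e' : b.val * M = g * (b.val * k) - b.val * k * g := by
            rw [hM, mul_sub, ← Matrix.mul_assoc, hbg.eq, Matrix.mul_assoc, ← Matrix.mul_assoc b.val k]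
          rw [e']
          exact trace_conj_sub (b.val * k) g (Or.inl hY)
        have h0 := hmeet ((1 - lam) • (b.val * M)) ⟨α, β, hα, hβ, hP.trans e⟩
          (by
            rw [Matrix.trace_smul, ← Matrix.one_mul (b.val * M), hYg 1 (Commute.one_right g),
              smul_zero])
          fun Y hY => by rw [mul_smul_comm, Matrix.trace_smul, hYg Y (hY v), smul_zero]
        have h1 : b.val * M = 0 :=
          (smul_eq_zero.1 h0).resolve_left (sub_ne_zero.2 fun h => hl h.symm)
        have h2 := congrArg (b⁻¹.val * ·) h1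
        simp only [← Matrix.mul_assoc, val_inv_mul, Matrix.one_mul, Matrix.mul_zero] at h2
        exact sub_eq_zero.1 h2
      have hcentral : ∀ w, ∃ d : ℂ, tgensP z σ w = d • 1 := fun w => hT _ (by
        rintro (⟨i, c'⟩ | j)
        · fin_cases i
          · exact hcross c' w
          · exact htail (.inl (0, c')) w
        · exact htail (.inr j) w)
      exact ⟨1, fun c => hcentral (.inl (0, c)), fun _ j => hcentral (.inr j)⟩
  -- along a variation of the scalar handle its commutator stays scalar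
  have hscal : ∀ γ : ℂ → PRep 1 s (SLC r), γ 0 = σ → (∀ᶠ t in 𝓝 0, relP z (γ t) = 1) →
      DifferentiableAt ℂ (fun t => coordP (γ t)) 0 →
      ∀ᶠ t in 𝓝 (0 : ℂ), ∃ d : ℂ, (comm (γ t).1 k).val = d • 1 := by
    intro γ h1 h2 h3
    by_cases hk0 : k = 0
    · subst hk0; exact hall γ h1 h2 h3
    have hk1 : k = 1 := Fin.eq_one_of_ne_zero k hk0
    subst hk1
    have hs : ∀ j, ∃ d : ℂ, (z j).val = d • 1 := fun j => by
      obtain ⟨e, he⟩ := hpun (by decide) j
      refine ⟨e, ?_⟩
      rw [show z j = (σ.2 j)⁻¹ * pc z σ j * σ.2 j by simp [pc, mul_assoc],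
        Matrix.SpecialLinearGroup.coe_mul, Matrix.SpecialLinearGroup.coe_mul, he, mul_smul_comm,
        Matrix.mul_one, smul_mul_assoc, val_inv_mul]
    filter_upwards [hall γ h1 h2 h3, h2] with t ⟨d, hd⟩ ht
    have hC : ∀ X : Mat r, Commute (pprod z (γ t)).val X := fun X =>
      commute_list_prod _ fun j => by
        obtain ⟨e, he⟩ := hs j
        have : (pc z (γ t) j).val = e • 1 := by
          rw [pc, Matrix.SpecialLinearGroup.coe_mul, Matrix.SpecialLinearGroup.coe_mul, he,
            mul_smul_comm, Matrix.mul_one, smul_mul_assoc, val_mul_inv]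
        exact commute_scalar this X
    rw [relP, relator_comm, List.ofFn_succ, List.prod_cons, List.ofFn_succ, List.prod_cons,
      List.ofFn_zero, List.prod_nil, mul_one] at ht
    have e : comm (γ t).1 1 = (comm (γ t).1 0)⁻¹ * (pprod z (γ t))⁻¹ := by
      rw [Fin.succ_zero_eq_one] at ht
      calc comm (γ t).1 1 = (comm (γ t).1 0)⁻¹ *
            (comm (γ t).1 0 * comm (γ t).1 1 * pprod z (γ t)) * (pprod z (γ t))⁻¹ := by group
        _ = _ := by rw [ht, mul_one]
    refine hT _ fun v => Commute.symm ?_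
    rw [e, Matrix.SpecialLinearGroup.coe_mul]
    exact (commute_inv_val (commute_scalar hd _)).mul_left (commute_inv_val (hC _))
  obtain ⟨i0, i1, hi⟩ : ∃ i0 i1 : Fin r, i0 ≠ i1 :=
    ⟨⟨0, by omega⟩, ⟨1, by omega⟩, by simp [Fin.ext_iff]⟩
  let X : Mat r := Matrix.single i0 i1 1
  let Y : Mat r := Matrix.single i1 i0 1
  let τ : Var 1 r → ℂ := fun v =>
    if v.1.1 = k then (if v.1.2 then Y v.2.1 v.2.2 else X v.2.1 v.2.2) else 0
  have ek : ∀ c, matOf τ (k, c) = if c then Y else X := fun c => by
    ext; cases c <;> simp [matOf, τ]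
  have eo : ∀ i c, i ≠ k → matOf τ (i, c) = 0 := fun i c h => by ext; simp [matOf, τ, h]
  have hXt : X.trace = 0 := Matrix.trace_single_eq_of_ne _ _ _ hi
  have hYt : Y.trace = 0 := Matrix.trace_single_eq_of_ne _ _ _ hi.symm
  have hks : ∀ c, (gensU σ.1 (k, c)).val = gens σ.1 (k, c) := fun c => gensU_val _ _
  have hka : ∀ c X, adj (gensU σ.1 (k, c)) X = X := fun c => by
    obtain ⟨d, hd⟩ := hk c
    exact adj_of_scalar ((hks c).trans hd)
  have hpk : pairD (σ.1.1 k) (σ.1.2 k) X Y = 0 := by
    have h1 : ∀ Z, adj (σ.1.1 k) Z = Z := fun Z => by simpa [gensU] using hka false Z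
    have h2 : ∀ Z, adj (σ.1.2 k) Z = Z := fun Z => by simpa [gensU] using hka true Z
    have h3 : ∀ Z, adj (σ.1.1 k)⁻¹ Z = Z := fun Z => by
      conv_lhs => rw [← h1 Z]
      rw [adj_adj, inv_mul_cancel, adj_one_SL]
    simp only [pairD, ← adj_adj, h1, h2, h3]
    abel
  have hq : relDP z σ (Sum.elim τ 0) = 0 := by
    rw [relDP_handle, relD_two]
    rcases eq_or_ne k 0 with rfl | hk0
    · rw [ek, ek, eo 1 false (by decide), eo 1 true (by decide)]
      simp only [if_true, if_false, Bool.false_eq_true, tl_of_trace hXt, tl_of_trace hYt, hpk,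
        zero_add]
      simp [pairD, tl]
    · obtain rfl : k = 1 := Fin.eq_one_of_ne_zero k hk0
      rw [ek, ek, eo 0 false (by decide), eo 0 true (by decide)]
      simp only [if_true, if_false, Bool.false_eq_true, tl_of_trace hXt, tl_of_trace hYt, hpk,
        map_zero, add_zero]
      simp [pairD, tl]
  obtain ⟨γ, hγ0, hγ, hγc, hγd⟩ := exists_curvePd hσ hT hq
  obtain ⟨da, hda⟩ := hk false
  obtain ⟨db, hdb⟩ := hk true
  have hfA : HasD (fun t => ((γ t).1.1 k).val) (gens σ.1 (k, false) * X) := by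
    simpa [gens, show matH (Sum.elim τ 0 : PVar 1 s r → ℂ) = τ from rfl, ek, tl_of_trace hXt]
      using hγd (k, false)
  have hfB : HasD (fun t => ((γ t).1.2 k).val) (gens σ.1 (k, true) * Y) := by
    simpa [gens, show matH (Sum.elim τ 0 : PVar 1 s r → ℂ) = τ from rfl, ek, tl_of_trace hYt]
      using hγd (k, true)
  have ha0 : ((γ 0).1.1 k).val = da • 1 := by rw [hγ0]; simpa [gens] using hda
  have hb0 : ((γ 0).1.2 k).val = db • 1 := by rw [hγ0]; simpa [gens] using hdb
  have hcont : ContM (fun t => (comm (γ t).1 k).val) 0 := by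
    have hS := goodP_stable (n := 1) (s := s) (r := r) (R := (⊤ : Subring ℂ))
    have hk' := (allP_id (n := 1) (s := s) (r := r) (R := (⊤ : Subring ℂ))).1 k
    obtain ⟨d, hd⟩ := exists_hasD_goodP
      (hS.mul _ _ (hS.mul _ _ (hS.mul _ _ hk'.1 hk'.2) (hS.inv _ hk'.1)) (hS.inv _ hk'.2)) hγc
    exact hd.contM
  have hcomm := commute_velocity hfA hfB (commute_scalar ha0) (commute_scalar hb0)
    (eventually_commute (f := fun t => (γ t).1.1 k) (g := fun t => (γ t).1.2 k) hcont
      (commute_scalar ha0 _) (hscal γ hγ0 hγ hγc))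
  simp only [hda, hdb, smul_mul_assoc, mul_smul_comm, Matrix.one_mul, smul_smul,
    mul_comm db da] at hcomm
  have hne : da * db ≠ 0 := by
    have hdet : ∀ (g : SLC r) (d : ℂ), g.val = d • 1 → d ≠ 0 := fun g d hg hd => by
      have := congrArg Matrix.det hg
      rw [Matrix.SpecialLinearGroup.det_coe, hd, zero_smul, Matrix.det_zero] at this
      exact one_ne_zero this
    exact mul_ne_zero (hdet _ _ ha0) (hdet _ _ hb0)
  have h' := congrFun (congrFun (smul_right_injective _ hne hcomm) i0) i0
  simp [X, Y, hi] at h'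

/-- Scalar centralisers survive the move of the handles. -/
lemma triv_rotP [NeZero r] {σ : PRep 1 s (SLC r)} (h : Triv (gensP z σ)) :
    Triv (gensP z (rotP z σ)) := by
  intro Y hY
  have hC : Commute (pprod z σ).val Y := commute_pprod fun j => hY (.inr j)
  refine h Y ?_
  rintro (⟨i, c⟩ | j)
  · fin_cases i
    · have h1 : Commute (gens (rotP z σ).1 ((1 : Fin 2), c)) Y := hY (.inl (1, c))
      rw [gens_rotP, if_pos (by decide)] at h1
      have h' := ((commute_inv_val hC).mul_left h1).mul_left hC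
      simp only [← Matrix.mul_assoc, val_inv_mul, Matrix.one_mul] at h'
      rwa [Matrix.mul_assoc, val_inv_mul, Matrix.mul_one] at h'
    · have h1 : Commute (gens (rotP z σ).1 ((0 : Fin 2), c)) Y := hY (.inl (0, c))
      rw [gens_rotP, if_neg (by decide), show finRotate 2 0 = 1 by decide] at h1
      exact h1
  · exact hY (.inr j)

/-- With two handles, irreducible representations are limits of irreducible ones with both
commutators non-scalar. -/
lemma exists_near_ns2 [NeZero r] (hr : 2 ≤ r) {σ₀ : PRep 1 s (SLC r)} (hσ₀ : relP z σ₀ = 1)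
    (hF : Full (gensP z σ₀)) {ε : ℝ} (hε : 0 < ε) :
    ∃ σ, relP z σ = 1 ∧ dist (coordP σ) (coordP σ₀) < ε ∧ Full (gensP z σ) ∧ NS2 σ := by
  obtain ⟨γ, hγ0, hγ, hγc, hγn⟩ := exists_curve_nonScalar hr hσ₀ hF.triv
  have hd : ∀ᶠ t in 𝓝 (0 : ℂ), dist (coordP (γ t)) (coordP σ₀) < ε :=
    (hγc.continuousAt.dist continuousAt_const).eventually_lt_const (by simpa [hγ0] using hε)
  obtain ⟨t, ht, hrel, hdist, hFt⟩ := (hγn.and_eventually (hγ.and (hd.and
    (full_open (contM_gensP hγc) (by rw [hγ0]; exact hF))))).exists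
  set σ₁ := γ t
  obtain ⟨δ, hδ0, hδc, hδd, hδn⟩ :=
    exists_curve_nonScalar hr (relP_rotP hrel) (triv_rotP hFt.triv)
  have hbc := differentiable_rotPInv (z := z) hδd
  have hb0 : rotPInv z (δ 0) = σ₁ := by rw [hδ0, rotPInv_rotP]
  have hd' : ∀ᶠ t in 𝓝 (0 : ℂ), dist (coordP (rotPInv z (δ t))) (coordP σ₀) < ε :=
    (hbc.continuousAt.dist continuousAt_const).eventually_lt_const (by simpa [hb0] using hdist)
  obtain ⟨u, hu, hurel, hudist, huF, hun⟩ := (hδn.and_eventually (hδc.and (hd'.and
    ((full_open (contM_gensP hbc) (by rw [hb0]; exact hFt)).and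
      (nonScalar_open (γ := fun t => (rotPInv z (δ t)).1) (contM_gens hbc)
        (by rw [hb0]; exact ht)))))).exists
  refine ⟨rotPInv z (δ u), relP_rotPInv hurel, hudist, huF, hun, ?_⟩
  rw [← nonScalar_rotP_fst (z := z), rotP_rotPInv]
  exact hu

/-- Irreducible representations with two handles are limits of representations whose last handle
and punctures have scalar centraliser. -/
theorem exists_near_trivP_one [NeZero r] (hr : 2 ≤ r) {z : Fin s → SLC r}
    {σ₀ : PRep 1 s (SLC r)} (hσ₀ : relP z σ₀ = 1) (hF : Full (gensP z σ₀)) {ε : ℝ} (hε : 0 < ε) :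
    ∃ σ, relP z σ = 1 ∧ dist (coordP σ) (coordP σ₀) < ε ∧ Triv (tgensP z σ) := by
  obtain ⟨σ₁, h1, hd1, hF1, hNS⟩ := exists_near_ns2 hr hσ₀ hF (half_pos hε)
  obtain ⟨σ, h, hd, hT⟩ := exists_near_trivP_of le_rfl h1 hF1 (Or.inr hNS) (half_pos hε)
  exact ⟨σ, h, lt_of_le_of_lt (dist_triangle _ (coordP σ₁) _) (by linarith), hT⟩

end Vale.Agent.P002
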