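import Mathlib

/-!
A finite family with product one in a commutative group splits into cycles along which the
prefix products are distinct and return to one.
-/

namespace Vale.Agent.P002

open Equiv

variable {G : Type*} [CommGroup G] {α : Type*} [DecidableEq α]

/-- Product of the entries of a list before the given one. -/
def preProd (μ : α → G) (l : List α) (i : α) : G := ((l.take (l.idxOf i)).map μ).prod

lemma exists_cycles_on [Fintype α] (μ : α → G) (U : Finset α) (hU : ∏ i ∈ U, μ i = 1) :
    ∃ (π : Perm α) (p : α → G) (c : α → α), (∀ i ∉ U, π i = i) ∧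
      ∀ i ∈ U, π i ∈ U ∧ c i ∈ U ∧ c (π i) = c i ∧ p (π i) = p i * μ i ∧
        ∀ j ∈ U, c i = c j → π.SameCycle i j ∧ (p i = p j → i = j) := by
  classical
  induction hn : U.card using Nat.strong_induction_on generalizing U with
  | _ n ih =>
    rcases U.eq_empty_or_nonempty with rfl | hne
    · exact ⟨1, 1, id, fun _ _ => rfl, fun i hi => absurd hi (Finset.notMem_empty i)⟩
    obtain ⟨S, hS, hmin⟩ := Finset.exists_min_image
      (U.powerset.filter fun S => S.Nonempty ∧ ∏ i ∈ S, μ i = 1) Finset.card
      ⟨U, by simp [hne, hU]⟩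
    simp only [Finset.mem_filter, Finset.mem_powerset] at hS hmin
    obtain ⟨hSU, hSne, hSp⟩ := hS
    set l := S.toList with hl
    have hnd : l.Nodup := S.nodup_toList
    have hmem : ∀ i, i ∈ l ↔ i ∈ S := fun i => Finset.mem_toList
    have hlen : 0 < l.length := by rw [hl, Finset.length_toList]; exact hSne.card_pos
    have hpre : ∀ (k : ℕ) (hk : k < l.length), preProd μ l l[k] = ((l.take k).map μ).prod := by
      intro k hk
      rw [preProd, hnd.idxOf_getElem k hk]
    -- the prefix products are distinct
    have hinj : ∀ a b, a < b → b < l.length →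
        ((l.take a).map μ).prod ≠ ((l.take b).map μ).prod := by
      intro a b hab hb e
      set T := ((l.take b).drop a).toFinset with hT
      have hndT : ((l.take b).drop a).Nodup := (hnd.sublist (List.take_sublist b l)).sublist
        (List.drop_sublist a _)
      have hTp : ∏ i ∈ T, μ i = 1 := by
        rw [hT, List.prod_toFinset μ hndT]
        have e' := congrArg (fun l => (l.map μ).prod) (List.take_append_drop a (l.take b))
        simp only [List.map_append, List.prod_append, List.take_take, min_eq_left hab.le, ← e] at e'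
        exact mul_eq_left.mp e'
      have hTl : T.card = b - a := by
        rw [hT, List.toFinset_card_of_nodup hndT]
        simp only [List.length_drop, List.length_take]
        omega
      have hTS : T ⊆ S := fun i hi => (hmem i).1 <| List.mem_of_mem_take <|
        List.mem_of_mem_drop (List.mem_toFinset.1 hi)
      have hTne : T.Nonempty := Finset.card_pos.1 (by omega)
      have h2 := hmin T ⟨hTS.trans hSU, hTne, hTp⟩
      rw [hl, Finset.length_toList] at hb
      omega
    have hU' : ∏ i ∈ U \ S, μ i = 1 := by
      have h := Finset.prod_sdiff hSU (f := μ)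
      rwa [hSp, mul_one, hU] at h
    have hlt : (U \ S).card < n := by
      rw [← hn]
      exact Finset.card_lt_card (Finset.sdiff_ssubset hSU hSne)
    obtain ⟨π', p', c', hfix, hrec⟩ := ih _ hlt (U \ S) hU' rfl
    let π := π' * l.formPerm
    have hπS : ∀ i ∈ S, π i = l.formPerm i := fun i hi => hfix _ fun h =>
      (Finset.mem_sdiff.1 h).2 ((hmem _).1 (List.formPerm_apply_mem_of_mem ((hmem i).2 hi)))
    have hπR : ∀ i ∉ S, π i = π' i := fun i hi =>
      congrArg π' (List.formPerm_apply_of_notMem (fun h => hi ((hmem i).1 h)))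
    have hpow : ∀ (k : ℕ) (i : α), i ∈ U \ S → (π ^ k) i = (π' ^ k) i ∧ (π' ^ k) i ∈ U \ S := by
      intro k
      induction k with
      | zero => exact fun i hi => ⟨rfl, hi⟩
      | succ k ihk =>
        intro i hi
        obtain ⟨h1, h2⟩ := ihk i hi
        simp only [pow_succ', Perm.mul_apply, h1]
        exact ⟨hπR _ (Finset.mem_sdiff.1 h2).2, (hrec _ h2).1⟩
    have hsame : ∀ i ∈ S, π.SameCycle l[0] i := by
      have key : ∀ (k : ℕ) (hk : k < l.length), (π ^ k) l[0] = l[k] := by
        intro k
        induction k with
        | zero => intro hk; rfl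
        | succ k ihk =>
          intro hk
          rw [pow_succ', Perm.mul_apply, ihk (by omega), hπS _ ((hmem _).1 (List.getElem_mem _)),
            List.formPerm_apply_lt_getElem _ hnd _ hk]
      intro i hi
      obtain ⟨k, hk, rfl⟩ := List.getElem_of_mem ((hmem i).2 hi)
      exact ⟨k, by rw [zpow_natCast, key k hk]⟩
    refine ⟨π, fun i => if i ∈ S then preProd μ l i else p' i,
      fun i => if i ∈ S then l[0] else c' i, fun i hi => ?_, fun i hi => ?_⟩
    · rw [hπR i fun h => hi (hSU h), hfix i fun h => hi (Finset.mem_sdiff.1 h).1]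
    by_cases hiS : i ∈ S
    · have hfi : l.formPerm i ∈ S := (hmem _).1 (List.formPerm_apply_mem_of_mem ((hmem i).2 hiS))
      obtain ⟨k, hk, hik⟩ := List.getElem_of_mem ((hmem i).2 hiS)
      refine ⟨hπS i hiS ▸ hSU hfi, by simpa [hiS] using hSU ((hmem _).1 (List.getElem_mem hlen)),
        by simp [hπS i hiS, hfi, hiS], ?_, fun j hj hcj => ?_⟩
      · simp only [hπS i hiS, hfi, hiS, if_true]
        rw [← hik, List.formPerm_apply_getElem _ hnd k hk, hpre, hpre]
        have hstep : ((l.take (k + 1)).map μ).prod = ((l.take k).map μ).prod * μ l[k] := by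
          rw [List.take_add_one, List.getElem?_eq_getElem hk, Option.toList_some, List.map_append,
            List.prod_append, List.map_singleton, List.prod_singleton]
        rcases (Nat.lt_or_ge (k + 1) l.length) with h | h
        · rw [← hstep]
          simp only [Nat.mod_eq_of_lt h]
        · rw [← hstep, show k + 1 = l.length by omega, Nat.mod_self, List.take_length, hl,
            Finset.prod_map_toList, hSp]
          rfl
      · have hjS : j ∈ S := by
          by_contra h
          simp only [hiS, h, if_true, if_false] at hcj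
          exact (Finset.mem_sdiff.1 ((hrec j (Finset.mem_sdiff.2 ⟨hj, h⟩)).2.1)).2
            (hcj ▸ (hmem _).1 (List.getElem_mem hlen))
        refine ⟨(hsame i hiS).symm.trans (hsame j hjS), fun e => ?_⟩
        obtain ⟨m, hm, hjm⟩ := List.getElem_of_mem ((hmem j).2 hjS)
        simp only [hiS, hjS, if_true] at e
        rw [← hik, ← hjm, hpre, hpre] at e
        rcases lt_trichotomy k m with h | h | h
        · exact absurd e (hinj k m h hm)
        · subst h; exact hik.symm.trans hjm
        · exact absurd e.symm (hinj m k h hk)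
    · have hiR : i ∈ U \ S := Finset.mem_sdiff.2 ⟨hi, hiS⟩
      obtain ⟨h1, h2, h3, h4, h5⟩ := hrec i hiR
      obtain ⟨h1U, h1S⟩ := Finset.mem_sdiff.1 h1
      refine ⟨hπR i hiS ▸ h1U, by simpa [hiS] using (Finset.mem_sdiff.1 h2).1,
        by simp [hπR i hiS, h1S, hiS, h3], by simp [hπR i hiS, h1S, hiS, h4], fun j hj hcj => ?_⟩
      have hjS : j ∉ S := fun h => by
        simp only [hiS, h, if_true, if_false] at hcj
        exact (Finset.mem_sdiff.1 h2).2 (hcj ▸ (hmem _).1 (List.getElem_mem hlen))
      simp only [hiS, hjS, if_false] at hcj ⊢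
      obtain ⟨hs, hp⟩ := h5 j (Finset.mem_sdiff.2 ⟨hj, hjS⟩) hcj
      obtain ⟨k, hk⟩ := hs.exists_nat_pow_eq
      exact ⟨⟨k, by rw [zpow_natCast, (hpow k i hiR).1, hk]⟩, hp⟩

/-- A family with product one splits into cycles with distinct prefix products: a permutation,
the prefix products and a label of the cycles. -/
theorem exists_cycles [Fintype α] (μ : α → G) (h : ∏ i, μ i = 1) :
    ∃ (π : Perm α) (p : α → G) (c : α → α), (∀ i, c (π i) = c i) ∧
      (∀ i, p (π i) = p i * μ i) ∧ (∀ i j, c i = c j → π.SameCycle i j) ∧
      ∀ i j, c i = c j → p i = p j → i = j := by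
  obtain ⟨π, p, c, -, H⟩ := exists_cycles_on μ Finset.univ h
  exact ⟨π, p, c, fun i => (H i (Finset.mem_univ i)).2.2.1,
    fun i => (H i (Finset.mem_univ i)).2.2.2.1,
    fun i j e => ((H i (Finset.mem_univ i)).2.2.2.2 j (Finset.mem_univ j) e).1,
    fun i j e => ((H i (Finset.mem_univ i)).2.2.2.2 j (Finset.mem_univ j) e).2⟩

end Vale.Agent.P002
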