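import Vale.Agent.P002.Punct.Nbhd
import Vale.Agent.P002.FlowTwo

/-!
Twist flows along powers of the first handle, conjugated by the substitutions of a punctured
surface, stay in the closure of the points over a subring; their velocities.
-/

namespace Vale.Agent.P002

open Matrix MvPolynomial
open scoped ContDiff

variable {r n s : ℕ} {R : Subring ℂ} {z : Fin s → SLC r}

/-- The direction of a conjugated twist along a power. -/
noncomputable def dirPow {r N : ℕ} (A : Fin (N + 1) → SLC r) (q : List (Fin N) × ℕ) :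
    Fin (N + 1) → Mat r :=
  steps A q.1 (Pi.single 0 (tl ((A 0 * vw A q.1) ^ (q.2 + 1)).val))

/-- Multiplying `b₀` by a determinant-one function of a generic `a₀` stays in the closure. -/
lemma ptwist_diag_mem {σ : PRep n s (SLC r)} (hσ : σ ∈ ZdP R n z) {w : SLC r}
    (hcomm : Commute (σ.1.1 0) w) {U : (Mat r)ˣ} {lam μ : Fin r → ℂ} (hind : Indep lam)
    (hW : (σ.1.1 0).val = U.val * diagonal lam * (U⁻¹).val)
    (hw : w.val = U.val * diagonal μ * (U⁻¹).val) (hμ : ∏ i, μ i = 1) :
    ptwist σ w ∈ ZdP R n z := by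
  refine ⟨by rw [relP_ptwist σ hcomm, hσ.1], fun P hP => ?_⟩
  let q : PVar n s r → MvPolynomial (Fin r) ℂ := fun v =>
    match v with
    | .inl (x, a, c) => if x = (0, true) then
        ∑ j, C (((σ.1.2 0).val * U.val) a j) * X j * C ((U⁻¹).val j c)
        else C (coord σ.1 (x, a, c))
    | .inr x => C (coordP σ (.inr x))
  have key : ∀ (μ : Fin r → ℂ) (w : SLC r), w.val = U.val * diagonal μ * (U⁻¹).val →
      eval μ (bind₁ q P) = eval (coordP (ptwist σ w)) P := by
    intro μ w hw
    rw [eval, eval₂Hom_bind₁]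
    refine congrArg (fun f => eval₂Hom (RingHom.id ℂ) f P) (funext fun v => ?_)
    rcases v with ⟨⟨i, b⟩, a, c⟩ | x
    · by_cases h : (i, b) = ((0 : Fin (n + 1)), true)
      · obtain ⟨rfl, rfl⟩ := Prod.mk.injEq .. ▸ h
        simp only [q, if_true, coordP, Sum.elim_inl, coord, ptwist, twist, Function.update_self,
          Matrix.SpecialLinearGroup.coe_mul, hw, map_sum, map_mul, eval₂Hom_C, eval₂Hom_X',
          RingHom.id_apply, ← Matrix.mul_assoc]
        rw [Matrix.mul_apply]
        simp [Matrix.mul_diagonal]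
      · have hb : coord (twist σ.1 w) ((i, b), a, c) = coord σ.1 ((i, b), a, c) := by
          cases b
          · simp [coord, twist]
          · have : i ≠ 0 := fun e => h (by rw [e])
            simp [coord, twist, this]
        simp only [q, if_neg h, eval₂Hom_C, RingHom.id_apply, coordP, Sum.elim_inl, ptwist, hb]
    · simp [q, coordP, ptwist]
  rw [← key μ w hw]
  refine eval_eq_zero_of_powers hind hμ fun m => ?_
  have hpow : ((σ.1.1 0) ^ m).val = U.val * diagonal (fun i => lam i ^ m) * (U⁻¹).val := by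
    rw [Matrix.SpecialLinearGroup.coe_pow, hW, Units.conj_pow, Matrix.diagonal_pow]
    rfl
  rw [key _ _ hpow]
  exact (ptwist_pow_mem hσ m).2 P hP

lemma ptwist_exp_pow_mem (hr : r ≠ 0) {σ : PRep n s (SLC r)} (hσ : σ ∈ ZdP R n z)
    (hW : GoodW (σ.1.1 0).val) (t : ℂ) (e : ℕ) :
    ptwist σ (expT t (σ.1.1 0 ^ e)) ∈ ZdP R n z := by
  obtain ⟨U, lam, hind, hW⟩ := hW
  set ν : Fin r → ℂ := fun i => lam i ^ e with hν
  have hWe : (σ.1.1 0 ^ e).val = U.val * diagonal ν * (U⁻¹).val := by
    rw [Matrix.SpecialLinearGroup.coe_pow, hW, Units.conj_pow, Matrix.diagonal_pow]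
    rfl
  refine ptwist_diag_mem hσ (commute_expT_pow t _ e) hind hW
    (μ := fun i => Complex.exp (t * (ν i - (∑ j, ν j) / r))) ?_ ?_
  · generalize σ.1.1 0 ^ e = W at hWe ⊢
    have he : t • tl W.val =
        U.val * diagonal (fun i => t * (ν i - (∑ j, ν j) / r)) * (U⁻¹).val := by
      have htr : W.val.trace = ∑ j, ν j := by
        rw [hWe, Matrix.trace_mul_comm, ← Matrix.mul_assoc, Units.inv_mul, Matrix.one_mul,
          Matrix.trace_diagonal]
      rw [tl, htr, hWe, show (fun i => t * (ν i - (∑ j, ν j) / r)) =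
        t • (fun i => ν i - (∑ j, ν j) / (r : ℂ)) from rfl, Matrix.diagonal_smul,
        mul_smul_comm, smul_mul_assoc t (U.val * diagonal _), ← Matrix.diagonal_sub, mul_sub,
        sub_mul]
      congr 2
      rw [← Matrix.smul_one_eq_diagonal, mul_smul_comm, mul_one, smul_mul_assoc, Units.mul_inv]
    rw [show (expT t W).val = NormedSpace.exp (t • tl W.val) from rfl, he,
      Matrix.exp_units_conj, Matrix.exp_diagonal]
    congr 3
    funext i
    simp [Complex.exp_eq_exp_ℂ]
  · rw [← Complex.exp_sum, ← Finset.mul_sum, Finset.sum_sub_distrib, Finset.sum_const,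
      Finset.card_univ, Fintype.card_fin, nsmul_eq_mul,
      mul_div_cancel₀ _ (Nat.cast_ne_zero.2 hr), sub_self, mul_zero, Complex.exp_zero]

/-- A twist along a power conjugated by a substitution. -/
noncomputable def stpW (z : Fin s → SLC r) (q : List (Lt n s) × ℕ) (t : ℂ)
    (σ : PRep n s (SLC r)) : PRep n s (SLC r) :=
  pfwds z q.1 (ptwist (pbwds z q.1 σ) (expT t ((pbwds z q.1 σ).1.1 0 ^ (q.2 + 1))))

/-- Successive conjugated twists along powers. -/
noncomputable def flowW (z : Fin s → SLC r) : ∀ {N : ℕ}, (Fin N → List (Lt n s) × ℕ) →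
    (Fin N → ℂ) → PRep n s (SLC r) → PRep n s (SLC r)
  | 0, _, _, σ => σ
  | _ + 1, L, t, σ => stpW z (L 0) (t 0) (flowW z (fun i => L i.succ) (fun i => t i.succ) σ)

lemma stpW_zero (q : List (Lt n s) × ℕ) (σ : PRep n s (SLC r)) : stpW z q 0 σ = σ := by
  rw [stpW, expT_zero, ptwist, twist, mul_one, Function.update_eq_self]
  exact pfwds_pbwds q.1 σ

lemma flowW_zero : ∀ {N : ℕ} (L : Fin N → List (Lt n s) × ℕ) (σ : PRep n s (SLC r)),
    flowW z L 0 σ = σ
  | 0, _, _ => rfl
  | N + 1, L, σ => by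
    rw [flowW, Pi.zero_apply, stpW_zero]
    exact flowW_zero (fun i => L i.succ) σ

lemma flowW_single : ∀ {N : ℕ} (L : Fin N → List (Lt n s) × ℕ) (k : Fin N) (t : ℂ)
    (σ : PRep n s (SLC r)), flowW z L (Pi.single k t) σ = stpW z (L k) t σ
  | 0, _, k, _, _ => k.elim0
  | N + 1, L, k, t, σ => by
    rw [flowW]
    induction k using Fin.cases with
    | zero =>
      rw [show (fun i : Fin N => (Pi.single 0 t : Fin (N + 1) → ℂ) i.succ) = 0 by
        funext i; simp [Fin.succ_ne_zero], flowW_zero, Pi.single_eq_same]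
    | succ j =>
      rw [show (fun i : Fin N => (Pi.single j.succ t : Fin (N + 1) → ℂ) i.succ) = Pi.single j t by
        funext i; simp [Pi.single_apply], flowW_single, Pi.single_eq_of_ne (Fin.succ_ne_zero j).symm,
        stpW_zero]

variable {X : Type*} [NormedAddCommGroup X] [NormedSpace ℂ X]

lemma smooth_stpW {σ : X → PRep n s (SLC r)} (hσ : SmoothP σ) {t : X → ℂ}
    (ht : ContDiff ℂ ω t) (q : List (Lt n s) × ℕ) :
    SmoothP fun x => stpW z q (t x) (σ x) := by
  have hS := smooth_stable (r := r) (X := X)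
  have hz : ∀ j : Fin s, Smooth fun _ : X => (z j).val := fun j => Smooth.const _
  have hb : SmoothP fun x => pbwds z q.1 (σ x) := hS.pbwds hz q.1 hσ
  have hw : Smooth fun x =>
      (expT (t x) ((pbwds z q.1 (σ x)).1.1 0 ^ (q.2 + 1))).val :=
    Smooth.exp fun i j => ht.mul ((Smooth.tl (smooth_pow (hb.1 0).1 _)) i j)
  exact hS.pfwds hz q.1 (smooth_ptwist (σ := fun x => pbwds z q.1 (σ x))
    (w := fun x => expT (t x) ((pbwds z q.1 (σ x)).1.1 0 ^ (q.2 + 1))) hb hw)

lemma smooth_flowW : ∀ {N : ℕ} (L : Fin N → List (Lt n s) × ℕ) {σ : X → PRep n s (SLC r)}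
    {t : X → Fin N → ℂ}, SmoothP σ → (∀ k, ContDiff ℂ ω fun x => t x k) →
    SmoothP fun x => flowW z L (t x) (σ x)
  | 0, _, _, _, h, _ => h
  | N + 1, L, σ, t, h, ht => by
    simp only [flowW]
    exact smooth_stpW (smooth_flowW (fun i => L i.succ) h fun k => ht k.succ) (ht 0) (L 0)

/-- Conjugated twists along powers of a curve in the closure stay in the closure. -/
lemma stpW_mem (hr : r ≠ 0) (hz : ∀ j, z j ∈ inR R r) {σ : ℂ → PRep n s (SLC r)}
    (hσ : SmoothP σ) (hmem : ∀ u, σ u ∈ ZdP R n z) (q : List (Lt n s) × ℕ)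
    (h0 : Avoids ((pbwds z q.1 (σ 0)).1.1 0).val) (c u₀ : ℂ) :
    stpW z q (u₀ * c) (σ u₀) ∈ ZdP R n z := by
  refine ⟨?_, fun P hP => ?_⟩
  · rw [stpW, relP_pfwds, relP_ptwist _ (commute_expT_pow _ _ _), relP_pbwds, (hmem u₀).1]
  · have hb := smooth_stable.pbwds (z := z) (fun _ => Smooth.const _) q.1 hσ
    have hs : Smooth fun u => ((pbwds z q.1 (σ u)).1.1 0).val := (hb.1 0).1
    have hd : Dense {u | ∀ d : {p : (Fin r → ℕ) × (Fin r → ℕ) // ¬ ConstDiff p.1 p.2},
        eval (fun p => ((pbwds z q.1 (σ u)).1.1 0).val p.1 p.2) (entryPoly d.1.1 d.1.2) ≠ 0} :=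
      dense_avoid _ (fun d => (contDiff_eval (f := fun u (p : Fin r × Fin r) =>
        ((pbwds z q.1 (σ u)).1.1 0).val p.1 p.2) (fun p => hs p.1 p.2) _).differentiable (by simp))
        fun d => h0 d.1.1 d.1.2 d.2
    have hg : ContDiff ℂ ω fun u => eval (coordP (stpW z q (u * c) (σ u))) P :=
      contDiff_eval (contDiff_pi.1 (SmoothP.coord
        (smooth_stpW hσ (contDiff_id.mul contDiff_const) q))) P
    refine congrFun (hg.continuous.ext_on hd continuous_const fun u hu => ?_) u₀
    have hgood : GoodW ((pbwds z q.1 (σ u)).1.1 0).val :=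
      goodW_of_avoids fun d d' h => hu ⟨(d, d'), h⟩
    exact (pfwds_mem hz q.1
      (ptwist_exp_pow_mem hr (pbwds_mem hz q.1 (hmem u)) hgood _ _)).2 P hP

lemma flowW_mem (hr : r ≠ 0) (hz : ∀ j, z j ∈ inR R r) {p : PRep n s (SLC r)}
    (hA : ∀ l, Avoids ((pbwds z l p).1.1 0).val) {N : ℕ} (L : Fin N → List (Lt n s) × ℕ)
    (t : Fin N → ℂ) {σ : ℂ → PRep n s (SLC r)} (hσ : SmoothP σ) (h : ∀ u, σ u ∈ ZdP R n z)
    (h0 : σ 0 = p) : ∀ u : ℂ, flowW z L (u • t) (σ u) ∈ ZdP R n z := by
  induction N with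
  | zero => exact fun u => h u
  | succ N ih =>
    intro u
    set σ' : ℂ → PRep n s (SLC r) :=
      fun u => flowW z (fun i => L i.succ) (u • fun i => t i.succ) (σ u) with hσ'
    have hσ'0 : σ' 0 = p := by simp only [hσ', zero_smul, flowW_zero, h0]
    have hsm : SmoothP σ' :=
      smooth_flowW (fun i => L i.succ) (σ := σ) (t := fun u : ℂ => u • fun i => t i.succ) hσ
        fun k => contDiff_id.mul contDiff_const
    have hmem : ∀ u, σ' u ∈ ZdP R n z := ih (fun i => L i.succ) (fun i => t i.succ)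
    have hav : Avoids ((pbwds z (L 0).1 (σ' 0)).1.1 0).val := by rw [hσ'0]; exact hA (L 0).1
    exact stpW_mem hr hz hsm hmem (L 0) hav (t 0) u

/-- The velocity of a conjugated twist along a power. -/
lemma stpW_hasDC (hz : ∀ j, z j ∈ inR R r) {σ : PRep n s (SLC r)} (hb : σ.1.2 0 = 1) (A₀ : SLC r)
    (q : List (Fin (Fintype.card (Lt n s))) × ℕ) :
    ∃ w, HasDC (fun t => stpW z (q.1.map (lE n s), q.2) t (setA σ A₀)) w ∧
      projA w = liftT z σ (dirPow (tailA z σ A₀) q) := by
  set v := A₀ * vw (tailA z σ 1) q.1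
  set W := v ^ (q.2 + 1) with hW
  let γ : ℂ → PRep n s (SLC r) := fun t => ptwist (setA σ v) (expT t W)
  have hγ0 : γ 0 = setA σ v := by simp [γ, expT_zero, ptwist, twist]
  have hγ : HasDC γ (put (sb0 n s) (tl W.val)) := by
    intro u
    rw [slotM_put]
    by_cases hu : u = sb0 n s
    · subst hu
      simp only [γ, slotG, ptwist, twist, setA, hb, Function.update_self, one_mul, if_true]
      exact hasD_exp (tl W.val)
    · rw [if_neg hu]
      rcases u with ⟨i, c⟩ | j
      · cases c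
        · simpa [γ, slotG, ptwist, twist] using hasD_const _
        · have : i ≠ 0 := fun e => hu (by rw [e])
          simpa [γ, slotG, ptwist, twist, this] using hasD_const _
      · simpa [γ, slotG, ptwist] using hasD_const ((setA σ v).2 j).val
  have hw : projA (put (sb0 n s) (tl W.val)) = liftT z σ (Pi.single 0 (tl W.val)) := by
    refine slotM_ext fun u => ?_
    rw [slotM_projA]
    have e : liftT z σ (Pi.single 0 (tl W.val)) = put (sb0 n s) (tl W.val) := by
      simp [liftT_apply, Fin.succ_ne_zero]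
    rw [e]
    split_ifs with hu
    · subst hu; simp [slotM_put]
    · rfl
  obtain ⟨w', h', hw'⟩ := pfwds_hasDC hz hb A₀ q.1 v hγ0 hγ hw
  refine ⟨w', ?_, ?_⟩
  · have e : ∀ t, stpW z (q.1.map (lE n s), q.2) t (setA σ A₀) =
        pfwds z (q.1.map (lE n s)) (γ t) := fun t => by
      simp only [stpW, γ, pbwds_setA σ hb]
      simp [setA, W, v]
    simpa only [e] using h'
  · rw [hw', dirPow]
    simp only [hW, v, vw_tailA σ A₀]
    rfl

end Vale.Agent.P002
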