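import Vale.Agent.P002.PunctTwo.Defs
import Vale.Agent.P002.PunctTwo.Cycles

/-!
Seeds with block triangular tails for genus two and arbitrary quasi-unipotent boundary classes.

The eigenvalues of the classes are cut into minimal cycles of product one. The first tail
generator is diagonal with roots of unity, the second a unipotent upper matrix times a monomial
one; the classes are represented by upper triangular matrices congruent to diagonal ones.
-/

namespace Vale.Agent.P002

open Matrix
open scoped commutatorElement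

variable {r s : ℕ}

/-- Block upper triangular elements of the special linear group. -/
noncomputable def bupG {K : ℕ} (blk : Fin r → Fin K) : Subgroup (SLC r) where
  carrier := {g | g.val.BlockTriangular blk}
  one_mem' := by
    show ((1 : SLC r).val).BlockTriangular blk
    rw [Matrix.SpecialLinearGroup.coe_one]; exact blockTriangular_one
  mul_mem' := fun {g h} hg hh => by
    show ((g * h).val).BlockTriangular blk
    rw [Matrix.SpecialLinearGroup.coe_mul]; exact BlockTriangular.mul hg hh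
  inv_mem' := fun {g} hg => by
    show (g⁻¹.val).BlockTriangular blk
    have : Invertible g.val := ⟨g⁻¹.val, val_inv_mul g, val_mul_inv g⟩
    have e : g⁻¹.val = g.val⁻¹ := (Matrix.inv_eq_left_inv (val_inv_mul g)).symm
    rw [e]
    exact blockTriangular_inv_of_blockTriangular hg

lemma mem_bupG {K : ℕ} {blk : Fin r → Fin K} {g : SLC r} :
    g ∈ bupG blk ↔ g.val.BlockTriangular blk := Iff.rfl

/-- Roots of unity of order dividing `M` lie in the cyclotomic integers. -/
lemma root_mem_cycInt {M : ℕ} (hM : 0 < M) {x : ℂ} (hx : x ^ M = 1) : x ∈ cycInt M := by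
  have : NeZero M := ⟨hM.ne'⟩
  have h1 : IsIntegral ℤ x := IsIntegral.of_pow (R := ℤ) hM (by
    rw [hx]; exact isIntegral_one)
  obtain ⟨i, -, hi⟩ := (Complex.isPrimitiveRoot_exp M hM.ne').eq_pow_of_pow_eq_one hx
  refine mem_cycInt.2 ⟨?_, h1⟩
  rw [← hi]
  exact pow_mem (IntermediateField.subset_adjoin ℚ _ (Set.mem_singleton _)) i

/-- The order is divisible by one minus a non-trivial root of unity. -/
lemma natCast_div_mem_cycInt {M : ℕ} (hM : 0 < M) {ω : ℂ} (hω : ω ^ M = 1) (h1 : ω ≠ 1) :
    (M : ℂ) / (1 - ω) ∈ cycInt M := by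
  have hgeom : ∑ i ∈ Finset.range M, ω ^ i = 0 := by rw [geom_sum_eq h1, hω, sub_self, zero_div]
  have key : ∀ n : ℕ, (1 - ω) * ∑ i ∈ Finset.range n, (i : ℂ) * ω ^ i =
      (∑ i ∈ Finset.range n, ω ^ i) - 1 - ((n : ℂ) - 1) * ω ^ n := by
    intro n
    induction n with
    | zero => simp
    | succ n ih =>
      rw [Finset.sum_range_succ, Finset.sum_range_succ, mul_add, ih, pow_succ]
      push_cast
      ring
  have h := key M
  rw [hgeom, hω] at h
  have e : (M : ℂ) / (1 - ω) = -∑ i ∈ Finset.range M, (i : ℂ) * ω ^ i := by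
    rw [div_eq_iff (sub_ne_zero.2 (Ne.symm h1)), neg_mul, mul_comm _ (1 - ω), h]
    ring
  rw [e]
  exact neg_mem (sum_mem fun i _ => mul_mem (natCast_mem _ i) (pow_mem (root_mem_cycInt hM hω) i))

/-- Similar matrices are conjugate by a matrix of determinant one. -/
lemma exists_conj_SL [NeZero r] {g : SLC r} {A T : Mat r} (hT : T.det ≠ 0)
    (h : A * T = T * g.val) : ∃ z : SLC r, z.val = A ∧ ∃ k : SLC r, z = k * g * k⁻¹ := by
  obtain ⟨c, hc⟩ := IsAlgClosed.exists_pow_nat_eq T.det⁻¹ (Nat.pos_of_neZero r)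
  have hdet : (c • T).det = 1 := by
    rw [Matrix.det_smul, Fintype.card_fin, hc, inv_mul_cancel₀ hT]
  let k : SLC r := ⟨c • T, hdet⟩
  refine ⟨k * g * k⁻¹, ?_, k, rfl⟩
  rw [Matrix.SpecialLinearGroup.coe_mul, Matrix.SpecialLinearGroup.coe_mul,
    show k.val * g.val = A * k.val by simp [k, h], Matrix.mul_assoc, val_mul_inv, Matrix.mul_one]

/-- Rearrange values in a prescribed order, keeping the order among equal values. -/
lemma exists_reorder {β : Type*} [DecidableEq β] (f : Fin r → β) (τ : Equiv.Perm (Fin r)) :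
    ∃ τ' : Equiv.Perm (Fin r), (∀ a, f (τ' a) = f (τ a)) ∧
      ∀ a b, f (τ' a) = f (τ' b) → a < b → τ' a < τ' b := by
  let g : Fin r → Fin r := fun i =>
    (Finset.univ.filter fun k => f k = f i).min' ⟨i, by simp⟩
  have hg : ∀ i, f (g i) = f i := fun i => by
    have := Finset.min'_mem (Finset.univ.filter fun k => f k = f i) ⟨i, by simp⟩
    simpa [g] using this
  have hiff : ∀ i j, g i = g j ↔ f i = f j := fun i j =>
    ⟨fun e => by rw [← hg i, e, hg j], fun e => by simp only [g, e]⟩
  set s₀ := Tuple.sort g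
  set s₁ := Tuple.sort (g ∘ τ)
  have h0 := (Tuple.eq_sort_iff.1 (rfl : s₀ = Tuple.sort g)).2
  have h1 := (Tuple.eq_sort_iff.1 (rfl : s₁ = Tuple.sort (g ∘ τ))).2
  have he : ∀ a, g (s₀ (s₁⁻¹ a)) = g (τ a) := fun a => by
    have := congrFun (Tuple.comp_perm_comp_sort_eq_comp_sort (f := g) (σ := τ)) (s₁⁻¹ a)
    simp only [Function.comp_apply] at this
    rw [← this]
    simp [s₁]
  refine ⟨s₀ * s₁⁻¹, fun a => (hiff _ _).1 (he a), fun a b e hab => ?_⟩
  have e' : g (τ a) = g (τ b) := by
    rw [← he, ← he]; exact (hiff _ _).2 e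
  refine h0 _ _ (lt_of_le_of_ne ?_ fun h => hab.ne (s₁⁻¹.injective h)) ((hiff _ _).2 e)
  by_contra hlt
  have := h1 _ _ (not_le.1 hlt) (by simp [e'])
  simp at this
  exact absurd hab this.not_gt

/-- Upper triangular, entries in a subring, off-diagonal entries multiples of `N`. -/
def UpN (R : Subring ℂ) (N : ℂ) (g : Mat r) : Prop :=
  g.BlockTriangular id ∧ (∀ a b, g a b ∈ R) ∧ ∀ a b, a ≠ b → ∃ e ∈ R, g a b = N * e

lemma UpN.mul {R : Subring ℂ} {N : ℂ} {g h : Mat r} (hg : UpN R N g) (hh : UpN R N h) :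
    UpN R N (g * h) := by
  classical
  refine ⟨hg.1.mul hh.1, fun a b => by
      rw [Matrix.mul_apply]; exact sum_mem fun c _ => mul_mem (hg.2.1 _ _) (hh.2.1 _ _),
    fun a b hab => ?_⟩
  have : ∀ c, ∃ e ∈ R, g a c * h c b = N * e := fun c => by
    by_cases hac : a = c
    · subst hac
      obtain ⟨e, he, e'⟩ := hh.2.2 a b hab
      exact ⟨g a a * e, mul_mem (hg.2.1 _ _) he, by rw [e']; ring⟩
    · obtain ⟨e, he, e'⟩ := hg.2.2 a c hac
      exact ⟨e * h c b, mul_mem he (hh.2.1 _ _), by rw [e']; ring⟩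
  choose e he e' using this
  exact ⟨∑ c, e c, sum_mem fun c _ => he c, by rw [Matrix.mul_apply, Finset.mul_sum]; simp [e']⟩

lemma UpN.one {R : Subring ℂ} {N : ℂ} : UpN R N (1 : Mat r) :=
  ⟨blockTriangular_one, fun a b => by
      rw [Matrix.one_apply]; split_ifs <;> [exact one_mem R; exact zero_mem R],
    fun a b hab => ⟨0, zero_mem R, by simp [hab]⟩⟩

lemma diag_mul_of_upper {g h : Mat r} (hg : g.BlockTriangular id) (hh : h.BlockTriangular id)
    (a : Fin r) : (g * h) a a = g a a * h a a := by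
  rw [Matrix.mul_apply, Finset.sum_eq_single a (fun c _ hc => ?_) (by simp)]
  rcases lt_or_gt_of_ne hc with h' | h'
  · rw [hg h', zero_mul]
  · rw [hh h', mul_zero]

lemma upN_prod {R : Subring ℂ} {N : ℂ} : ∀ {s : ℕ} (z : Fin s → SLC r),
    (∀ j, UpN R N (z j).val) → UpN R N (List.ofFn z).prod.val ∧
      ∀ a, (List.ofFn z).prod.val a a = ∏ j, (z j).val a a
  | 0, z, _ => by simpa using UpN.one
  | s + 1, z, hz => by
    obtain ⟨h1, h2⟩ := upN_prod (fun j => z j.succ) fun j => hz j.succ
    rw [List.ofFn_succ, List.prod_cons, Matrix.SpecialLinearGroup.coe_mul]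
    refine ⟨(hz 0).mul h1, fun a => ?_⟩
    rw [diag_mul_of_upper (hz 0).1 h1.1, h2, Fin.prod_univ_succ]

/-- The unipotent solution of the commutator equation. -/
noncomputable def solV (W : Mat r) (d : Fin r → ℂ) (π : Equiv.Perm (Fin r)) (a b : Fin r) : ℂ :=
  if a = b then 1
  else if a < b then
    (∑ c, if _h : a < c then W a c * d c * solV W d π c b else 0) / (d (π b) - d (π a))
  else 0
termination_by r - a.val
decreasing_by omega

lemma solV_diag (W : Mat r) (d : Fin r → ℂ) (π : Equiv.Perm (Fin r)) (a : Fin r) :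
    solV W d π a a = 1 := by rw [solV]; simp

lemma solV_lower (W : Mat r) (d : Fin r → ℂ) (π : Equiv.Perm (Fin r)) {a b : Fin r} (h : b < a) :
    solV W d π a b = 0 := by rw [solV, if_neg h.ne', if_neg h.not_gt]

lemma solV_eq {W : Mat r} (hW : W.BlockTriangular id) {d : Fin r → ℂ} {π : Equiv.Perm (Fin r)}
    (hd : Function.Injective d) (hx : ∀ a, W a a * d a = d (π a)) (a b : Fin r) :
    ∑ c, W a c * d c * solV W d π c b = solV W d π a b * d (π b) := by
  classical
  have hsplit : ∑ c, W a c * d c * solV W d π c b = d (π a) * solV W d π a b +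
      ∑ c, if _h : a < c then W a c * d c * solV W d π c b else 0 := by
    rw [← hx a, ← Finset.sum_ite_eq' Finset.univ a (fun c => W a c * d c * solV W d π c b)
      |>.trans (if_pos (Finset.mem_univ a)), ← Finset.sum_add_distrib]
    refine Finset.sum_congr rfl fun c _ => ?_
    rcases lt_trichotomy a c with h | h | h
    · simp [h, h.ne']
    · subst h; simp
    · simp [h.ne, h.not_gt, hW h]
  rw [hsplit]
  rcases lt_trichotomy a b with h | h | h
  · have hne : d (π b) - d (π a) ≠ 0 :=
      sub_ne_zero.2 fun e => h.ne (π.injective (hd e)).symm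
    have e : solV W d π a b * (d (π b) - d (π a)) =
        ∑ c, if _h : a < c then W a c * d c * solV W d π c b else 0 := by
      conv_lhs => rw [solV, if_neg h.ne, if_pos h]
      exact div_mul_cancel₀ _ hne
    rw [← e]; ring
  · subst h
    rw [solV_diag, Finset.sum_eq_zero fun c _ => ?_]
    · ring
    split_ifs with hc
    · rw [solV_lower W d π hc, mul_zero]
    · rfl
  · rw [solV_lower W d π h, Finset.sum_eq_zero fun c _ => ?_]
    · ring
    split_ifs with hc
    · rw [solV_lower W d π (h.trans hc), mul_zero]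
    · rfl

lemma solV_mem {M : ℕ} (hM : 0 < M) {W : Mat r} (hW : UpN (cycInt M) ((M : ℂ) ^ 2) W)
    {d : Fin r → ℂ} {π : Equiv.Perm (Fin r)} (hd : Function.Injective d)
    (hdM : ∀ a, d a ^ M = 1) : ∀ (a b : Fin r),
      ∃ e ∈ cycInt M, solV W d π a b = (if a = b then 1 else 0) + (M : ℂ) * e := by
  intro a b
  induction hn : r - a.val using Nat.strong_induction_on generalizing a with
  | _ n ih =>
    rcases lt_trichotomy a b with h | h | h
    · have hd0 : ∀ i, d i ≠ 0 := fun i e => by
        have := hdM i; rw [e, zero_pow hM.ne'] at this; exact zero_ne_one this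
      set ω := d (π a) / d (π b) with hω
      have hω1 : ω ≠ 1 := fun e =>
        h.ne (π.injective (hd ((div_eq_one_iff_eq (hd0 _)).1 e)))
      have hq : (M : ℂ) / (d (π b) - d (π a)) ∈ cycInt M := by
        have e : (M : ℂ) / (d (π b) - d (π a)) = (M : ℂ) / (1 - ω) * (d (π b))⁻¹ := by
          have h1 : d (π b) - d (π a) = d (π b) * (1 - ω) := by
            rw [hω]; field_simp [hd0 (π b)]
          rw [h1]; field_simp
        rw [e]
        refine mul_mem (natCast_div_mem_cycInt hM ?_ hω1) (root_mem_cycInt hM ?_)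
        · rw [hω, div_pow, hdM, hdM, div_one]
        · rw [inv_pow, hdM, inv_one]
      have hterm : ∀ c, ∃ e ∈ cycInt M,
          (if _h : a < c then W a c * d c * solV W d π c b else 0) = (M : ℂ) ^ 2 * e := by
        intro c
        split_ifs with hc
        · obtain ⟨e, he, e1⟩ := hW.2.2 a c hc.ne
          obtain ⟨f, hf, f1⟩ := ih (r - c.val) (by omega) c rfl
          refine ⟨e * d c * solV W d π c b, mul_mem (mul_mem he (root_mem_cycInt hM (hdM c))) ?_,
            by rw [e1]; ring⟩
          rw [f1]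
          refine add_mem ?_ (mul_mem (natCast_mem _ M) hf)
          split_ifs <;> [exact one_mem _; exact zero_mem _]
        · exact ⟨0, zero_mem _, by ring⟩
      choose e he e1 using hterm
      refine ⟨(∑ c, e c) * ((M : ℂ) / (d (π b) - d (π a))),
        mul_mem (sum_mem fun c _ => he c) hq, ?_⟩
      rw [solV, if_neg h.ne, if_pos h, if_neg h.ne, Finset.sum_congr rfl fun c _ => e1 c,
        ← Finset.mul_sum]
      ring
    · exact ⟨0, zero_mem _, by subst h; simp [solV_diag]⟩
    · exact ⟨0, zero_mem _, by simp [solV_lower W d π h, h.ne']⟩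

lemma xlet_mem_two {z : Fin s → SLC r} {σ : PRep 1 s (SLC r)} (H : Subgroup (SLC r))
    (ha : ∀ i, σ.1.1 i ∈ H) (hb : ∀ i, σ.1.2 i ∈ H) (hc : ∀ j, pc z σ j ∈ H)
    (l : Lt 1 s) : xlet z σ l ∈ H := by
  have hT : ∀ x ∈ tailComm σ.1, x ∈ H := by
    intro x hx
    obtain ⟨k, rfl⟩ := List.mem_ofFn.1 hx
    rw [commutatorElement_def]
    exact mul_mem (mul_mem (mul_mem (ha _) (hb _)) (inv_mem (ha _))) (inv_mem (hb _))
  have hmid : ∀ k, mid σ.1 k ∈ H := fun k =>
    Subgroup.list_prod_mem H fun x hx => hT x (List.mem_of_mem_take hx)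
  have hp : ∀ j, pmid z σ j ∈ H := fun j => mul_mem (Subgroup.list_prod_mem H hT) <|
    Subgroup.list_prod_mem H fun x hx => by
      obtain ⟨i, rfl⟩ := List.mem_ofFn.1 (List.mem_of_mem_take hx)
      exact hc i
  rcases l with ⟨k, _ | _⟩ | j
  · exact mul_mem (mul_mem (hmid k) (ha _)) (inv_mem (hmid k))
  · exact mul_mem (mul_mem (hmid k) (mul_mem (mul_mem (ha _) (hb _)) (inv_mem (ha _))))
      (inv_mem (hmid k))
  · exact mul_mem (mul_mem (hp j) (hc j)) (inv_mem (hp j))

/-- The seed, given triangular forms of the classes with couplings between equal eigenvalues. -/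
theorem exists_seed_two_of [NeZero r] (hr : 2 ≤ r) (z₀ : Fin s → SLC r)
    (hsplit : ∀ g : Mat r, ∃ (U : (Mat r)ˣ) (J : Mat r), g = U.val * J * U⁻¹.val ∧
      J.BlockTriangular id ∧ (∀ a b, a ≠ b → J a b = 0 ∨ J a b = 1) ∧
      ∀ a b, J a b ≠ 0 → J a a = J b b)
    (hroot : ∀ j x, (z₀ j).val.charpoly.IsRoot x → ∃ k : ℕ, 0 < k ∧ x ^ k = 1) :
    ∃ M, 0 < M ∧ ∃ z : Fin s → SLC r, (∀ j, ∃ h : SLC r, z j = h * z₀ j * h⁻¹) ∧
      (∀ j, z j ∈ inR (cycInt M) r) ∧ ∃ σ : PRep 1 s (SLC r), σ.1.2 0 = 1 ∧ σ.1.1 0 = 1 ∧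
        relP z σ = 1 ∧ IntP (cycInt M) σ ∧ Nonempty (BlockTail (tailA z σ 1)) := by
  classical
  choose U J hJ htri h01 hcoup using fun j => hsplit (z₀ j).val
  have hdiagroot : ∀ j a, ∃ k : ℕ, 0 < k ∧ J j a a ^ k = 1 := fun j a => by
    refine hroot j _ ?_
    have hc := Matrix.charpoly_units_conj (U j) (J j)
    rw [← Matrix.coe_units_inv (U j), ← hJ j] at hc
    rw [hc, Matrix.charpoly_of_isUpperTriangular _ (htri j),
      Polynomial.IsRoot.def, Polynomial.eval_prod]
    exact Finset.prod_eq_zero (Finset.mem_univ a) (by simp)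
  choose ord hord0 hord using hdiagroot
  let m : ℕ := 2 * ∏ q : Fin s × Fin r, ord q.1 q.2
  have hm0 : 0 < m := Nat.mul_pos (by norm_num) (Finset.prod_pos fun q _ => hord0 _ _)
  have : NeZero m := ⟨hm0.ne'⟩
  have hJm : ∀ j a, J j a a ^ m = 1 := fun j a => by
    have : ord j a ∣ m := Dvd.dvd.mul_left (Finset.dvd_prod_of_mem
      (fun q : Fin s × Fin r => ord q.1 q.2) (Finset.mem_univ (j, a))) 2
    obtain ⟨k, hk⟩ := this
    rw [hk, pow_mul, hord, one_pow]
  let μ : Fin r → rootsOfUnity m ℂ := fun a => rootsOfUnity.mkOfPowEq (∏ j, J j a a)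
    (by rw [← Finset.prod_pow]; exact Finset.prod_eq_one fun j _ => hJm j a)
  have hμv : ∀ a, ((μ a : ℂˣ) : ℂ) = ∏ j, J j a a := fun a => by simp [μ]
  have hμ : ∏ a, μ a = 1 := by
    apply Subtype.ext
    apply Units.ext
    rw [SubmonoidClass.coe_finsetProd, Units.coe_prod]
    simp only [hμv, OneMemClass.coe_one, Units.val_one]
    rw [Finset.prod_comm]
    refine Finset.prod_eq_one fun j _ => ?_
    have h := congrArg Matrix.det (hJ j)
    rw [Matrix.det_units_conj, Matrix.SpecialLinearGroup.det_coe,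
      Matrix.det_of_isUpperTriangular (htri j)] at h
    exact h.symm
  obtain ⟨π₀, p₀, c₀, hcπ, hpπ, hsame, hinj⟩ := exists_cycles μ hμ
  -- sort the indices by cycle
  let τ := Tuple.sort c₀
  let S := Finset.univ.image c₀
  let e := S.orderIsoOfFin rfl
  let blk : Fin r → Fin S.card := fun a => e.symm ⟨c₀ (τ a), by simp [S]⟩
  have hblk : ∀ a b, blk a = blk b ↔ c₀ (τ a) = c₀ (τ b) := fun a b => by simp [blk]
  have hmono : ∀ a b, a ≤ b → blk a ≤ blk b := fun a b h =>
    e.symm.monotone (Tuple.monotone_sort c₀ h)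
  have hsurj : Function.Surjective blk := fun k => by
    obtain ⟨i, -, hi⟩ := Finset.mem_image.1 (e k).2
    refine ⟨τ.symm i, ?_⟩
    simp [blk, hi]
  let π : Equiv.Perm (Fin r) := τ⁻¹ * π₀ * τ
  have hπτ : ∀ a, τ (π a) = π₀ (τ a) := fun a => by simp [π]
  have hblkπ : ∀ a, blk (π a) = blk a := fun a => (hblk _ _).2 (by rw [hπτ, hcπ])
  let pv : Fin r → ℂ := fun a => ((p₀ (τ a) : ℂˣ) : ℂ)
  let xv : Fin r → ℂ := fun a => ∏ j, J j (τ a) (τ a)
  have hpvπ : ∀ a, pv (π a) = pv a * xv a := fun a => by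
    simp [pv, xv, hπτ, hpπ, hμv]
  have hpvm : ∀ a, pv a ^ m = 1 := fun a => by
    have := (mem_rootsOfUnity _ _).1 (p₀ (τ a)).2
    simpa [pv] using congrArg Units.val this
  have hpvinj : ∀ a b, blk a = blk b → pv a = pv b → a = b := fun a b hb hp =>
    τ.injective (hinj _ _ ((hblk a b).1 hb) (Subtype.ext (Units.ext hp)))
  -- primes for the blocks
  let B := m + 2 * r + 2
  let q : Fin S.card → ℕ := fun c => Nat.nth Nat.Prime (B + c)
  have hqp : ∀ c, (q c).Prime := fun c => Nat.prime_nth_prime _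
  have hqB : ∀ c, B < q c := fun c => by
    have := Nat.add_two_le_nth_prime (B + c)
    simp only [q]; omega
  have hqinj : Function.Injective q := fun c c' h =>
    Fin.ext (by have := Nat.nth_injective Nat.infinite_setOfPred_prime h; omega)
  let ξ : Fin S.card → ℂ := fun c => Complex.exp (2 * Real.pi * Complex.I / q c)
  have hξ : ∀ c, IsPrimitiveRoot (ξ c) (q c) := fun c =>
    Complex.isPrimitiveRoot_exp _ (hqp c).ne_zero
  have hcop : ∀ c, Nat.Coprime m (q c) := fun c => Nat.Coprime.symm <|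
    (hqp c).coprime_iff_not_dvd.2 fun h => by
      have := Nat.le_of_dvd hm0 h; have := hqB c; simp only [B] at *; omega
  have hξm : ∀ c, IsPrimitiveRoot ((ξ c)⁻¹ ^ m) (q c) := fun c =>
    (hξ c).inv.pow_of_coprime m (hcop c)
  let Q := ∏ c, q c
  have hQ0 : 0 < Q := Finset.prod_pos fun c _ => (hqp c).pos
  let M := r * (m * Q)
  have hr0 : 0 < r := by omega
  have hM : 0 < M := Nat.mul_pos hr0 (Nat.mul_pos hm0 hQ0)
  have hdvd : ∀ x : ℂ, x ^ m = 1 → x ^ M = 1 := fun x hx => by
    rw [show M = m * (r * Q) by simp only [M]; ring, pow_mul, hx, one_pow]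
  have hξQ : ∀ c, ξ c ^ (m * Q) = 1 := fun c => by
    obtain ⟨k, hk⟩ : q c ∣ Q := Finset.dvd_prod_of_mem q (Finset.mem_univ c)
    rw [hk, show m * (q c * k) = q c * (k * m) by ring, pow_mul, (hξ c).pow_eq_one, one_pow]
  obtain ⟨lam, hlam⟩ := IsAlgClosed.exists_pow_nat_eq (∏ a, pv a * ξ (blk a))⁻¹ hr0
  have hlamM : lam ^ M = 1 := by
    rw [show M = r * (m * Q) from rfl, pow_mul, hlam, inv_pow, ← Finset.prod_pow,
      Finset.prod_eq_one fun a _ => ?_, inv_one]
    rw [mul_pow, hξQ, pow_mul, hpvm, one_pow, one_mul]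
  let d : Fin r → ℂ := fun a => lam * ξ (blk a) * pv a
  have hdM : ∀ a, d a ^ M = 1 := fun a => by
    simp only [d, mul_pow, hlamM, hdvd _ (hpvm a)]
    rw [show M = m * Q * r by simp only [M]; ring, pow_mul, hξQ, one_pow]
    norm_num
  have hd0 : ∀ a, d a ≠ 0 := fun a h => by
    have := hdM a; rw [h, zero_pow hM.ne'] at this; exact zero_ne_one this
  have hlam0 : lam ≠ 0 := fun h => by
    rw [h, zero_pow hM.ne'] at hlamM; exact zero_ne_one hlamM
  have hdinvm : ∀ a, (d a)⁻¹ ^ m = lam⁻¹ ^ m * (ξ (blk a))⁻¹ ^ m := fun a => by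
    simp only [d, mul_inv, mul_pow, inv_pow, hpvm, inv_one, mul_one]
  have hdinj : Function.Injective d := fun a b h => by
    have h' := congrArg (fun x : ℂ => x⁻¹ ^ m) h
    simp only [hdinvm] at h'
    have h2 := mul_left_cancel₀ (pow_ne_zero m (inv_ne_zero hlam0)) h'
    have hb : blk a = blk b := hqinj <| (hξm (blk a)).unique (by rw [h2]; exact hξm (blk b))
    refine hpvinj a b hb ?_
    have hne : lam * ξ (blk b) ≠ 0 := mul_ne_zero hlam0 ((hξ _).ne_zero (hqp _).ne_zero)
    simp only [d, hb] at h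
    exact mul_left_cancel₀ hne h
  have hdπ : ∀ a, d (π a) = xv a * d a := fun a => by
    simp only [d, hblkπ, hpvπ]; ring
  -- representatives of the classes
  choose τj hτf hτmono using fun j => exists_reorder (fun a => J j a a) τ
  have hupper : ∀ j a b, b < a → J j (τj j a) (τj j b) = 0 := fun j a b hba => by
    by_contra hne
    have hf := hcoup j _ _ hne
    have hle : τj j a ≤ τj j b := by
      by_contra h
      exact hne (htri j (not_le.1 h))
    exact absurd hle (hτmono j b a hf.symm hba).not_ge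
  let Z : Fin s → Mat r := fun j => Matrix.of fun a b =>
    J j (τj j a) (τj j b) * ((M : ℂ) ^ 2) ^ ((b : ℕ) - a)
  have hZ : ∀ j, ∃ z : SLC r, z.val = Z j ∧ ∃ k : SLC r, z = k * z₀ j * k⁻¹ := by
    intro j
    have hN : ((M : ℂ) ^ 2) ≠ 0 := pow_ne_zero _ (Nat.cast_ne_zero.2 hM.ne')
    let E : Mat r := Matrix.diagonal fun a => ((((M : ℂ) ^ 2)) ^ (a : ℕ))⁻¹
    let Pm : Mat r := (τj j).permMatrix ℂ
    refine exists_conj_SL (T := E * Pm * (U j)⁻¹.val) ?_ ?_
    · simp only [Matrix.det_mul, E, Pm, Matrix.det_diagonal, Matrix.det_permutation]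
      refine mul_ne_zero (mul_ne_zero (Finset.prod_ne_zero_iff.2 fun a _ =>
        inv_ne_zero (pow_ne_zero _ hN)) ?_) ?_
      · rcases Int.units_eq_one_or (Equiv.Perm.sign (τj j)) with h | h <;> rw [h] <;> norm_num
      · exact ((Matrix.isUnit_iff_isUnit_det _).1 (U j)⁻¹.isUnit).ne_zero
    · have e1 : Z j * E = E * (J j).submatrix (τj j) (τj j) := by
        ext a b
        simp only [E, Matrix.mul_diagonal, Matrix.diagonal_mul, Z, Matrix.of_apply,
          Matrix.submatrix_apply]
        rcases lt_or_ge b a with h | h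
        · rw [hupper j a b h]; ring
        · have : ((M : ℂ) ^ 2) ^ (b : ℕ) =
              ((M : ℂ) ^ 2) ^ ((b : ℕ) - a) * ((M : ℂ) ^ 2) ^ (a : ℕ) := by
            rw [← pow_add, Nat.sub_add_cancel h]
          rw [this]
          field_simp
      have e2 : (J j).submatrix (τj j) (τj j) * Pm = Pm * J j := by
        simp only [Pm, Equiv.Perm.permMatrix, PEquiv.mul_toMatrix_toPEquiv,
          PEquiv.toMatrix_toPEquiv_mul, Matrix.submatrix_submatrix]
        congr 1
        funext b
        simp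
      calc Z j * (E * Pm * (U j)⁻¹.val)
          = E * ((J j).submatrix (τj j) (τj j) * Pm) * (U j)⁻¹.val := by
            rw [← Matrix.mul_assoc, ← Matrix.mul_assoc, e1]; simp only [Matrix.mul_assoc]
        _ = E * Pm * (U j)⁻¹.val * (z₀ j).val := by
            rw [e2, hJ j]; simp only [Matrix.mul_assoc]
            rw [Units.inv_mul_cancel_left]
  choose z hzval hzconj using hZ
  set R := cycInt M
  have hNR : ∀ k : ℕ, (((M : ℂ) ^ 2) ^ k) ∈ R := fun k => pow_mem (pow_mem (natCast_mem _ M) 2) k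
  have hJR : ∀ j a b, J j a b ∈ R := fun j a b => by
    by_cases hab : a = b
    · subst hab; exact root_mem_cycInt hM (hdvd _ (hJm j a))
    · rcases h01 j a b hab with h | h <;> rw [h] <;> [exact zero_mem R; exact one_mem R]
  have hUpN : ∀ j, UpN R ((M : ℂ) ^ 2) (z j).val := fun j => by
    rw [hzval j]
    refine ⟨fun a b h => by simp [Z, hupper j a b h],
      fun a b => mul_mem (hJR _ _ _) (hNR _), fun a b hab => ?_⟩
    rcases lt_or_gt_of_ne hab with h | h
    · obtain ⟨k, hk⟩ : ∃ k, (b : ℕ) - a = k + 1 := ⟨b - a - 1, by omega⟩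
      exact ⟨J j (τj j a) (τj j b) * ((M : ℂ) ^ 2) ^ k, mul_mem (hJR _ _ _) (hNR _),
        by simp [Z, hk, pow_succ]; ring⟩
    · exact ⟨0, zero_mem R, by simp [Z, hupper j a b h]⟩
  obtain ⟨hWN, hWdiag⟩ := upN_prod z hUpN
  set W := (List.ofFn z).prod
  have hWd : ∀ a, W.val a a * d a = d (π a) := fun a => by
    rw [hWdiag, hdπ]
    congr 1
    refine Finset.prod_congr rfl fun j _ => ?_
    simp [hzval, Z, hτf]
  -- the two generators
  let Vm : Mat r := Matrix.of (solV W.val d π)
  have hVup : Vm.BlockTriangular id := fun a b h => solV_lower _ _ _ h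
  have hVdet : Vm.det = 1 := by
    rw [Matrix.det_of_isUpperTriangular hVup]
    exact Finset.prod_eq_one fun a _ => solV_diag _ _ _ a
  let w : Fin r → ℂ := fun a => if a = 0 then ((Equiv.Perm.sign π : ℤ) : ℂ) else 1
  have hw2 : ∀ a, w a * w a = 1 := fun a => by
    simp only [w]
    split_ifs
    · rcases Int.units_eq_one_or (Equiv.Perm.sign π) with h | h <;> rw [h] <;> norm_num
    · norm_num
  have hwR : ∀ a, w a ∈ R := fun a => by
    simp only [w]; split_ifs <;> [exact intCast_mem R _; exact one_mem R]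
  let Pi : Mat r := Matrix.diagonal w * π.permMatrix ℂ
  have hPapp : ∀ a b, Pi a b = if b = π a then w a else 0 := fun a b => by
    simp only [Pi, Matrix.diagonal_mul, Equiv.Perm.permMatrix, PEquiv.toMatrix_apply,
      Equiv.toPEquiv_apply, Option.mem_def, Option.some.injEq, mul_ite, mul_one, mul_zero,
      eq_comm (a := π a)]
  have hPdet : Pi.det = 1 := by
    simp only [Pi, Matrix.det_mul, Matrix.det_diagonal, Matrix.det_permutation, w,
      Finset.prod_ite_eq', Finset.mem_univ, if_true]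
    rcases Int.units_eq_one_or (Equiv.Perm.sign π) with h | h <;> rw [h] <;> norm_num
  have hddet : (Matrix.diagonal d).det = 1 := by
    have hne : (∏ a, pv a * ξ (blk a)) ≠ 0 := Finset.prod_ne_zero_iff.2 fun a _ h => by
      refine hd0 a ?_
      show lam * ξ (blk a) * pv a = 0
      rw [mul_assoc, mul_comm (ξ (blk a)), h, mul_zero]
    rw [Matrix.det_diagonal, show (∏ a, d a) = ∏ a, lam * (pv a * ξ (blk a)) from
      Finset.prod_congr rfl fun a _ => by simp only [d]; ring, Finset.prod_mul_distrib,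
      Finset.prod_const, Finset.card_univ, Fintype.card_fin, hlam, inv_mul_cancel₀ hne]
  let P : SLC r := ⟨Pi, hPdet⟩
  let D : SLC r := ⟨Matrix.diagonal d, hddet⟩
  let V : SLC r := ⟨Vm, hVdet⟩
  have hVR : V ∈ inR R r := mem_inR.2 fun a b => by
    obtain ⟨e, he, h⟩ := solV_mem hM hWN hdinj hdM a b
    show solV W.val d π a b ∈ R
    rw [h]
    refine add_mem ?_ (mul_mem (natCast_mem _ M) he)
    split_ifs <;> [exact one_mem R; exact zero_mem R]
  have hDR : D ∈ inR R r := mem_inR.2 fun a b => by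
    show Matrix.diagonal d a b ∈ R
    rw [Matrix.diagonal_apply]
    split_ifs <;> [exact root_mem_cycInt hM (hdM a); exact zero_mem R]
  have hPR : P ∈ inR R r := mem_inR.2 fun a b => by
    show Pi a b ∈ R
    rw [hPapp]; split_ifs <;> [exact hwR a; exact zero_mem R]
  have hDinv : D⁻¹.val = Matrix.diagonal fun a => (d a)⁻¹ := by
    have h := val_inv_mul D
    refine left_inv_eq_right_inv h ?_
    show Matrix.diagonal d * _ = 1
    rw [Matrix.diagonal_mul_diagonal, ← Matrix.diagonal_one]
    congr 1; funext a; exact mul_inv_cancel₀ (hd0 a)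
  have hrel : ⁅D, V * P⁆ * W = 1 := by
    have key : W * D * V * P * D⁻¹ = V * P := by
      refine Subtype.ext ?_
      simp only [Matrix.SpecialLinearGroup.coe_mul, hDinv]
      ext a b
      have hl : (W.val * Matrix.diagonal d * Vm * Pi * Matrix.diagonal fun a => (d a)⁻¹) a b =
          (∑ c, W.val a c * d c * solV W.val d π c (π.symm b)) * w (π.symm b) * (d b)⁻¹ := by
        rw [Matrix.mul_diagonal, Matrix.mul_apply, Finset.sum_eq_single (π.symm b)
          (fun c _ hc => ?_) (by simp)]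
        · rw [hPapp, if_pos (Equiv.apply_symm_apply π b).symm, Matrix.mul_apply]
          simp only [Matrix.mul_diagonal, Vm, Matrix.of_apply]
        · rw [hPapp, if_neg fun h => hc (by rw [h]; simp), mul_zero]
      refine hl.trans ?_
      rw [solV_eq hWN.1 hdinj hWd, Equiv.apply_symm_apply]
      show _ = (Vm * Pi) a b
      rw [Matrix.mul_apply, Finset.sum_eq_single (π.symm b) (fun c _ hc => ?_) (by simp)]
      · simp only [hPapp, Equiv.apply_symm_apply, if_true, Vm, Matrix.of_apply]
        field_simp [hd0 b]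
      · rw [hPapp, if_neg fun h => hc (by rw [h]; simp), mul_zero]
    rw [commutatorElement_def]
    calc D * (V * P) * D⁻¹ * (V * P)⁻¹ * W
        = W⁻¹ * (W * D * V * P * D⁻¹) * (V * P)⁻¹ * W := by group
      _ = 1 := by rw [key]; group
  let σ : PRep 1 s (SLC r) := ((![1, D], ![1, V * P]), fun _ => 1)
  have hpc : ∀ j, pc z σ j = z j := fun j => by simp [pc, σ]
  have hH : ∀ l, xlet z σ l ∈ bupG blk := by
    have hmem : ∀ g : Mat r, g.BlockTriangular id → g.BlockTriangular blk := fun g hg a b h =>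
      hg (lt_of_not_ge fun hab => (hmono a b hab).not_gt h)
    have hVb : V ∈ bupG blk := mem_bupG.2 (hmem _ hVup)
    have hPb : P ∈ bupG blk := mem_bupG.2 fun a b h => by
      show Pi a b = 0
      rw [hPapp, if_neg]
      rintro rfl
      exact h.ne (hblkπ a)
    have hDb : D ∈ bupG blk := mem_bupG.2 (blockTriangular_diagonal d)
    refine xlet_mem_two _ (fun i => ?_) (fun i => ?_) fun j => ?_
    · fin_cases i
      · exact one_mem _
      · exact hDb
    · fin_cases i
      · exact one_mem _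
      · exact mul_mem hVb hPb
    · rw [hpc j]
      exact mem_bupG.2 (hmem _ (hUpN j).1)
  have hk1 : ∀ k : Fin 1, xlet z σ (.inl (k, false)) = D := fun k => by
    fin_cases k; simp [xlet, mid, σ]
  have hk2 : ∀ k : Fin 1, xlet z σ (.inl (k, true)) = D * (V * P) * D⁻¹ := fun k => by
    fin_cases k; simp [xlet, mid, σ]
  have hPinv : ∀ a b, P⁻¹.val a b = if b = π.symm a then w (π.symm a) else 0 := by
    intro a b
    have e : P⁻¹.val = Matrix.of fun a b => if b = π.symm a then w (π.symm a) else 0 := by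
      refine (right_inv_eq_left_inv (val_mul_inv P) ?_).trans rfl
      ext a b
      rw [Matrix.mul_apply, Finset.sum_eq_single (π.symm a)
        (fun c _ hc => by simp [hc]) (by simp)]
      show (if π.symm a = π.symm a then w (π.symm a) else 0) * Pi (π.symm a) b = _
      rw [hPapp, if_pos rfl, Equiv.apply_symm_apply]
      by_cases hab : b = a
      · subst hab; simp [hw2]
      · simp [hab, Ne.symm hab]
    simp [e]
  refine ⟨M, hM, z, hzconj, fun j => mem_inR.2 fun a b => (hUpN j).2.1 a b, σ, rfl, rfl, ?_,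
    ⟨fun i => ?_, fun j => one_mem _⟩, ⟨?_⟩⟩
  · have e : pprod z σ = W := by simp [pprod, W, funext hpc]
    rw [relP, e, relator]
    simpa [σ, tailComm, commutatorElement_def] using hrel
  · fin_cases i
    · exact ⟨one_mem _, one_mem _⟩
    · exact ⟨hDR, mul_mem hVR hPR⟩
  refine
    { K := S.card
      blk := blk
      surj := hsurj
      ν := fun a => (d a)⁻¹
      k₁ := (lE 1 s).symm (.inl (0, false))
      diag := by rw [tailA_succ, Equiv.apply_symm_apply, hk1, hDinv]
      inj := fun a b h => hdinj (inv_injective h)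
      p := q
      prime := hqp
      inj_p := hqinj
      large := fun c => by have := hqB c; simp only [B] at this; omega
      ξ := fun c => (ξ c)⁻¹ ^ m
      prim := hξm
      M₀ := m
      M₀_pos := hm0
      lam := lam⁻¹ ^ m
      lam_ne := pow_ne_zero _ (inv_ne_zero hlam0)
      torus := hdinvm
      upper := fun k a b h => by
        rw [tailA_succ]; exact mem_bupG.1 (inv_mem (hH _)) h
      k₂ := (lE 1 s).symm (.inl (0, true))
      π := π⁻¹
      blk_π := fun a => by
        have := hblkπ (π⁻¹ a)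
        rw [show π (π⁻¹ a) = a by simp] at this
        exact this.symm
      cycle := fun a b h => ?_
      m := M
      hm := le_trans hr (Nat.le_mul_of_pos_right r (Nat.mul_pos hm0 hQ0))
      u := fun a => d a * w (π.symm a) * (d (π.symm a))⁻¹
      unit := fun a => ?_
      cong := fun a b => ?_ }
  · obtain ⟨i, hi⟩ := (Equiv.Perm.sameCycle_inv.2 (hsame _ _ ((hblk a b).1 h))).exists_nat_pow_eq
    refine ⟨i, τ.injective ?_⟩
    rw [← hi, show π⁻¹ = τ⁻¹ * π₀⁻¹ * τ by simp only [π]; group]
    have : ∀ n : ℕ, (τ⁻¹ * π₀⁻¹ * τ) ^ n = τ⁻¹ * π₀⁻¹ ^ n * τ := fun n => by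
      induction n with
      | zero => simp
      | succ n ih => rw [pow_succ, ih, pow_succ]; group
    simp [this]
  · have hu : (d a * w (π.symm a) * (d (π.symm a))⁻¹) ^ M = 1 := by
      have h2 : w (π.symm a) ^ M = 1 := by
        rw [show M = 2 * (r * Q * ∏ q : Fin s × Fin r, ord q.1 q.2) by simp only [M, m]; ring,
          pow_mul, sq, hw2, one_pow]
      rw [mul_pow, mul_pow, inv_pow, hdM, hdM, h2]; norm_num
    refine ⟨(mem_cycInt.1 (root_mem_cycInt hM hu)).2,
      (mem_cycInt.1 (root_mem_cycInt hM (by rw [inv_pow, hu, inv_one]))).2, fun h => ?_⟩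
    rw [h, zero_pow hM.ne'] at hu; exact zero_ne_one hu
  · -- congruence of the cyclic letter
    rw [tailA_succ, Equiv.apply_symm_apply, hk2]
    choose X hXR hX using solV_mem hM hWN hdinj hdM
    have hVinv : ∀ c, ∃ e ∈ R, V⁻¹.val c b = (if c = b then 1 else 0) + (M : ℂ) * e := fun c => by
      refine ⟨-∑ i, V⁻¹.val c i * X i b,
        neg_mem (sum_mem fun i _ => mul_mem (mem_inR.1 (inv_mem hVR) c i) (hXR _ _)), ?_⟩
      have h1 : ∑ i, V⁻¹.val c i * solV W.val d π i b = if c = b then 1 else 0 := by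
        have := congrFun (congrFun (val_inv_mul V) c) b
        rw [Matrix.mul_apply, Matrix.one_apply] at this
        exact this
      have h2 : ∀ i, V⁻¹.val c i * solV W.val d π i b =
          (if i = b then V⁻¹.val c i else 0) + V⁻¹.val c i * ((M : ℂ) * X i b) := fun i => by
        rw [hX i b]; split_ifs <;> ring
      rw [Finset.sum_congr rfl fun i _ => h2 i, Finset.sum_add_distrib, Finset.sum_ite_eq',
        if_pos (Finset.mem_univ b)] at h1
      have e : ∑ i, V⁻¹.val c i * ((M : ℂ) * X i b) = (M : ℂ) * ∑ i, V⁻¹.val c i * X i b := by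
        rw [Finset.mul_sum]
        exact Finset.sum_congr rfl fun i _ => by ring
      linear_combination h1 - e
    obtain ⟨e, heR, he⟩ := hVinv (π.symm a)
    refine ⟨d a * w (π.symm a) * (d b)⁻¹ * e, ?_, ?_⟩
    · exact (mem_cycInt.1 (mul_mem (mul_mem (mul_mem (root_mem_cycInt hM (hdM a)) (hwR _))
        (root_mem_cycInt hM (by rw [inv_pow, hdM, inv_one]))) heR)).2
    · rw [show (D * (V * P) * D⁻¹)⁻¹ = D * P⁻¹ * V⁻¹ * D⁻¹ by group]
      simp only [Matrix.SpecialLinearGroup.coe_mul, hDinv]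
      rw [Matrix.mul_diagonal, show D.val = Matrix.diagonal d from rfl, Matrix.mul_assoc,
        Matrix.diagonal_mul, Matrix.mul_apply, Finset.sum_eq_single (π.symm a)
        (fun c _ hc => by rw [hPinv, if_neg hc, zero_mul]) (by simp), hPinv, if_pos rfl, he]
      show _ = (if b = π⁻¹ a then _ else 0) + _
      rw [show π⁻¹ a = π.symm a from rfl]
      by_cases hab : b = π.symm a
      · subst hab; simp only [if_true]; ring
      · rw [if_neg hab, if_neg fun h => hab h.symm]; ring

end Vale.Agent.P002
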